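import Crest.Agent.N250.Wt.Base
import Crest.Agent.N250.G.Ev2

/-!
# Row 250 (helper86): the dictionary between the real and the complex calculus on a `Geo`
-/

set_option autoImplicit false
set_option linter.unusedSectionVars false
open MeasureTheory Set Filter Topology
open scoped ContDiff ENNReal NNReal ComplexConjugate

noncomputable section

namespace Crest.Agent.N250

open Crest.Agent.N222

namespace Mov

section Hom

variable {R : Type} [CommRing R] [Algebra ℝ R] {ι : Type} [Fintype ι] {S : Mov R ι}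
  {R' : Type} [CommRing R'] [Algebra ℝ R'] {S' : Mov R' ι} {φ : R →+* R'} (H : S.Hom S' φ)
include H

theorem Hom.dr (f : R) : φ (S.dr f) = S'.dr (φ f) := by
  simp only [Mov.dr, map_sum, map_mul, H.D, H.x]

theorem Hom.Pi (i : ℕ) (f : R) : φ (S.Pi i f) = S'.Pi i (φ f) := by
  simp only [Mov.Pi, map_add, map_mul, map_sub, map_natCast, map_one, H.dr]

theorem Hom.Mi (hφ : ∀ r : ℝ, φ (algebraMap ℝ R r) = algebraMap ℝ R' r) (i : ℕ) (f : R) :
    φ (S.Mi i f) = S'.Mi i (φ f) := by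
  simp only [Mov.Mi, map_mul, map_sub, hφ, H.Pi, H.toHom.lap]

theorem Hom.LL (hφ : ∀ r : ℝ, φ (algebraMap ℝ R r) = algebraMap ℝ R' r) (f : R) :
    φ (S.LL f) = S'.LL (φ f) := by
  simp only [Mov.LL, map_mul, map_add, H.Mi hφ, H.a2]

theorem Hom.x2' : φ S.x2 = S'.x2 := by simp only [Mov.x2, map_sum, map_mul, H.x]

theorem Hom.xn' : φ S.xn = S'.xn := by simp only [Mov.xn, map_sum, map_mul, H.x, H.n]

end Hom

section Lin

variable {R : Type} [CommRing R] [Algebra ℝ R] {ι : Type} [Fintype ι] {S : Mov R ι}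
  (H : S.toPre.IsDS)
include H

theorem Dw_add (l : List ι) (f g : R) : S.Dw l (f + g) = S.Dw l f + S.Dw l g := by
  induction l with
  | nil => rfl
  | cons a l ih => simp only [Mov.Dw, ih, H.add]

theorem Dw_zero (l : List ι) : S.Dw l 0 = 0 := by
  induction l with
  | nil => rfl
  | cons a l ih => simp only [Mov.Dw, ih, H.D_zero]

theorem Dw_neg (l : List ι) (f : R) : S.Dw l (-f) = -S.Dw l f := by
  induction l with
  | nil => rfl
  | cons a l ih => simp only [Mov.Dw, ih, H.D_neg]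

theorem Dw_sub (l : List ι) (f g : R) : S.Dw l (f - g) = S.Dw l f - S.Dw l g := by
  rw [sub_eq_add_neg, Dw_add H, Dw_neg H, sub_eq_add_neg]

theorem Dw_sum {κ : Type} (l : List ι) (s : Finset κ) (f : κ → R) :
    S.Dw l (∑ i ∈ s, f i) = ∑ i ∈ s, S.Dw l (f i) := by
  induction l with
  | nil => rfl
  | cons a l ih => simp only [Mov.Dw, ih, H.D_sum]

/-- constants of the calculus commute with everything -/
theorem D_cmul {c : R} (hc : ∀ a, S.D a c = 0) (a : ι) (f : R) : S.D a (c * f) = c * S.D a f := by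
  rw [H.mul, hc]; ring

theorem Dw_cmul {c : R} (hc : ∀ a, S.D a c = 0) (l : List ι) (f : R) :
    S.Dw l (c * f) = c * S.Dw l f := by
  induction l with
  | nil => rfl
  | cons a l ih => simp only [Mov.Dw, ih, D_cmul H hc]

theorem dr_add (f g : R) : S.dr (f + g) = S.dr f + S.dr g := by
  simp only [Mov.dr, H.add, mul_add, Finset.sum_add_distrib]

theorem dr_mul (f g : R) : S.dr (f * g) = f * S.dr g + S.dr f * g := by
  simp only [Mov.dr, H.mul, Finset.mul_sum, Finset.sum_mul, ← Finset.sum_add_distrib]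
  exact Finset.sum_congr rfl fun a _ => by ring

theorem dr_cmul {c : R} (hc : ∀ a, S.D a c = 0) (f : R) : S.dr (c * f) = c * S.dr f := by
  simp only [Mov.dr, D_cmul H hc, Finset.mul_sum]
  exact Finset.sum_congr rfl fun a _ => by ring

theorem lap_add' (f g : R) : S.lap (f + g) = S.lap f + S.lap g := by
  simp only [Pre.lap, H.add, Finset.sum_add_distrib]

theorem lap_cmul {c : R} (hc : ∀ a, S.D a c = 0) (f : R) : S.lap (c * f) = c * S.lap f := by
  simp only [Pre.lap, D_cmul H hc, Finset.mul_sum]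

theorem Pi_add (i : ℕ) (f g : R) : S.Pi i (f + g) = S.Pi i f + S.Pi i g := by
  simp only [Mov.Pi, dr_add H]; ring

theorem Pi_cmul {c : R} (hc : ∀ a, S.D a c = 0) (i : ℕ) (f : R) :
    S.Pi i (c * f) = c * S.Pi i f := by
  simp only [Mov.Pi, dr_cmul H hc]; ring

theorem Mi_add (i : ℕ) (f g : R) : S.Mi i (f + g) = S.Mi i f + S.Mi i g := by
  simp only [Mov.Mi, Pi_add H, lap_add' H]; ring

theorem Mi_cmul {c : R} (hc : ∀ a, S.D a c = 0) (i : ℕ) (f : R) :
    S.Mi i (c * f) = c * S.Mi i f := by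
  simp only [Mov.Mi, Pi_cmul H hc, lap_cmul H hc]; ring

theorem LL_add (f g : R) : S.LL (f + g) = S.LL f + S.LL g := by
  simp only [Mov.LL, Mi_add H]; ring

theorem LL_cmul {c : R} (hc : ∀ a, S.D a c = 0) (f : R) : S.LL (c * f) = c * S.LL f := by
  simp only [Mov.LL, Mi_cmul H hc]; ring

theorem LL_zero : S.LL 0 = 0 := by simpa using LL_cmul H (c := 0) H.D_zero 0

theorem LL_neg (f : R) : S.LL (-f) = -S.LL f := by
  simpa using LL_cmul H (c := -1) (fun a => by rw [H.D_neg, H.D_one, neg_zero]) f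

theorem LL_sub (f g : R) : S.LL (f - g) = S.LL f - S.LL g := by
  rw [sub_eq_add_neg, LL_add H, LL_neg H, sub_eq_add_neg]

theorem LL_sum {κ : Type} (s : Finset κ) (f : κ → R) :
    S.LL (∑ i ∈ s, f i) = ∑ i ∈ s, S.LL (f i) := by
  classical
  induction s using Finset.induction_on with
  | empty => simpa using LL_zero H
  | insert i s hi ih => rw [Finset.sum_insert hi, Finset.sum_insert hi, LL_add H, ih]

end Lin

end Mov

theorem sumW_mul' {ι : Type} [Fintype ι] (c : ℝ≥0∞) (k : ℕ) (F : List ι → ℝ≥0∞) :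
    sumW k (fun w => c * F w) = c * sumW k F := by
  induction k generalizing F with
  | zero => rfl
  | succ k ih => simp only [sumW, ih, Finset.mul_sum]

namespace WS.Geo

variable {X : Type} [TopologicalSpace X] [MeasurableSpace X] (G : Geo X)

/-! ### real and imaginary parts -/

@[simp] theorem oR_apply (u : G.R) (p : X) : (G.oR u).1 p = (u.1 p : ℂ) := rfl
@[simp] theorem re_apply (f : G.SmC) (p : X) : (G.re f).1 p = (f.1 p).re := rfl
@[simp] theorem im_apply (f : G.SmC) (p : X) : (G.im f).1 p = (f.1 p).im := rfl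

theorem extR {u v : G.R} (h : ∀ p, u.1 p = v.1 p) : u = v := Subtype.ext (funext h)
theorem extC {f g : G.SmC} (h : ∀ p, f.1 p = g.1 p) : f = g := Subtype.ext (funext h)

theorem ext_ri {f g : G.SmC} (h1 : G.re f = G.re g) (h2 : G.im f = G.im g) : f = g :=
  G.extC fun p => Complex.ext (congrFun (congrArg Subtype.val h1) p)
    (congrFun (congrArg Subtype.val h2) p)

theorem oR_injective : Function.Injective G.oR := fun _ _ h =>
  G.extR fun p => Complex.ofReal_injective (congrFun (congrArg Subtype.val h) p)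

@[simp] theorem re_oR (u : G.R) : G.re (G.oR u) = u := G.extR fun _ => rfl
@[simp] theorem im_oR (u : G.R) : G.im (G.oR u) = 0 := G.extR fun _ => rfl
@[simp] theorem re_add (f g : G.SmC) : G.re (f + g) = G.re f + G.re g := G.extR fun _ => rfl
@[simp] theorem im_add (f g : G.SmC) : G.im (f + g) = G.im f + G.im g := G.extR fun _ => rfl
@[simp] theorem re_sub (f g : G.SmC) : G.re (f - g) = G.re f - G.re g := G.extR fun _ => rfl
@[simp] theorem im_sub (f g : G.SmC) : G.im (f - g) = G.im f - G.im g := G.extR fun _ => rfl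
@[simp] theorem re_neg (f : G.SmC) : G.re (-f) = -G.re f := G.extR fun _ => rfl
@[simp] theorem im_neg (f : G.SmC) : G.im (-f) = -G.im f := G.extR fun _ => rfl
@[simp] theorem re_zero : G.re 0 = 0 := G.extR fun _ => rfl
@[simp] theorem im_zero : G.im 0 = 0 := G.extR fun _ => rfl
@[simp] theorem re_one : G.re 1 = 1 := G.extR fun _ => rfl
@[simp] theorem im_one : G.im 1 = 0 := G.extR fun _ => rfl
theorem re_mul (f g : G.SmC) : G.re (f * g) = G.re f * G.re g - G.im f * G.im g :=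
  G.extR fun _ => rfl
theorem im_mul (f g : G.SmC) : G.im (f * g) = G.re f * G.im g + G.im f * G.re g :=
  G.extR fun _ => rfl
@[simp] theorem re_I (f : G.SmC) : G.re (Complex.I • f) = -G.im f :=
  G.extR fun p => by
    show (Complex.I * f.1 p).re = -(f.1 p).im
    simp
@[simp] theorem im_I (f : G.SmC) : G.im (Complex.I • f) = G.re f :=
  G.extR fun p => by
    show (Complex.I * f.1 p).im = (f.1 p).re
    simp
@[simp] theorem re_oR_mul (s : G.R) (f : G.SmC) : G.re (G.oR s * f) = s * G.re f := by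
  simp [re_mul]
@[simp] theorem im_oR_mul (s : G.R) (f : G.SmC) : G.im (G.oR s * f) = s * G.im f := by
  simp [im_mul]

/-- `re` as an additive map -/
def reH : G.SmC →+ G.R := ⟨⟨G.re, G.re_zero⟩, G.re_add⟩

/-- `im` as an additive map -/
def imH : G.SmC →+ G.R := ⟨⟨G.im, G.im_zero⟩, G.im_add⟩

theorem re_sum {κ : Type} (s : Finset κ) (f : κ → G.SmC) :
    G.re (∑ i ∈ s, f i) = ∑ i ∈ s, G.re (f i) := map_sum G.reH f s

theorem im_sum {κ : Type} (s : Finset κ) (f : κ → G.SmC) :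
    G.im (∑ i ∈ s, f i) = ∑ i ∈ s, G.im (f i) := map_sum G.imH f s

theorem re_add_im (f : G.SmC) : G.oR (G.re f) + Complex.I • G.oR (G.im f) = f :=
  G.ext_ri (by simp) (by simp)

theorem oR_algebraMap (r : ℝ) : G.oR (algebraMap ℝ G.R r) = algebraMap ℝ G.SmC r :=
  G.extC fun _ => rfl

theorem algebraMap_apply (c : ℂ) (p : X) : (algebraMap ℂ G.SmC c).1 p = c := rfl

theorem re_algebraMap (c : ℂ) : G.re (algebraMap ℂ G.SmC c) = algebraMap ℝ G.R c.re :=
  G.extR fun _ => rfl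

theorem im_algebraMap (c : ℂ) : G.im (algebraMap ℂ G.SmC c) = algebraMap ℝ G.R c.im :=
  G.extR fun _ => rfl

theorem oR_smul (r : ℝ) (u : G.R) : G.oR (r • u) = (r : ℂ) • G.oR u :=
  G.extC fun _ => Complex.ofReal_mul _ _

/-! ### the complex calculus -/

theorem ds : G.S.toPre.IsDS := G.hyp.toIsDS

@[simp] theorem re_D (a : Fin 3) (f : G.SmC) : G.re (G.SC.D a f) = G.S.D a (G.re f) := by
  simp [SC]

@[simp] theorem im_D (a : Fin 3) (f : G.SmC) : G.im (G.SC.D a f) = G.S.D a (G.im f) := by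
  simp [SC]

theorem SC_x (a : Fin 3) : G.SC.x a = G.oR (G.S.x a) := rfl
theorem SC_n (a : Fin 3) : G.SC.n a = G.oR (G.n a) := rfl

theorem D_oR (a : Fin 3) (u : G.R) : G.SC.D a (G.oR u) = G.oR (G.S.D a u) :=
  G.ext_ri (by simp) (by simp [G.ds.D_zero])

/-- `oR` commutes with the calculus -/
theorem hom : G.S.Hom G.SC G.oR where
  x _ := rfl
  D a u := (G.D_oR a u).symm
  T _ := map_zero _
  n _ := rfl
  V := map_zero _

theorem SC_P (a b : Fin 3) : G.SC.P a b = G.oR (G.S.P a b) := G.D_oR a _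

theorem re_hess (f : G.SmC) (a b : Fin 3) : G.re (G.SC.hess f a b) = G.S.hess (G.re f) a b := by
  simp only [Pre.hess, re_sum, SC_P, re_oR_mul, re_D]

theorem im_hess (f : G.SmC) (a b : Fin 3) : G.im (G.SC.hess f a b) = G.S.hess (G.im f) a b := by
  simp only [Pre.hess, im_sum, SC_P, im_oR_mul, im_D]

/-- the complex calculus satisfies the axioms -/
theorem hypC : G.SC.IsHyp where
  add a f g := G.ext_ri (by simp [G.ds.add]) (by simp [G.ds.add])
  mul a f g := G.ext_ri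
    (by simp only [re_D, im_D, re_add, re_mul, G.ds.D_sub, G.ds.mul]; ring)
    (by simp only [re_D, im_D, im_add, im_mul, G.ds.add, G.ds.mul]; ring)
  const a r := by rw [← oR_algebraMap, D_oR, G.ds.const, map_zero]
  symm a b := by rw [SC_P, SC_P, G.ds.symm]
  tan f a := G.ext_ri
    (by simp only [re_sum, SC_P, re_oR_mul, re_D]; exact G.ds.tan _ a)
    (by simp only [im_sum, SC_P, im_oR_mul, im_D]; exact G.ds.tan _ a)
  hess f a b := G.ext_ri (by rw [re_hess, re_hess, G.ds.hess]) (by rw [im_hess, im_hess, G.ds.hess])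
  nn := by
    have := congrArg G.oR G.hyp.nn
    simp only [map_sum, map_mul, map_one] at this
    exact this
  Pn a b := by
    rw [SC_P, G.hyp.Pn]
    split_ifs <;> simp only [map_sub, map_mul, map_one, map_zero] <;> rfl

theorem dsC : G.SC.toPre.IsDS := G.hypC.toIsDS

theorem SC_h : G.SC.h = G.oR G.S.h := G.hom.h.symm
theorem SC_a2 : G.SC.a2 = G.oR G.S.a2 := G.hom.a2.symm
theorem SC_B (a b : Fin 3) : G.SC.B a b = G.oR (G.S.B a b) := (G.hom.B a b).symm
theorem SC_x2 : G.SC.x2 = G.oR G.S.x2 := G.hom.x2'.symm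
theorem SC_xn : G.SC.xn = G.oR G.S.xn := G.hom.xn'.symm

theorem shrC : G.SC.xn = 2 * G.SC.h := by
  rw [SC_xn, SC_h, G.shr, map_mul, map_ofNat]

theorem Dw_oR (l : List (Fin 3)) (u : G.R) : G.SC.Dw l (G.oR u) = G.oR (G.S.Dw l u) :=
  (G.hom.Dw l u).symm
theorem lap_oR (u : G.R) : G.SC.lap (G.oR u) = G.oR (G.S.lap u) := (G.hom.toHom.lap u).symm
theorem dr_oR (u : G.R) : G.SC.dr (G.oR u) = G.oR (G.S.dr u) := (G.hom.dr u).symm
theorem Pi_oR (i : ℕ) (u : G.R) : G.SC.Pi i (G.oR u) = G.oR (G.S.Pi i u) := (G.hom.Pi i u).symm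
theorem Mi_oR (i : ℕ) (u : G.R) : G.SC.Mi i (G.oR u) = G.oR (G.S.Mi i u) :=
  (G.hom.Mi G.oR_algebraMap i u).symm
theorem LL_oR (u : G.R) : G.SC.LL (G.oR u) = G.oR (G.S.LL u) :=
  (G.hom.LL G.oR_algebraMap u).symm

/-! ### `ℂ`-linearity -/

theorem D_algebraMap (c : ℂ) (a : Fin 3) : G.SC.D a (algebraMap ℂ G.SmC c) = 0 :=
  G.ext_ri (by rw [re_D, re_algebraMap, G.ds.const, re_zero])
    (by rw [im_D, im_algebraMap, G.ds.const, im_zero])

theorem D_smul (c : ℂ) (a : Fin 3) (f : G.SmC) : G.SC.D a (c • f) = c • G.SC.D a f := by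
  simp only [Algebra.smul_def, Mov.D_cmul G.dsC (G.D_algebraMap c)]
theorem Dw_smul (c : ℂ) (l : List (Fin 3)) (f : G.SmC) : G.SC.Dw l (c • f) = c • G.SC.Dw l f := by
  simp only [Algebra.smul_def, Mov.Dw_cmul G.dsC (G.D_algebraMap c)]
theorem lap_smul (c : ℂ) (f : G.SmC) : G.SC.lap (c • f) = c • G.SC.lap f := by
  simp only [Algebra.smul_def, Mov.lap_cmul G.dsC (G.D_algebraMap c)]
theorem dr_smul (c : ℂ) (f : G.SmC) : G.SC.dr (c • f) = c • G.SC.dr f := by
  simp only [Algebra.smul_def, Mov.dr_cmul G.dsC (G.D_algebraMap c)]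
theorem Pi_smul (c : ℂ) (i : ℕ) (f : G.SmC) : G.SC.Pi i (c • f) = c • G.SC.Pi i f := by
  simp only [Algebra.smul_def, Mov.Pi_cmul G.dsC (G.D_algebraMap c)]
theorem Mi_smul (c : ℂ) (i : ℕ) (f : G.SmC) : G.SC.Mi i (c • f) = c • G.SC.Mi i f := by
  simp only [Algebra.smul_def, Mov.Mi_cmul G.dsC (G.D_algebraMap c)]
theorem LL_smul (c : ℂ) (f : G.SmC) : G.SC.LL (c • f) = c • G.SC.LL f := by
  simp only [Algebra.smul_def, Mov.LL_cmul G.dsC (G.D_algebraMap c)]

/-- `D a` as a linear map -/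
def DLin (a : Fin 3) : G.SmC →ₗ[ℂ] G.SmC := ⟨⟨G.SC.D a, G.dsC.add a⟩, fun c f => G.D_smul c a f⟩

/-- `Dw l` as a linear map -/
def DwLin (l : List (Fin 3)) : G.SmC →ₗ[ℂ] G.SmC :=
  ⟨⟨G.SC.Dw l, Mov.Dw_add G.dsC l⟩, fun c f => G.Dw_smul c l f⟩

/-- `LL` as a linear map -/
def LLL : G.SmC →ₗ[ℂ] G.SmC := ⟨⟨G.SC.LL, Mov.LL_add G.dsC⟩, G.LL_smul⟩

@[simp] theorem DLin_apply (a : Fin 3) (f : G.SmC) : G.DLin a f = G.SC.D a f := rfl
@[simp] theorem DwLin_apply (l : List (Fin 3)) (f : G.SmC) : G.DwLin l f = G.SC.Dw l f := rfl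
@[simp] theorem LLL_apply (f : G.SmC) : G.LLL f = G.SC.LL f := rfl

/-- a complex linear operator which extends a real operator commutes with `re` and `im` -/
theorem re_of (T : G.SmC →ₗ[ℂ] G.SmC) (T' : G.R → G.R) (h : ∀ u, T (G.oR u) = G.oR (T' u))
    (f : G.SmC) : G.re (T f) = T' (G.re f) := by
  conv_lhs => rw [← G.re_add_im f, map_add, map_smul, h, h]
  simp

theorem im_of (T : G.SmC →ₗ[ℂ] G.SmC) (T' : G.R → G.R) (h : ∀ u, T (G.oR u) = G.oR (T' u))
    (f : G.SmC) : G.im (T f) = T' (G.im f) := by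
  conv_lhs => rw [← G.re_add_im f, map_add, map_smul, h, h]
  simp

@[simp] theorem re_Dw (l : List (Fin 3)) (f : G.SmC) : G.re (G.SC.Dw l f) = G.S.Dw l (G.re f) :=
  G.re_of (G.DwLin l) _ (G.Dw_oR l) f
@[simp] theorem im_Dw (l : List (Fin 3)) (f : G.SmC) : G.im (G.SC.Dw l f) = G.S.Dw l (G.im f) :=
  G.im_of (G.DwLin l) _ (G.Dw_oR l) f
@[simp] theorem re_LL (f : G.SmC) : G.re (G.SC.LL f) = G.S.LL (G.re f) :=
  G.re_of G.LLL _ G.LL_oR f
@[simp] theorem im_LL (f : G.SmC) : G.im (G.SC.LL f) = G.S.LL (G.im f) :=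
  G.im_of G.LLL _ G.LL_oR f
@[simp] theorem re_lap (f : G.SmC) : G.re (G.SC.lap f) = G.S.lap (G.re f) := by
  simp only [Pre.lap, re_sum, re_D]
@[simp] theorem im_lap (f : G.SmC) : G.im (G.SC.lap f) = G.S.lap (G.im f) := by
  simp only [Pre.lap, im_sum, im_D]
@[simp] theorem re_dr (f : G.SmC) : G.re (G.SC.dr f) = G.S.dr (G.re f) := by
  simp only [Mov.dr, re_sum, SC_x, re_oR_mul, re_D]
@[simp] theorem im_dr (f : G.SmC) : G.im (G.SC.dr f) = G.S.dr (G.im f) := by
  simp only [Mov.dr, im_sum, SC_x, im_oR_mul, im_D]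
@[simp] theorem re_Pi (i : ℕ) (f : G.SmC) : G.re (G.SC.Pi i f) = G.S.Pi i (G.re f) :=
  G.re_of ⟨⟨G.SC.Pi i, Mov.Pi_add G.dsC i⟩, fun c f => G.Pi_smul c i f⟩ _ (G.Pi_oR i) f
@[simp] theorem im_Pi (i : ℕ) (f : G.SmC) : G.im (G.SC.Pi i f) = G.S.Pi i (G.im f) :=
  G.im_of ⟨⟨G.SC.Pi i, Mov.Pi_add G.dsC i⟩, fun c f => G.Pi_smul c i f⟩ _ (G.Pi_oR i) f
@[simp] theorem re_Mi (i : ℕ) (f : G.SmC) : G.re (G.SC.Mi i f) = G.S.Mi i (G.re f) :=
  G.re_of ⟨⟨G.SC.Mi i, Mov.Mi_add G.dsC i⟩, fun c f => G.Mi_smul c i f⟩ _ (G.Mi_oR i) f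
@[simp] theorem im_Mi (i : ℕ) (f : G.SmC) : G.im (G.SC.Mi i f) = G.S.Mi i (G.im f) :=
  G.im_of ⟨⟨G.SC.Mi i, Mov.Mi_add G.dsC i⟩, fun c f => G.Mi_smul c i f⟩ _ (G.Mi_oR i) f

/-! ### conjugation -/

/-- complex conjugation -/
def cj : G.SmC →+* G.SmC where
  toFun f := ⟨fun p => conj (f.1 p), Imm.Sm.comp f.2 Complex.conjCLE.contDiff⟩
  map_one' := Subtype.ext (funext fun _ => map_one _)
  map_mul' _ _ := Subtype.ext (funext fun _ => map_mul _ _ _)
  map_zero' := Subtype.ext (funext fun _ => map_zero _)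
  map_add' _ _ := Subtype.ext (funext fun _ => map_add _ _ _)

@[simp] theorem cj_apply (f : G.SmC) (p : X) : (G.cj f).1 p = conj (f.1 p) := rfl
@[simp] theorem re_cj (f : G.SmC) : G.re (G.cj f) = G.re f := G.extR fun _ => rfl
@[simp] theorem im_cj (f : G.SmC) : G.im (G.cj f) = -G.im f := G.extR fun _ => rfl
@[simp] theorem cj_oR (u : G.R) : G.cj (G.oR u) = G.oR u := G.ext_ri (by simp) (by simp)
@[simp] theorem cj_cj (f : G.SmC) : G.cj (G.cj f) = f := G.ext_ri (by simp) (by simp)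
theorem cj_smul (c : ℂ) (f : G.SmC) : G.cj (c • f) = conj c • G.cj f :=
  G.extC fun _ => map_mul (starRingEnd ℂ) _ _
theorem cj_algebraMap (r : ℝ) : G.cj (algebraMap ℝ G.SmC r) = algebraMap ℝ G.SmC r := by
  rw [← oR_algebraMap, cj_oR]

theorem cj_eq_iff {f : G.SmC} : G.cj f = f ↔ G.im f = 0 := by
  refine ⟨fun h => G.extR fun p => ?_, fun h => G.ext_ri (by simp) (by simp [h])⟩
  exact Complex.conj_eq_iff_im.1 (congrFun (congrArg Subtype.val h) p)

theorem eq_oR_of_cj {f : G.SmC} (h : G.cj f = f) : f = G.oR (G.re f) :=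
  G.ext_ri (by simp) (by simp [G.cj_eq_iff.1 h])

theorem cj_D (a : Fin 3) (f : G.SmC) : G.cj (G.SC.D a f) = G.SC.D a (G.cj f) :=
  G.ext_ri (by simp) (by simp [G.ds.D_neg])

/-- conjugation commutes with the calculus -/
theorem homCj : G.SC.Hom G.SC G.cj where
  x _ := G.cj_oR _
  D := G.cj_D
  T _ := map_zero _
  n _ := G.cj_oR _
  V := map_zero _

theorem cj_Dw (l : List (Fin 3)) (f : G.SmC) : G.cj (G.SC.Dw l f) = G.SC.Dw l (G.cj f) :=
  G.homCj.Dw l f
theorem cj_LL (f : G.SmC) : G.cj (G.SC.LL f) = G.SC.LL (G.cj f) := G.homCj.LL G.cj_algebraMap f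

/-! ### norms -/

theorem contR (u : G.R) : Continuous u.1 := Imm.Sm.continuous (M := G.M) u.2
theorem contC (f : G.SmC) : Continuous f.1 := Imm.Sm.continuous (M := G.M) f.2

/-- the common properties of a real norm and its complex version -/
structure Nm (N' : G.R → ℝ≥0∞) (N : G.SmC → ℝ≥0∞) : Prop where
  oR : ∀ u, N (G.oR u) = N' u
  mono : ∀ f g : G.SmC, (∀ p, ‖f.1 p‖ ≤ ‖g.1 p‖) → N f ≤ N g
  add : ∀ f g, N (f + g) ≤ N f + N g
  smul : ∀ (c : ℂ) f, N (c • f) = ‖c‖ₑ * N f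
  null : ∀ f g, N g = 0 → N (f * g) = 0

namespace Nm

variable {G} {N' : G.R → ℝ≥0∞} {N : G.SmC → ℝ≥0∞} (h : G.Nm N' N)
include h

theorem congr {f g : G.SmC} (e : ∀ p, ‖f.1 p‖ = ‖g.1 p‖) : N f = N g :=
  le_antisymm (h.mono _ _ fun p => (e p).le) (h.mono _ _ fun p => (e p).ge)

theorem zero : N 0 = 0 := by simpa using h.smul 0 0
theorem neg (f : G.SmC) : N (-f) = N f := h.congr fun _ => norm_neg _
theorem cj (f : G.SmC) : N (G.cj f) = N f := h.congr fun _ => Complex.norm_conj _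
theorem sub (f g : G.SmC) : N (f - g) ≤ N f + N g := by
  rw [sub_eq_add_neg, ← h.neg g]; exact h.add _ _

theorem sum {κ : Type} (s : Finset κ) (f : κ → G.SmC) : N (∑ i ∈ s, f i) ≤ ∑ i ∈ s, N (f i) :=
  Finset.le_sum_of_subadditive N h.zero.le h.add s f

theorem re_le (f : G.SmC) : N' (G.re f) ≤ N f := by
  rw [← h.oR]
  exact h.mono _ _ fun p => by simpa using Complex.abs_re_le_norm _

theorem im_le (f : G.SmC) : N' (G.im f) ≤ N f := by
  rw [← h.oR]
  exact h.mono _ _ fun p => by simpa using Complex.abs_im_le_norm _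

theorem le_re_im (f : G.SmC) : N f ≤ N' (G.re f) + N' (G.im f) := by
  conv_lhs => rw [← G.re_add_im f]
  refine (h.add _ _).trans ?_
  rw [h.smul, h.oR, h.oR]
  simp [enorm]

theorem mul_le {s : G.SmC} {C : ℝ≥0} (hs : ∀ p, ‖s.1 p‖ ≤ C) (f : G.SmC) : N (s * f) ≤ C * N f := by
  have : N ((C : ℂ) • f) = C * N f := by rw [h.smul]; simp [enorm]
  rw [← this]
  refine h.mono _ _ fun p => ?_
  show ‖s.1 p * f.1 p‖ ≤ ‖(C : ℂ) * f.1 p‖
  simp only [norm_mul, Complex.norm_real, Real.norm_eq_abs, NNReal.abs_eq]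
  exact mul_le_mul_of_nonneg_right (hs p) (norm_nonneg _)

theorem monoR (u v : G.R) (e : ∀ p, |u.1 p| ≤ |v.1 p|) : N' u ≤ N' v := by
  rw [← h.oR, ← h.oR]
  exact h.mono _ _ fun p => by simpa using e p

theorem addR (u v : G.R) : N' (u + v) ≤ N' u + N' v := by
  rw [← h.oR, ← h.oR, ← h.oR, map_add]; exact h.add _ _

theorem zeroR : N' 0 = 0 := by rw [← h.oR, map_zero, h.zero]

theorem negR (u : G.R) : N' (-u) = N' u := by rw [← h.oR, ← h.oR, map_neg, h.neg]

theorem subR (u v : G.R) : N' (u - v) ≤ N' u + N' v := by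
  rw [← h.oR, ← h.oR, ← h.oR, map_sub]; exact h.sub _ _

theorem sumR {κ : Type} (s : Finset κ) (u : κ → G.R) : N' (∑ i ∈ s, u i) ≤ ∑ i ∈ s, N' (u i) :=
  Finset.le_sum_of_subadditive N' h.zeroR.le h.addR s u

theorem smulR (r : ℝ) (u : G.R) : N' (r • u) = ‖r‖ₑ * N' u := by
  rw [← h.oR, ← h.oR, oR_smul, h.smul]; simp [enorm]

theorem mul_leR {s : G.R} {C : ℝ≥0} (hs : ∀ p, |s.1 p| ≤ C) (u : G.R) : N' (s * u) ≤ C * N' u := by
  rw [← h.oR, ← h.oR, map_mul]
  exact h.mul_le (fun p => by simpa using hs p) _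

/-- `|u| ≤ C |v|` pointwise -/
theorem le_mulR {u v : G.R} {C : ℝ≥0} (e : ∀ p, |u.1 p| ≤ C * |v.1 p|) : N' u ≤ C * N' v := by
  have : N' ((C : ℝ) • v) = C * N' v := by simp [h.smulR]
  rw [← this]
  refine h.monoR _ _ fun p => (e p).trans_eq ?_
  show _ = |(C : ℝ) * v.1 p|
  simp [abs_mul]

theorem le_mul {f g : G.SmC} {C : ℝ≥0} (e : ∀ p, ‖f.1 p‖ ≤ C * ‖g.1 p‖) : N f ≤ C * N g := by
  have : N ((C : ℂ) • g) = C * N g := by rw [h.smul]; simp [enorm]
  rw [← this]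
  refine h.mono _ _ fun p => (e p).trans_eq ?_
  show _ = ‖(C : ℂ) * g.1 p‖
  simp

end Nm

theorem nm_sup : G.Nm G.sR G.sC where
  oR u := by simp [sR, sC, enorm]
  mono f g e := iSup_mono fun p => by simpa [enorm, ← NNReal.coe_le_coe] using e p
  add f g := iSup_le fun p => (enorm_add_le _ _).trans
    (add_le_add (le_iSup (fun p => ‖f.1 p‖ₑ) p) (le_iSup (fun p => ‖g.1 p‖ₑ) p))
  smul c f := by
    simp only [sC, ENNReal.mul_iSup]
    exact iSup_congr fun p => enorm_mul c (f.1 p)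
  null f g e := by
    simp only [sC, ENNReal.iSup_eq_zero, enorm_eq_zero] at e ⊢
    intro p
    show f.1 p * g.1 p = 0
    rw [e p, mul_zero]

theorem le_sC' (f : G.SmC) (p : X) : ‖f.1 p‖ₑ ≤ G.sC f := le_iSup (fun p => ‖f.1 p‖ₑ) p
theorem le_sR (u : G.R) (p : X) : ‖u.1 p‖ₑ ≤ G.sR u := le_iSup (fun p => ‖u.1 p‖ₑ) p

theorem nm_L2 [BorelSpace X] (μ : Measure X) :
    G.Nm (fun u => eLpNorm u.1 2 μ) (fun f => eLpNorm f.1 2 μ) where
  oR u := eLpNorm_congr_norm_ae (Eventually.of_forall fun p => by simp)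
  mono f g e := eLpNorm_mono e
  add f g := eLpNorm_add_le (G.contC f).aestronglyMeasurable (G.contC g).aestronglyMeasurable
    one_le_two
  smul c f := eLpNorm_const_smul c f.1 2 μ
  null f g e := by
    rw [eLpNorm_eq_zero_iff (G.contC _).aestronglyMeasurable two_ne_zero] at e ⊢
    filter_upwards [e] with p hp
    show f.1 p * g.1 p = 0
    rw [hp, Pi.zero_apply, mul_zero]

theorem nm_n [BorelSpace X] : G.Nm G.nR G.nC := G.nm_L2 G.dm
theorem nm_g [BorelSpace X] : G.Nm G.gR G.gC := G.nm_L2 G.ga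

/-- `N (f g) ≤ sup |f| N g` -/
theorem Nm.mul_le_sC {G : Geo X} {N' : G.R → ℝ≥0∞} {N : G.SmC → ℝ≥0∞} (h : G.Nm N' N)
    (f g : G.SmC) : N (f * g) ≤ G.sC f * N g := by
  by_cases h0 : N g = 0
  · rw [h.null f g h0]; exact zero_le
  by_cases ht : G.sC f = ⊤
  · rw [ht, ENNReal.top_mul h0]; exact le_top
  · have := h.mul_le (s := f) (C := (G.sC f).toNNReal) (fun p => ?_) g
    · rwa [ENNReal.coe_toNNReal ht] at this
    · have := G.le_sC' f p
      rw [← ENNReal.coe_toNNReal ht] at this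
      exact_mod_cast (ENNReal.coe_le_coe.1 this)

theorem Nm.mul_le_sR {G : Geo X} {N' : G.R → ℝ≥0∞} {N : G.SmC → ℝ≥0∞} (h : G.Nm N' N)
    (u v : G.R) : N' (u * v) ≤ G.sR u * N' v := by
  rw [← h.oR, ← h.oR, ← G.nm_sup.oR, map_mul]; exact h.mul_le_sC _ _

/-- the weighted sums over words -/
structure Lv (A' : G.R → ℝ≥0∞) (A : G.SmC → ℝ≥0∞) : Prop where
  oR : ∀ u, A (G.oR u) = A' u
  add : ∀ f g, A (f + g) ≤ A f + A g
  smul : ∀ (c : ℂ) f, A (c • f) = ‖c‖ₑ * A f
  cj : ∀ f, A (G.cj f) = A f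
  re_le : ∀ f, A' (G.re f) ≤ A f
  im_le : ∀ f, A' (G.im f) ≤ A f

theorem Nm.lv {G : Geo X} {N' : G.R → ℝ≥0∞} {N : G.SmC → ℝ≥0∞} (h : G.Nm N' N) (s : G.R) (j : ℕ) :
    G.Lv (fun u => sumW j fun l => N' (s * G.S.Dw l u))
      (fun f => sumW j fun l => N (G.oR s * G.SC.Dw l f)) where
  oR u := by simp only [Dw_oR, ← map_mul, h.oR]
  add f g := by
    rw [← sumW_add]
    exact sumW_le' j fun l _ => by rw [Mov.Dw_add G.dsC, mul_add]; exact h.add _ _
  smul c f := by simp only [Dw_smul, mul_smul_comm, h.smul, sumW_mul']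
  cj f := by
    refine sumW_congr j fun l _ => ?_
    rw [← cj_Dw, ← h.cj (G.oR s * G.SC.Dw l f), map_mul, cj_oR]
  re_le f := sumW_le' j fun l _ => by rw [← re_Dw, ← re_oR_mul]; exact h.re_le _
  im_le f := sumW_le' j fun l _ => by rw [← im_Dw, ← im_oR_mul]; exact h.im_le _

namespace Lv

variable {G} {A' : G.R → ℝ≥0∞} {A : G.SmC → ℝ≥0∞} (h : G.Lv A' A)
include h

theorem zero : A 0 = 0 := by simpa using h.smul 0 0
theorem neg (f : G.SmC) : A (-f) = A f := by simpa using h.smul (-1) f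
theorem sub (f g : G.SmC) : A (f - g) ≤ A f + A g := by
  rw [sub_eq_add_neg, ← h.neg g]; exact h.add _ _
theorem sum {κ : Type} (s : Finset κ) (f : κ → G.SmC) : A (∑ i ∈ s, f i) ≤ ∑ i ∈ s, A (f i) :=
  Finset.le_sum_of_subadditive A h.zero.le h.add s f
theorem le_re_im (f : G.SmC) : A f ≤ A' (G.re f) + A' (G.im f) := by
  conv_lhs => rw [← G.re_add_im f]
  refine (h.add _ _).trans ?_
  rw [h.smul, h.oR, h.oR]
  simp [enorm]
theorem addR (u v : G.R) : A' (u + v) ≤ A' u + A' v := by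
  rw [← h.oR, ← h.oR, ← h.oR, map_add]; exact h.add _ _
theorem zeroR : A' 0 = 0 := by rw [← h.oR, map_zero, h.zero]
theorem negR (u : G.R) : A' (-u) = A' u := by rw [← h.oR, ← h.oR, map_neg, h.neg]
theorem subR (u v : G.R) : A' (u - v) ≤ A' u + A' v := by
  rw [← h.oR, ← h.oR, ← h.oR, map_sub]; exact h.sub _ _
theorem sumR {κ : Type} (s : Finset κ) (u : κ → G.R) : A' (∑ i ∈ s, u i) ≤ ∑ i ∈ s, A' (u i) :=
  Finset.le_sum_of_subadditive A' h.zeroR.le h.addR s u
theorem smulR (r : ℝ) (u : G.R) : A' (r • u) = ‖r‖ₑ * A' u := by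
  rw [← h.oR, ← h.oR, oR_smul, h.smul]; simp [enorm]

end Lv

theorem lv_Sc (j : ℕ) : G.Lv (G.Sr j) (G.Sc j) := by
  have := G.nm_sup.lv (G.ρ ^ j) j
  simp only [map_pow] at this
  exact this

theorem lv_Ac [BorelSpace X] (j : ℕ) : G.Lv (G.Ar j) (G.Ac j) := by
  have := G.nm_n.lv (G.ρ ^ j) j
  simp only [map_pow] at this
  exact this

/-- the real version of `lev` -/
def levR (k : ℕ) (u : G.R) : ℝ≥0∞ := G.Ar k u + if 5 ≤ k then G.Sr (k - 5) u else 0

theorem lv_lev [BorelSpace X] (k : ℕ) : G.Lv (G.levR k) (G.lev k) := by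
  have a := G.lv_Ac k
  have s := G.lv_Sc (k - 5)
  by_cases hk : 5 ≤ k
  · have e : G.lev k = fun f => G.Ac k f + G.Sc (k - 5) f := funext fun f => by simp [lev, hk]
    have e' : G.levR k = fun f => G.Ar k f + G.Sr (k - 5) f := funext fun f => by simp [levR, hk]
    rw [e, e']
    exact ⟨fun u => by simp only [a.oR, s.oR],
      fun f g => (add_le_add (a.add f g) (s.add f g)).trans_eq (by ring),
      fun c f => by simp only [a.smul, s.smul, mul_add], fun f => by simp only [a.cj, s.cj],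
      fun f => add_le_add (a.re_le f) (s.re_le f), fun f => add_le_add (a.im_le f) (s.im_le f)⟩
  · have e : G.lev k = G.Ac k := funext fun f => by simp [lev, hk]
    have e' : G.levR k = G.Ar k := funext fun f => by simp [levR, hk]
    rwa [e, e']

theorem lv_low [BorelSpace X] (k : ℕ) :
    G.Lv (fun u => ∑ j ∈ Finset.range k, G.levR j u) (G.low k) where
  oR u := Finset.sum_congr rfl fun j _ => (G.lv_lev j).oR u
  add f g := by
    simp only [low, ← Finset.sum_add_distrib]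
    exact Finset.sum_le_sum fun j _ => (G.lv_lev j).add f g
  smul c f := by simp only [low, (G.lv_lev _).smul, Finset.mul_sum]
  cj f := Finset.sum_congr rfl fun j _ => (G.lv_lev j).cj f
  re_le f := Finset.sum_le_sum fun j _ => (G.lv_lev j).re_le f
  im_le f := Finset.sum_le_sum fun j _ => (G.lv_lev j).im_le f

theorem lv_NN [BorelSpace X] (ε : ℕ → ℝ≥0) :
    G.Lv (fun u => ∑' k, ε k * G.levR k u) (G.NN ε) where
  oR u := tsum_congr fun j => by rw [(G.lv_lev j).oR]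
  add f g := by
    simp only [NN, ← ENNReal.tsum_add, ← mul_add]
    exact ENNReal.tsum_le_tsum fun j => by gcongr; exact (G.lv_lev j).add f g
  smul c f := by
    simp only [NN, (G.lv_lev _).smul, ← ENNReal.tsum_mul_left]
    exact tsum_congr fun j => by ring
  cj f := tsum_congr fun j => by rw [(G.lv_lev j).cj]
  re_le f := ENNReal.tsum_le_tsum fun j => by gcongr; exact (G.lv_lev j).re_le f
  im_le f := ENNReal.tsum_le_tsum fun j => by gcongr; exact (G.lv_lev j).im_le f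

end WS.Geo

end Crest.Agent.N250

end
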