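import Crest.Agent.N250.Wt.Defs

/-!
# Row 250, weighted theory, leaf `LimS` (helper40): limits of smooth functions
-/

set_option autoImplicit false
open MeasureTheory Set Filter Topology
open scoped ContDiff

noncomputable section

namespace Crest.Agent.N250.WS

open Crest.Agent.N222

namespace LimP

variable {d : ℕ} {ι : Type} [Fintype ι] [DecidableEq ι] {X : Type} [TopologicalSpace X]

/-- the differential of the coordinate `a` in the chart at `p` -/
def Jr (M : Imm d ι X) (p : X) (a : ι) (z : E (Fin d)) : E (Fin d) →L[ℝ] ℝ :=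
  EuclideanSpace.proj a ∘L fderiv ℝ (M.x ∘ (M.ch p).symm) z

omit [DecidableEq ι] in
theorem sm_Jr (M : Imm d ι X) (p : X) (a : ι) : ContDiffOn ℝ ∞ (Jr M p a) (M.ch p).target :=
  contDiffOn_const.clm_comp ((M.isChart p).sm.fderiv_of_isOpen (M.ch p).open_target (by simp))

theorem fd_eq (M : Imm d ι X) (p : X) (f : X → ℝ) {z : E (Fin d)} (hz : z ∈ (M.ch p).target) :
    fderiv ℝ (f ∘ (M.ch p).symm) z = ∑ a, M.pre.D a f ((M.ch p).symm z) • Jr M p a z := by
  have h := Imm.fderiv_chart f (M.isChart p) ((M.ch p).map_target hz)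
  rw [(M.ch p).right_inv hz] at h
  ext1 v
  rw [h, ContinuousLinearMap.comp_apply, Imm.td_apply, sum_apply]
  exact Finset.sum_congr rfl fun a _ => mul_comm _ _

/-- locally uniform limits of a family closed under the tangential derivatives -/
theorem lim_real (M : Imm d ι X) {κ α : Type} {L : Filter α} [L.NeBot] (nx : ι → κ → κ)
    (f : α → κ → X → ℝ) (g : κ → X → ℝ)
    (hs : ∀ i l, M.Sm (f i l)) (hD : ∀ i l a, M.pre.D a (f i l) = f i (nx a l))
    (h : ∀ l, TendstoLocallyUniformly (fun i => f i l) (g l) L) :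
    (∀ l, M.Sm (g l)) ∧ ∀ l a, M.pre.D a (g l) = g (nx a l) := by
  have pt : ∀ l q, Tendsto (fun i => f i l q) L (𝓝 (g l q)) := fun l q =>
    (h l).tendstoLocallyUniformlyOn.tendsto_at (mem_univ q)
  have hd : ∀ p l, ∀ z ∈ (M.ch p).target, HasFDerivAt (g l ∘ (M.ch p).symm)
      (∑ a, g (nx a l) ((M.ch p).symm z) • Jr M p a z) z := fun p l z hz => by
    have ho := (M.ch p).open_target.mem_nhds hz
    refine hasFDerivAt_of_tendstoUniformlyOnFilter (l := L) (f := fun i => f i l ∘ (M.ch p).symm)
      (f' := fun i z => ∑ a, f i (nx a l) ((M.ch p).symm z) • Jr M p a z)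
      (g' := fun z => ∑ a, g (nx a l) ((M.ch p).symm z) • Jr M p a z) ?_ ?_
      (Eventually.of_forall fun y => pt l _)
    · rw [tendstoUniformlyOnFilter_iff_tendsto, tendsto_uniformity_iff_dist_tendsto_zero]
      simp only [dist_eq_norm, ← Finset.sum_sub_distrib, ← sub_smul]
      rw [← tendsto_zero_iff_norm_tendsto_zero]
      have := tendsto_finsetSum (Finset.univ : Finset ι) (x := L ×ˢ 𝓝 z)
        (f := fun a q => (g (nx a l) ((M.ch p).symm q.2) - f q.1 (nx a l) ((M.ch p).symm q.2)) •
          Jr M p a q.2) (a := fun a => (0 : ℝ) • Jr M p a z) fun a _ => by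
        refine Tendsto.smul ?_ (((sm_Jr M p a).continuousOn.continuousAt ho).tendsto.comp tendsto_snd)
        have h1 := (tendstoLocallyUniformly_iff_forall_tendsto.1 (h (nx a l)) ((M.ch p).symm z)).comp
          (tendsto_fst.prodMk (((M.ch p).continuousAt_symm hz).tendsto.comp tendsto_snd) :
            Tendsto (fun q : α × E (Fin d) => (q.1, (M.ch p).symm q.2)) (L ×ˢ 𝓝 z) _)
        rw [tendsto_uniformity_iff_dist_tendsto_zero] at h1
        rw [tendsto_zero_iff_norm_tendsto_zero]
        simpa only [dist_eq_norm, Function.comp_apply] using h1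
      simpa using this
    · filter_upwards [tendsto_snd.eventually ho] with q hq
      have h1 := ((hs q.1 l p).contDiffAt ((M.ch p).open_target.mem_nhds hq)).differentiableAt (by simp)
      have h2 := h1.hasFDerivAt
      rw [fd_eq M p _ hq] at h2
      simpa only [hD] using h2
  refine ⟨fun l p => contDiffOn_infty.2 fun k => ?_, fun l a => funext fun p => ?_⟩
  · induction k generalizing l with
    | zero => exact contDiffOn_zero.2 fun z hz => (hd p l z hz).continuousAt.continuousWithinAt
    | succ k ih =>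
      rw [Nat.cast_succ, contDiffOn_succ_iff_fderiv_of_isOpen (M.ch p).open_target]
      refine ⟨fun z hz => (hd p l z hz).differentiableAt.differentiableWithinAt, by simp,
        (ContDiffOn.sum fun a _ => (ih (nx a l)).smul ((sm_Jr M p a).of_le (by exact_mod_cast le_top))).congr
          fun z hz => (hd p l z hz).fderiv⟩
  · have hz := (M.ch p).map_source (M.mem p)
    have e : ∀ (u : X → ℝ) (c : ι → ℝ), fderiv ℝ (u ∘ (M.ch p).symm) (M.ch p p) =
        ∑ b, c b • Jr M p b (M.ch p p) → M.pre.D a u p = ∑ b, c b *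
          Jr M p b (M.ch p p) (ContinuousLinearMap.adjoint (Lam (M.J p)) (ee a)) := fun u c hu => by
      change M.td u p (ee a) = _
      rw [Imm.td, hu]
      simp
    rw [e _ _ (hd p l _ hz).fderiv]
    refine tendsto_nhds_unique (tendsto_finsetSum _ fun b _ => (pt (nx b l) _).mul_const _)
      ((pt (nx a l) p).congr fun i => ?_)
    rw [← hD, e _ _ (fd_eq M p _ hz)]
    simp only [hD]

end LimP

namespace Geo

variable {X : Type} [TopologicalSpace X] [MeasurableSpace X] (G : Geo X)

theorem re_SD (a : Fin 3) (f : G.SmC) (p : X) :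
    ((G.SC.D a f).1 p).re = G.M.pre.D a (fun q => (f.1 q).re) p := by
  change ((G.M.pre.D a (fun q => (f.1 q).re) p : ℂ) +
    Complex.I * (G.M.pre.D a (fun q => (f.1 q).im) p : ℂ)).re = _
  simp

theorem im_SD (a : Fin 3) (f : G.SmC) (p : X) :
    ((G.SC.D a f).1 p).im = G.M.pre.D a (fun q => (f.1 q).im) p := by
  change ((G.M.pre.D a (fun q => (f.1 q).re) p : ℂ) +
    Complex.I * (G.M.pre.D a (fun q => (f.1 q).im) p : ℂ)).im = _
  simp

/-- locally uniform version, any filter -/
theorem lim_loc {α : Type} {L : Filter α} [L.NeBot] (f : α → G.SmC) (g : List (Fin 3) → X → ℂ)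
    (h : ∀ l, TendstoLocallyUniformly (fun i => (G.SC.Dw l (f i)).1) (g l) L) :
    ∃ F : G.SmC, ∀ l, (G.SC.Dw l F).1 = g l := by
  obtain ⟨r1, r2⟩ := LimP.lim_real G.M List.cons (fun i l q => ((G.SC.Dw l (f i)).1 q).re)
    (fun l q => (g l q).re) (fun i l => (G.re _).2) (fun i l a => funext fun p => (G.re_SD a _ p).symm)
    fun l => Complex.uniformContinuous_re.comp_tendstoLocallyUniformly (h l)
  obtain ⟨i1, i2⟩ := LimP.lim_real G.M List.cons (fun i l q => ((G.SC.Dw l (f i)).1 q).im)
    (fun l q => (g l q).im) (fun i l => (G.im _).2) (fun i l a => funext fun p => (G.im_SD a _ p).symm)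
    fun l => Complex.uniformContinuous_im.comp_tendstoLocallyUniformly (h l)
  have sm : ∀ l, g l ∈ G.SmC := fun l => by
    have := (G.oR ⟨_, r1 l⟩ + Complex.I • G.oR ⟨_, i1 l⟩).2
    convert this using 1
    funext p
    change g l p = ((g l p).re : ℂ) + Complex.I * ((g l p).im : ℂ)
    rw [mul_comm, Complex.re_add_im]
  refine ⟨⟨g [], sm []⟩, fun l => ?_⟩
  induction l with
  | nil => rfl
  | cons a l ih =>
    funext p
    change (G.SC.D a (G.SC.Dw l ⟨g [], sm []⟩)).1 p = _
    apply Complex.ext
    · rw [re_SD, ih, r2]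
    · rw [im_SD, ih, i2]

theorem limS : G.LimS := fun f g h => G.lim_loc f g fun l => (h l).tendstoLocallyUniformly

end Geo

end Crest.Agent.N250.WS

end
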