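import Crest.Agent.N250.Wt.AA1
import Crest.Agent.N250.Wt.Lim

/-!
# Row 250, Floer norms (helper76), part 2: the Banach algebra `σ.AA`
-/

set_option autoImplicit false
set_option linter.unusedSectionVars false
open MeasureTheory Set Filter Topology
open scoped ENNReal NNReal

noncomputable section

namespace Crest.Agent.N250.WS

open Crest.Agent.N222

variable {X : Type} [TopologicalSpace X] [MeasurableSpace X] [BorelSpace X] {G : Geo X}

namespace Scale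

variable (σ : Scale G)

/-- functions of finite norm -/
def sub : Subalgebra ℂ G.SmC where
  carrier := {f | G.NN σ.ε f ≠ ⊤}
  mul_mem' {f g} hf hg := ne_top_of_le_ne_top
    (ENNReal.mul_ne_top (ENNReal.mul_ne_top ENNReal.coe_ne_top hf) hg) (σ.mul f g)
  add_mem' {f g} hf hg := ne_top_of_le_ne_top (ENNReal.add_ne_top.2 ⟨hf, hg⟩)
    ((G.sn_NN σ.ε).add f g)
  algebraMap_mem' c := by
    rw [Algebra.algebraMap_eq_smul_one]
    exact ne_top_of_le_ne_top (ENNReal.mul_ne_top enorm_ne_top σ.one) ((G.sn_NN σ.ε).smul c 1)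

/-- the Banach algebra of smooth functions of finite Floer norm -/
def AA : Type := σ.sub

instance : CommRing σ.AA := inferInstanceAs (CommRing σ.sub)

instance : Algebra ℂ σ.AA := inferInstanceAs (Algebra ℂ σ.sub)

/-- the underlying smooth function -/
def val : σ.AA →ₐ[ℂ] G.SmC := σ.sub.val

/-- elements from functions of finite norm -/
def el (f : G.SmC) (hf : G.NN σ.ε f ≠ ⊤) : σ.AA := ⟨f, hf⟩

@[simp] theorem val_el (f : G.SmC) (hf : G.NN σ.ε f ≠ ⊤) : σ.val (σ.el f hf) = f := rfl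

theorem val_inj : Function.Injective σ.val := Subtype.val_injective

variable {σ} in
theorem AA_ext {f g : σ.AA} (h : σ.val f = σ.val g) : f = g := σ.val_inj h

theorem NN_val (f : σ.AA) : G.NN σ.ε (σ.val f) ≠ ⊤ := f.2

theorem K_pos : 0 < σ.K := one_pos.trans_le σ.one_le

/-- the norm -/
def nrm (f : σ.AA) : ℝ := σ.K * (G.NN σ.ε (σ.val f)).toReal

theorem ofReal_nrm (f : σ.AA) : ENNReal.ofReal (σ.nrm f) = σ.K * G.NN σ.ε (σ.val f) := by
  rw [nrm, ENNReal.ofReal_mul σ.K.coe_nonneg, ENNReal.ofReal_toReal (σ.NN_val f), ENNReal.ofReal_coe_nnreal]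

theorem nrm_nonneg (f : σ.AA) : 0 ≤ σ.nrm f := mul_nonneg σ.K.coe_nonneg ENNReal.toReal_nonneg

/-- the norm as an additive group norm -/
def gnorm : AddGroupNorm σ.AA where
  toFun := σ.nrm
  map_zero' := by rw [nrm, map_zero, (G.sn_NN σ.ε).zero]; simp
  add_le' f g := by
    rw [← ENNReal.ofReal_le_ofReal_iff (add_nonneg (σ.nrm_nonneg f) (σ.nrm_nonneg g)),
      ENNReal.ofReal_add (σ.nrm_nonneg f) (σ.nrm_nonneg g), ofReal_nrm, ofReal_nrm, ofReal_nrm,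
      ← mul_add, map_add]
    gcongr
    exact (G.sn_NN σ.ε).add _ _
  neg' f := by rw [nrm, nrm, map_neg, (G.sn_NN σ.ε).neg]
  eq_zero_of_map_eq_zero' f h := by
    have h1 := σ.ofReal_nrm f
    rw [h, ENNReal.ofReal_zero, eq_comm, mul_eq_zero] at h1
    have h2 : G.NN σ.ε (σ.val f) = 0 := h1.resolve_left (by simpa using σ.K_pos.ne')
    refine AA_ext (Subtype.ext (funext fun p => ?_))
    have := (G.le_sC (σ.val f) p).trans (G.sC_le_NN σ.adm _)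
    rw [h2] at this
    simpa using this

instance : NormedAddCommGroup σ.AA := σ.gnorm.toNormedAddCommGroup

variable {σ}

theorem norm_def (f : σ.AA) : ‖f‖ = σ.K * (G.NN σ.ε (σ.val f)).toReal := rfl

theorem enorm_def (f : σ.AA) : ‖f‖ₑ = σ.K * G.NN σ.ε (σ.val f) := by
  rw [← ofReal_norm_eq_enorm]; exact σ.ofReal_nrm f

theorem NN_le_enorm (f : σ.AA) : G.NN σ.ε (σ.val f) ≤ ‖f‖ₑ := by
  rw [enorm_def]; exact le_mul_of_one_le_left' (by exact_mod_cast σ.one_le)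

variable (σ)

instance : NormedCommRing σ.AA :=
  { (inferInstance : CommRing σ.AA), (inferInstance : NormedAddCommGroup σ.AA) with
    norm_mul_le := fun f g => by
      rw [← ENNReal.ofReal_le_ofReal_iff (by positivity), ENNReal.ofReal_mul (norm_nonneg _)]
      simp only [ofReal_norm_eq_enorm, enorm_def, map_mul]
      refine (mul_le_mul_right (σ.mul _ _) _).trans (le_of_eq ?_)
      ring }

instance : NormedAlgebra ℂ σ.AA where
  norm_smul_le c f := by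
    rw [← ENNReal.ofReal_le_ofReal_iff (by positivity), ENNReal.ofReal_mul (norm_nonneg _)]
    simp only [ofReal_norm_eq_enorm, enorm_def, map_smul]
    rw [mul_left_comm]
    gcongr
    exact (G.sn_NN σ.ε).smul _ _

variable {σ}

theorem lev_le (k : ℕ) (f : σ.AA) : G.lev k (σ.val f) ≤ ((σ.ε k)⁻¹ : ℝ≥0) * ‖f‖ₑ := by
  have h := (G.lev_le_NN σ.ε k (σ.val f)).trans (NN_le_enorm f)
  have h0 := (σ.adm.pos k).ne'
  calc G.lev k (σ.val f) = ((σ.ε k)⁻¹ : ℝ≥0) * (σ.ε k * G.lev k (σ.val f)) := by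
        rw [← mul_assoc, ← ENNReal.coe_mul, inv_mul_cancel₀ h0, ENNReal.coe_one, one_mul]
    _ ≤ _ := by gcongr

theorem Sc_le (k : ℕ) (f : σ.AA) : G.Sc k (σ.val f) ≤ ((σ.ε (k + 5))⁻¹ : ℝ≥0) * ‖f‖ₑ :=
  (G.Sc_le_lev k _).trans (lev_le _ f)

theorem sC_le (f : σ.AA) : G.sC (σ.val f) ≤ ‖f‖ₑ := (G.sC_le_NN σ.adm _).trans (NN_le_enorm f)

theorem nC_le (f : σ.AA) : G.nC (σ.val f) ≤ ‖f‖ₑ := (G.nC_le_NN σ.adm _).trans (NN_le_enorm f)

theorem enorm_jet_le (l : List (Fin 3)) (f : σ.AA) (p : X) :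
    ‖(G.oR G.ρ ^ l.length * G.SC.Dw l (σ.val f)).1 p‖ₑ ≤ ((σ.ε (l.length + 5))⁻¹ : ℝ≥0) * ‖f‖ₑ :=
  (G.le_sC _ p).trans ((G.le_Sc l _).trans (Sc_le _ f))

theorem real_le {a b : ℝ} {c : ℝ≥0} (hb : 0 ≤ b) (h : ENNReal.ofReal a ≤ c * ENNReal.ofReal b) :
    a ≤ c * b := by
  rwa [← ENNReal.ofReal_coe_nnreal, ← ENNReal.ofReal_mul c.coe_nonneg,
    ENNReal.ofReal_le_ofReal_iff (mul_nonneg c.coe_nonneg hb)] at h

theorem norm_le_of_enorm {V W : Type*} [SeminormedAddCommGroup V] [SeminormedAddCommGroup W]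
    {v : V} {w : W} {c : ℝ≥0} (h : ‖v‖ₑ ≤ c * ‖w‖ₑ) : ‖v‖ ≤ c * ‖w‖ :=
  real_le (norm_nonneg w) (by simpa only [ofReal_norm_eq_enorm] using h)

/-- weighted jets are bounded -/
theorem norm_jet_le (l : List (Fin 3)) (f : σ.AA) (p : X) :
    ‖(G.oR G.ρ ^ l.length * G.SC.Dw l (σ.val f)).1 p‖ ≤ ((σ.ε (l.length + 5))⁻¹ : ℝ≥0) * ‖f‖ :=
  norm_le_of_enorm (enorm_jet_le l f p)

theorem norm_Dw_le (l : List (Fin 3)) (f : σ.AA) (p : X) :
    ‖(G.SC.Dw l (σ.val f)).1 p‖ ≤ ((σ.ε (l.length + 5))⁻¹ : ℝ≥0) * ‖f‖ :=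
  norm_le_of_enorm ((G.jet_le l _ p).trans (enorm_jet_le l f p))

theorem norm_val_le (f : σ.AA) (p : X) : ‖(σ.val f).1 p‖ ≤ ‖f‖ := by
  have := (G.le_sC (σ.val f) p).trans (sC_le f)
  rwa [enorm_le_iff_norm_le] at this

/-- a bound of the norm from a bound of `NN` -/
theorem norm_le_of_NN {f : σ.AA} {b : ℝ} (hb : 0 ≤ b) (h : G.NN σ.ε (σ.val f) ≤ ENNReal.ofReal b) :
    ‖f‖ ≤ σ.K * b :=
  real_le hb (by rw [ofReal_norm_eq_enorm, enorm_def]; gcongr)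

variable (σ)

instance : CompleteSpace σ.AA := by
  refine Metric.complete_of_cauchySeq_tendsto fun u hu => ?_
  have hj : ∀ l p i j, ‖(G.SC.Dw l (σ.val (u i))).1 p - (G.SC.Dw l (σ.val (u j))).1 p‖ ≤
      ((σ.ε (l.length + 5))⁻¹ : ℝ≥0) * ‖u i - u j‖ := fun l p i j => by
    have := norm_Dw_le l (u i - u j) p
    rwa [map_sub, ← G.DwL_apply, map_sub, G.DwL_apply, G.DwL_apply] at this
  have hu' := Metric.cauchySeq_iff.1 hu
  have hc : ∀ l, UniformCauchySeqOn (fun i => (G.SC.Dw l (σ.val (u i))).1) atTop univ := fun l => by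
    rw [Metric.uniformCauchySeqOn_iff]
    intro η hη
    set c : ℝ := (((σ.ε (l.length + 5))⁻¹ : ℝ≥0) : ℝ) with hc
    have hc0 : 0 ≤ c := NNReal.coe_nonneg _
    obtain ⟨N, hN⟩ := hu' (η / (c + 1)) (by positivity)
    refine ⟨N, fun i hi j hj' p _ => ?_⟩
    have h1 := hN i hi j hj'
    rw [dist_eq_norm] at h1 ⊢
    rw [lt_div_iff₀ (by positivity)] at h1
    nlinarith [hj l p i j, norm_nonneg (u i - u j)]
  have hl : ∀ l p, ∃ y, Tendsto (fun i => (G.SC.Dw l (σ.val (u i))).1 p) atTop (𝓝 y) := fun l p =>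
    cauchySeq_tendsto_of_complete ((hc l).cauchySeq (mem_univ p))
  choose g hg using hl
  obtain ⟨F, hF⟩ := G.limS (fun i => σ.val (u i)) g fun l =>
    tendstoUniformlyOn_univ.1 ((hc l).tendstoUniformlyOn_of_tendsto fun p _ => hg l p)
  -- weighted sup bounds for `u i - F`
  have key : ∀ η : ℝ≥0, ∀ N i, (∀ j ≥ N, ‖u i - u j‖ₑ ≤ η) → ∀ l : List (Fin 3),
      G.sC (G.oR G.ρ ^ l.length * G.SC.Dw l (σ.val (u i) - F)) ≤
        ((σ.ε (l.length + 5))⁻¹ : ℝ≥0) * η := by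
    intro η N i h l
    refine iSup_le fun p => ?_
    have e : ∀ f : G.SmC, (G.oR G.ρ ^ l.length * G.SC.Dw l (σ.val (u i) - f)).1 p =
        (G.oR G.ρ ^ l.length).1 p * ((G.SC.Dw l (σ.val (u i))).1 p - (G.SC.Dw l f).1 p) := fun f => by
      rw [← G.DwL_apply, map_sub, G.DwL_apply, G.DwL_apply]; rfl
    have t : Tendsto (fun j => ‖(G.oR G.ρ ^ l.length * G.SC.Dw l (σ.val (u i) - σ.val (u j))).1 p‖ₑ)
        atTop (𝓝 ‖(G.oR G.ρ ^ l.length * G.SC.Dw l (σ.val (u i) - F)).1 p‖ₑ) := by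
      simp only [e, hF]
      exact (((hg l p).const_sub _).const_mul _).enorm
    refine le_of_tendsto t (eventually_atTop.2 ⟨N, fun j hj => ?_⟩)
    rw [← map_sub]
    exact (enorm_jet_le l _ p).trans (by gcongr; exact h j hj)
  have hN : ∀ η : ℝ≥0, 0 < η → ∃ N, ∀ i ≥ N, ∀ j ≥ N, ‖u i - u j‖ₑ ≤ η := fun η hη => by
    obtain ⟨N, hN⟩ := hu' η hη
    refine ⟨N, fun i hi j hj => ?_⟩
    have := hN i hi j hj
    rw [dist_eq_norm] at this
    rw [← ofReal_norm_eq_enorm, ← ENNReal.ofReal_coe_nnreal]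
    exact ENNReal.ofReal_le_ofReal this.le
  have tS : ∀ k, Tendsto (fun j => G.Sc k (σ.val (u j) - F)) atTop (𝓝 0) := fun k => by
    refine esumW_tendsto k fun l hl => ?_
    subst hl
    rw [ENNReal.tendsto_atTop_zero]
    intro η hη
    obtain ⟨η', h1, h2⟩ : ∃ η' : ℝ≥0, 0 < η' ∧ (η' : ℝ≥0∞) ≤ η := by
      obtain ⟨r, h1, h2⟩ := ENNReal.lt_iff_exists_nnreal_btwn.1 hη
      exact ⟨r, by exact_mod_cast h1, h2.le⟩
    have h0 := σ.adm.pos (l.length + 5)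
    obtain ⟨N, hN⟩ := hN (σ.ε (l.length + 5) * η') (by positivity)
    refine ⟨N, fun j hj => (key _ N j (hN j hj) l).trans ?_⟩
    rwa [← ENNReal.coe_mul, ← mul_assoc, inv_mul_cancel₀ h0.ne', one_mul]
  have tL : ∀ k, Tendsto (fun j => G.lev k (σ.val (u j) - F)) atTop (𝓝 0) := fun k => by
    have := (ENNReal.Tendsto.const_mul (a := G.cm) (tS k) (Or.inr ENNReal.coe_ne_top)).add
      (tS (k - 5))
    rw [mul_zero, add_zero] at this
    exact tendsto_of_tendsto_of_tendsto_of_le_of_le tendsto_const_nhds this (fun _ => zero_le)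
      fun j => G.lev_le_Sc k _
  have main : ∀ η : ℝ≥0, ∀ N i, (∀ j ≥ N, ‖u i - u j‖ₑ ≤ η) → G.NN σ.ε (σ.val (u i) - F) ≤ η := by
    intro η N i h
    refine ENNReal.tsum_le_of_sum_range_le fun n => ?_
    have t : Tendsto (fun j => (η : ℝ≥0∞) + ∑ k ∈ Finset.range n,
        (σ.ε k : ℝ≥0∞) * G.lev k (σ.val (u j) - F)) atTop 
        (𝓝 (η + ∑ k ∈ Finset.range n, (σ.ε k : ℝ≥0∞) * 0)) :=
      (tendsto_finset_sum _ fun k _ =>
        ENNReal.Tendsto.const_mul (tL k) (Or.inr ENNReal.coe_ne_top)).const_add _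
    simp only [mul_zero, Finset.sum_const_zero, add_zero] at t
    refine ge_of_tendsto t (eventually_atTop.2 ⟨N, fun j hj => ?_⟩)
    calc ∑ k ∈ Finset.range n, (σ.ε k : ℝ≥0∞) * G.lev k (σ.val (u i) - F)
        ≤ ∑ k ∈ Finset.range n, ((σ.ε k : ℝ≥0∞) * G.lev k (σ.val (u i - u j))
          + σ.ε k * G.lev k (σ.val (u j) - F)) := by
          refine Finset.sum_le_sum fun k _ => ?_
          rw [← mul_add, map_sub]
          gcongr
          exact (G.sn_lev k).tri _ _ _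
      _ ≤ _ := by
          rw [Finset.sum_add_distrib]
          gcongr
          exact (ENNReal.sum_le_tsum _).trans ((NN_le_enorm _).trans (h j hj))
  obtain ⟨N, hN1⟩ := hN 1 one_pos
  have hF' : G.NN σ.ε F ≠ ⊤ := by
    have := (G.sn_NN σ.ε).sub (σ.val (u N)) (σ.val (u N) - F)
    rw [sub_sub_cancel] at this
    exact ne_top_of_le_ne_top (ENNReal.add_ne_top.2 ⟨σ.NN_val _,
      ne_top_of_le_ne_top ENNReal.coe_ne_top (main 1 N N (hN1 N le_rfl))⟩) this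
  refine ⟨σ.el F hF', Metric.tendsto_atTop.2 fun η hη => ?_⟩
  have hK : (0 : ℝ) < σ.K := σ.K_pos
  obtain ⟨N, hN2⟩ := hN (η / (2 * σ.K)).toNNReal (Real.toNNReal_pos.2 (by positivity))
  refine ⟨N, fun i hi => ?_⟩
  have := norm_le_of_NN (f := u i - σ.el F hF') (b := η / (2 * σ.K)) (by positivity) (by
    rw [map_sub, val_el]
    exact main _ N i (hN2 i hi))
  rw [dist_eq_norm]
  refine this.trans_lt ?_
  rw [mul_div_assoc', div_lt_iff₀ (by positivity)]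
  nlinarith [mul_pos hK hη]

/-! ### continuous linear maps -/

section CLM

variable {V : Type*} [NormedAddCommGroup V] [NormedSpace ℂ V]

/-- maps into `AA` -/
def mkL (T : V →ₗ[ℂ] G.SmC) (C : ℝ≥0) (h : ∀ v, G.NN σ.ε (T v) ≤ C * ‖v‖ₑ) : V →L[ℂ] σ.AA :=
  LinearMap.mkContinuous
    { toFun := fun v => σ.el (T v)
        (ne_top_of_le_ne_top (ENNReal.mul_ne_top ENNReal.coe_ne_top enorm_ne_top) (h v))
      map_add' := fun v w => AA_ext (map_add T v w)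
      map_smul' := fun c v => AA_ext (map_smul T c v) } ((σ.K * C : ℝ≥0) : ℝ) fun v =>
    norm_le_of_enorm (by
      rw [enorm_def, ENNReal.coe_mul, mul_assoc]
      gcongr
      exact h v)

@[simp] theorem val_mkL (T : V →ₗ[ℂ] G.SmC) (C : ℝ≥0) (h : ∀ v, G.NN σ.ε (T v) ≤ C * ‖v‖ₑ) (v : V) :
    σ.val (σ.mkL T C h v) = T v := rfl

theorem norm_mkL_le (T : V →ₗ[ℂ] G.SmC) (C : ℝ≥0) (h : ∀ v, G.NN σ.ε (T v) ≤ C * ‖v‖ₑ) :
    ‖σ.mkL T C h‖ ≤ σ.K * C :=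
  LinearMap.mkContinuous_norm_le _ (NNReal.coe_nonneg _) _

/-- existence form of `mkL` -/
theorem exists_clm (T : V →ₗ[ℂ] G.SmC) (C : ℝ≥0) (h : ∀ v, G.NN σ.ε (T v) ≤ C * ‖v‖ₑ) :
    ∃ A : V →L[ℂ] σ.AA, (∀ v, σ.val (A v) = T v) ∧ ‖A‖ ≤ σ.K * C :=
  ⟨σ.mkL T C h, fun _ => rfl, σ.norm_mkL_le T C h⟩

/-- maps out of `AA` -/
def outL (T : G.SmC →ₗ[ℂ] V) (C : ℝ≥0) (h : ∀ f : σ.AA, ‖T (σ.val f)‖ₑ ≤ C * ‖f‖ₑ) :
    σ.AA →L[ℂ] V :=
  LinearMap.mkContinuous (T.comp σ.val.toLinearMap) C fun f => norm_le_of_enorm (h f)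

@[simp] theorem outL_apply (T : G.SmC →ₗ[ℂ] V) (C : ℝ≥0)
    (h : ∀ f : σ.AA, ‖T (σ.val f)‖ₑ ≤ C * ‖f‖ₑ) (f : σ.AA) : σ.outL T C h f = T (σ.val f) := rfl

/-- operators on `AA` -/
def opL (T : G.SmC →ₗ[ℂ] G.SmC) (C : ℝ≥0) (h : ∀ f, G.NN σ.ε (T f) ≤ C * G.NN σ.ε f) :
    σ.AA →L[ℂ] σ.AA :=
  σ.mkL (T.comp σ.val.toLinearMap) C fun f => (h _).trans (by gcongr; exact NN_le_enorm f)

@[simp] theorem val_opL (T : G.SmC →ₗ[ℂ] G.SmC) (C : ℝ≥0)
    (h : ∀ f, G.NN σ.ε (T f) ≤ C * G.NN σ.ε f) (f : σ.AA) : σ.val (σ.opL T C h f) = T (σ.val f) := rfl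

theorem norm_opL_le (T : G.SmC →ₗ[ℂ] G.SmC) (C : ℝ≥0)
    (h : ∀ f, G.NN σ.ε (T f) ≤ C * G.NN σ.ε f) : ‖σ.opL T C h‖ ≤ C := by
  refine ContinuousLinearMap.opNorm_le_bound _ C.coe_nonneg fun f => norm_le_of_enorm ?_
  rw [enorm_def, enorm_def, val_opL, mul_left_comm]
  gcongr
  exact h _

end CLM

/-- evaluation of smooth functions -/
def _root_.Crest.Agent.N250.WS.Geo.evC (G : Geo X) (p : X) : G.SmC →ₐ[ℂ] ℂ :=
  (Pi.evalAlgHom ℂ _ p).comp G.SmC.val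

/-- evaluation as an algebra map -/
def evA (p : X) : σ.AA →ₐ[ℂ] ℂ := (G.evC p).comp σ.val

@[simp] theorem evA_apply (p : X) (f : σ.AA) : σ.evA p f = (σ.val f).1 p := rfl

/-- evaluation of a derivative -/
def jet (l : List (Fin 3)) (p : X) : σ.AA →L[ℂ] ℂ :=
  σ.outL ((G.evC p).toLinearMap.comp (G.DwL l)) (σ.ε (l.length + 5))⁻¹ fun f => by
    have := (G.jet_le l _ p).trans (enorm_jet_le l f p)
    rwa [← G.DwL_apply] at this

@[simp] theorem jet_apply (l : List (Fin 3)) (p : X) (f : σ.AA) :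
    σ.jet l p f = (G.SC.Dw l (σ.val f)).1 p := by
  rw [← G.DwL_apply]; rfl

/-- evaluation as a continuous linear map -/
def evL (p : X) : σ.AA →L[ℂ] ℂ := σ.jet [] p

@[simp] theorem evL_apply (p : X) (f : σ.AA) : σ.evL p f = (σ.val f).1 p := rfl

variable {σ} in
theorem AA_ext' {f g : σ.AA} (h : ∀ p, (σ.val f).1 p = (σ.val g).1 p) : f = g :=
  AA_ext (Subtype.ext (funext h))

end Scale

namespace Geo

variable (G)

/-- tame operators -/
def Tame (T : G.SmC →ₗ[ℂ] G.SmC) : Prop :=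
  ∃ C₀ : ℝ≥0, ∀ k, ∃ C : ℝ≥0, ∀ f, G.lev k (T f) ≤ C₀ * G.lev k f + C * G.low k f

variable {G}

theorem Tame.NN {T : G.SmC →ₗ[ℂ] G.SmC} (h : G.Tame T) :
    ∃ K : ℝ≥0, ∀ᶠ ε in admF, ∀ f, G.NN ε (T f) ≤ K * G.NN ε f := by
  obtain ⟨C₀, h⟩ := h
  choose c hc using h
  obtain ⟨K, hK⟩ := G.NN_tame C₀ c
  refine ⟨K, hK.mono fun ε hε f => ?_⟩
  simpa using hε f (T f) 0 fun k => by simpa using hc k f

/-- tame operators are bounded on `AA` -/
theorem Tame.clm {T : G.SmC →ₗ[ℂ] G.SmC} (h : G.Tame T) : ∃ K : ℝ≥0, ∀ᶠ ε in admF,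
    ∀ σ : Scale G, σ.ε = ε → ∃ A : σ.AA →L[ℂ] σ.AA, (∀ f, σ.val (A f) = T (σ.val f)) ∧ ‖A‖ ≤ K := by
  obtain ⟨K, hK⟩ := h.NN
  refine ⟨K, hK.mono ?_⟩
  rintro _ hε σ rfl
  exact ⟨σ.opL T K hε, fun _ => rfl, σ.norm_opL_le T K hε⟩

end Geo

end Crest.Agent.N250.WS

end
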