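import Crest.Agent.N250.Wt.AA0

/-!
# Row 250, Floer norms (helper76), part 1: the levels and `NN` are extended seminorms
-/

set_option autoImplicit false
set_option linter.unusedSectionVars false
open MeasureTheory Set Filter Topology
open scoped ENNReal NNReal

noncomputable section

namespace Crest.Agent.N250.WS

open Crest.Agent.N222

/-- extended seminorms -/
structure IsSn {V : Type} [AddCommGroup V] [Module ℂ V] (N : V → ℝ≥0∞) : Prop where
  add : ∀ f g, N (f + g) ≤ N f + N g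
  smul : ∀ (c : ℂ) f, N (c • f) ≤ ‖c‖ₑ * N f

namespace IsSn

variable {V W : Type} [AddCommGroup V] [Module ℂ V] [AddCommGroup W] [Module ℂ W]
  {N N' : V → ℝ≥0∞}

theorem zero (h : IsSn N) : N 0 = 0 := by simpa using h.smul 0 0

theorem neg (h : IsSn N) (f : V) : N (-f) = N f := by
  have : ∀ f, N (-f) ≤ N f := fun f => by simpa using h.smul (-1) f
  exact le_antisymm (this f) (by simpa using this (-f))

theorem sub (h : IsSn N) (f g : V) : N (f - g) ≤ N f + N g := by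
  rw [sub_eq_add_neg, ← h.neg g]; exact h.add _ _

theorem sub_comm (h : IsSn N) (f g : V) : N (f - g) = N (g - f) := by rw [← h.neg, neg_sub]

theorem tri (h : IsSn N) (f g k : V) : N (f - k) ≤ N (f - g) + N (g - k) := by
  rw [← sub_add_sub_cancel f g k]; exact h.add _ _

theorem sum (h : IsSn N) {κ : Type*} (s : Finset κ) (f : κ → V) :
    N (∑ i ∈ s, f i) ≤ ∑ i ∈ s, N (f i) :=
  Finset.le_sum_of_subadditive N h.zero.le h.add s f

theorem comp (h : IsSn N) (A : W →ₗ[ℂ] V) : IsSn fun w => N (A w) :=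
  ⟨fun f g => by rw [map_add]; exact h.add _ _, fun c f => by rw [map_smul]; exact h.smul _ _⟩

theorem plus (h : IsSn N) (h' : IsSn N') : IsSn fun f => N f + N' f :=
  ⟨fun f g => (add_le_add (h.add f g) (h'.add f g)).trans (add_add_add_comm _ _ _ _).le,
    fun c f => (add_le_add (h.smul c f) (h'.smul c f)).trans (mul_add _ _ _).ge⟩

theorem cmul (h : IsSn N) (k : ℝ≥0∞) : IsSn fun f => k * N f :=
  ⟨fun f g => by rw [← mul_add]; gcongr; exact h.add f g,
    fun c f => by rw [mul_left_comm]; gcongr; exact h.smul c f⟩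

theorem tsum {κ : Type*} {N : κ → V → ℝ≥0∞} (h : ∀ i, IsSn (N i)) : IsSn fun f => ∑' i, N i f :=
  ⟨fun f g => by rw [← ENNReal.tsum_add]; exact ENNReal.tsum_le_tsum fun i => (h i).add f g,
    fun c f => by rw [← ENNReal.tsum_mul_left]; exact ENNReal.tsum_le_tsum fun i => (h i).smul c f⟩

theorem fsum {κ : Type*} (s : Finset κ) {N : κ → V → ℝ≥0∞} (h : ∀ i, IsSn (N i)) :
    IsSn fun f => ∑ i ∈ s, N i f :=
  ⟨fun f g => by rw [← Finset.sum_add_distrib]; exact Finset.sum_le_sum fun i _ => (h i).add f g,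
    fun c f => by rw [Finset.mul_sum]; exact Finset.sum_le_sum fun i _ => (h i).smul c f⟩

theorem sumW {ι : Type} [Fintype ι] (k : ℕ) {N : List ι → V → ℝ≥0∞} (h : ∀ l, IsSn (N l)) :
    IsSn fun f => sumW k fun l => N l f := by
  induction k generalizing N with
  | zero => exact h []
  | succ k ih => exact fsum _ fun a => ih fun l => h (a :: l)

theorem ite (p : Prop) [Decidable p] (h : IsSn N) : IsSn fun f => if p then N f else 0 := by
  split_ifs
  · exact h
  · exact ⟨fun _ _ => zero_le, fun _ _ => zero_le⟩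

end IsSn

section SumW

variable {ι : Type} [Fintype ι]

theorem esumW_le (k : ℕ) {F G : List ι → ℝ≥0∞} (h : ∀ w, w.length = k → F w ≤ G w) :
    sumW k F ≤ sumW k G := by
  induction k generalizing F G with
  | zero => exact h [] rfl
  | succ k ih => exact Finset.sum_le_sum fun a _ => ih fun w hw => h _ (by simp [hw])

theorem le_esumW (F : List ι → ℝ≥0∞) (w : List ι) : F w ≤ sumW w.length F := by
  induction w generalizing F with
  | nil => exact le_rfl
  | cons a w ih =>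
    exact (ih fun w => F (a :: w)).trans (Finset.single_le_sum
      (f := fun a => sumW w.length fun w => F (a :: w)) (fun _ _ => zero_le) (Finset.mem_univ a))

theorem esumW_mul (c : ℝ≥0∞) (k : ℕ) (F : List ι → ℝ≥0∞) :
    sumW k (fun w => c * F w) = c * sumW k F :=
  (map_sumW (AddMonoidHom.mulLeft c) k F).symm

theorem esumW_ne_top (k : ℕ) {F : List ι → ℝ≥0∞} (h : ∀ w, w.length = k → F w ≠ ⊤) :
    sumW k F ≠ ⊤ := by
  induction k generalizing F with
  | zero => exact h [] rfl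
  | succ k ih => exact ENNReal.sum_ne_top.2 fun a _ => ih fun w hw => h _ (by simp [hw])

theorem esumW_tendsto {α : Type*} {l : Filter α} (k : ℕ) {F : α → List ι → ℝ≥0∞}
    (h : ∀ w, w.length = k → Tendsto (fun i => F i w) l (𝓝 0)) :
    Tendsto (fun i => sumW k (F i)) l (𝓝 0) := by
  induction k generalizing F with
  | zero => exact h [] rfl
  | succ k ih =>
    have := tendsto_finset_sum (Finset.univ : Finset ι) fun a _ =>
      ih (F := fun i w => F i (a :: w)) fun w hw => h _ (by simp [hw])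
    rwa [Finset.sum_const_zero] at this

end SumW

variable {X : Type} [TopologicalSpace X] [MeasurableSpace X]

namespace Geo

variable (G : Geo X)

theorem aa_Dr (a : Fin 3) (r : ℝ) (f : G.R) : G.S.D a (r • f) = r • G.S.D a f := by
  rw [Algebra.smul_def, Algebra.smul_def, G.hyp.mul, G.hyp.const]; ring

theorem aa_D_apply (a : Fin 3) (f : G.SmC) (p : X) : (G.SC.D a f).1 p =
    ((G.S.D a (G.re f)).1 p : ℂ) + Complex.I * ((G.S.D a (G.im f)).1 p : ℂ) := rfl

/-- the derivative as a complex linear map -/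
def DL (a : Fin 3) : G.SmC →ₗ[ℂ] G.SmC where
  toFun := G.SC.D a
  map_add' f g := by
    have e1 : G.re (f + g) = G.re f + G.re g := rfl
    have e2 : G.im (f + g) = G.im f + G.im g := rfl
    refine Subtype.ext (funext fun p => ?_)
    change _ = (G.SC.D a f).1 p + (G.SC.D a g).1 p
    simp only [aa_D_apply, e1, e2, G.hyp.add, Subalgebra.coe_add, Pi.add_apply, Complex.ofReal_add]
    ring
  map_smul' c f := by
    have e1 : G.re (c • f) = c.re • G.re f - c.im • G.im f :=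
      Subtype.ext (funext fun p => Complex.mul_re c (f.1 p))
    have e2 : G.im (c • f) = c.re • G.im f + c.im • G.re f :=
      Subtype.ext (funext fun p => Complex.mul_im c (f.1 p))
    refine Subtype.ext (funext fun p => ?_)
    change _ = c * (G.SC.D a f).1 p
    simp only [aa_D_apply, e1, e2, G.hyp.add, G.hyp.toIsDS.D_sub, aa_Dr, Subalgebra.coe_add,
      Subalgebra.coe_sub, Subalgebra.coe_smul, Pi.add_apply, Pi.sub_apply, Pi.smul_apply,
      smul_eq_mul, Complex.ofReal_add, Complex.ofReal_sub, Complex.ofReal_mul]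
    conv_rhs => rw [← Complex.re_add_im c]
    linear_combination (-(c.im : ℂ) * ((G.S.D a (G.im f)).1 p : ℂ)) * Complex.I_mul_I

/-- iterated derivatives as complex linear maps -/
def DwL : List (Fin 3) → G.SmC →ₗ[ℂ] G.SmC
  | [] => LinearMap.id
  | a :: l => (G.DL a).comp (DwL l)

@[simp] theorem DL_apply (a : Fin 3) (f : G.SmC) : G.DL a f = G.SC.D a f := rfl

@[simp] theorem DwL_apply (l : List (Fin 3)) (f : G.SmC) : G.DwL l f = G.SC.Dw l f := by
  induction l with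
  | nil => rfl
  | cons a l ih => rw [DwL, LinearMap.comp_apply, ih]; rfl

/-- `ρ^|l| D^l` as a linear map -/
def jL (j : ℕ) (l : List (Fin 3)) : G.SmC →ₗ[ℂ] G.SmC :=
  (LinearMap.mulLeft ℂ (G.oR G.ρ ^ j)).comp (G.DwL l)

@[simp] theorem jL_apply (j : ℕ) (l : List (Fin 3)) (f : G.SmC) :
    G.jL j l f = G.oR G.ρ ^ j * G.SC.Dw l f := by
  rw [jL, LinearMap.comp_apply, DwL_apply]; rfl

theorem le_sC (f : G.SmC) (p : X) : ‖f.1 p‖ₑ ≤ G.sC f := le_iSup (fun p => ‖f.1 p‖ₑ) p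

theorem sn_sC : IsSn G.sC :=
  ⟨fun f g => iSup_le fun p => (enorm_add_le _ _).trans (add_le_add (G.le_sC f p) (G.le_sC g p)),
    fun c f => iSup_le fun p => (enorm_smul_le (r := c) (x := f.1 p)).trans
      (by gcongr; exact G.le_sC f p)⟩

theorem sC_mul (f g : G.SmC) : G.sC (f * g) ≤ G.sC f * G.sC g :=
  iSup_le fun p => (enorm_mul (f.1 p) (g.1 p)).le.trans (mul_le_mul' (G.le_sC f p) (G.le_sC g p))

theorem sn_Sc (j : ℕ) : IsSn (G.Sc j) := by
  have := IsSn.sumW j fun l => G.sn_sC.comp (G.jL j l)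
  simp only [jL_apply] at this
  exact this

theorem le_Sc (l : List (Fin 3)) (f : G.SmC) :
    G.sC (G.oR G.ρ ^ l.length * G.SC.Dw l f) ≤ G.Sc l.length f :=
  le_esumW (fun w => G.sC (G.oR G.ρ ^ l.length * G.SC.Dw w f)) l

theorem le_Ac (l : List (Fin 3)) (f : G.SmC) :
    G.nC (G.oR G.ρ ^ l.length * G.SC.Dw l f) ≤ G.Ac l.length f :=
  le_esumW (fun w => G.nC (G.oR G.ρ ^ l.length * G.SC.Dw w f)) l

theorem Ac_le_lev (k : ℕ) (f : G.SmC) : G.Ac k f ≤ G.lev k f := le_self_add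

theorem Sc_le_lev (k : ℕ) (f : G.SmC) : G.Sc k f ≤ G.lev (k + 5) f := by
  rw [lev, if_pos (by omega), Nat.add_sub_cancel]; exact le_add_self

theorem Sc_zero (f : G.SmC) : G.Sc 0 f = G.sC f := by
  change G.sC (G.oR G.ρ ^ 0 * f) = _
  rw [pow_zero, one_mul]

theorem Ac_zero (f : G.SmC) : G.Ac 0 f = G.nC f := by
  change G.nC (G.oR G.ρ ^ 0 * f) = _
  rw [pow_zero, one_mul]

theorem lev_le_NN (ε : ℕ → ℝ≥0) (k : ℕ) (f : G.SmC) : (ε k : ℝ≥0∞) * G.lev k f ≤ G.NN ε f :=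
  term_le ε (fun k => G.lev k f) k

theorem sC_le_NN {c ε : ℕ → ℝ≥0} (h : Adm c ε) (f : G.SmC) : G.sC f ≤ G.NN ε f := by
  have := G.lev_le_NN ε 5 f
  rw [h.one 5 (by omega), ENNReal.coe_one, one_mul] at this
  exact (G.Sc_zero f ▸ G.Sc_le_lev 0 f).trans this

theorem nC_le_NN {c ε : ℕ → ℝ≥0} (h : Adm c ε) (f : G.SmC) : G.nC f ≤ G.NN ε f := by
  have := G.lev_le_NN ε 0 f
  rw [h.one 0 (by omega), ENNReal.coe_one, one_mul] at this
  exact (G.Ac_zero f ▸ G.Ac_le_lev 0 f).trans this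

theorem jet_le (l : List (Fin 3)) (f : G.SmC) (p : X) :
    ‖(G.SC.Dw l f).1 p‖ₑ ≤ ‖(G.oR G.ρ ^ l.length * G.SC.Dw l f).1 p‖ₑ := by
  change _ ≤ ‖((G.ρ.1 p : ℝ) : ℂ) ^ l.length * (G.SC.Dw l f).1 p‖ₑ
  rw [enorm_mul]
  refine le_mul_of_one_le_left' ?_
  rw [← ofReal_norm_eq_enorm, norm_pow, Complex.norm_real, ← ENNReal.ofReal_one]
  exact ENNReal.ofReal_le_ofReal (one_le_pow₀ ((G.one_le p).trans (le_abs_self _)))

instance : IsFiniteMeasure G.dm := isFiniteMeasure_withDensity_ofReal G.m_int.2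

/-- the constant between `L²(dm)` and the sup norm -/
def cm : ℝ≥0 := (G.dm univ ^ (2 : ℝ≥0∞).toReal⁻¹).toNNReal

theorem nC_le_sC (f : G.SmC) : G.nC f ≤ G.cm * G.sC f := by
  rw [cm, ENNReal.coe_toNNReal
    (ENNReal.rpow_ne_top_of_nonneg (by positivity) (measure_ne_top _ _)), mul_comm]
  exact eLpNorm_le_of_ae_enorm_bound (Eventually.of_forall (G.le_sC f))

theorem Ac_le_Sc (j : ℕ) (f : G.SmC) : G.Ac j f ≤ G.cm * G.Sc j f := by
  rw [Sc, ← esumW_mul]; exact esumW_le j fun _ _ => G.nC_le_sC _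

theorem lev_le_Sc (k : ℕ) (f : G.SmC) : G.lev k f ≤ G.cm * G.Sc k f + G.Sc (k - 5) f := by
  refine add_le_add (G.Ac_le_Sc k f) ?_
  split_ifs
  exacts [le_rfl, zero_le]

theorem lev_ne_top {f : G.SmC} (h : ∀ j, G.Sc j f ≠ ⊤) (k : ℕ) : G.lev k f ≠ ⊤ :=
  ne_top_of_le_ne_top (ENNReal.add_ne_top.2 ⟨ENNReal.mul_ne_top ENNReal.coe_ne_top (h _), h _⟩)
    (G.lev_le_Sc k f)

theorem Sc_one_ne_top (j : ℕ) : G.Sc j 1 ≠ ⊤ := by
  refine esumW_ne_top j fun w hw => ?_
  have z : ∀ w : List (Fin 3), w ≠ [] → G.SC.Dw w 1 = 0 := fun w hw => by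
    induction w with
    | nil => exact absurd rfl hw
    | cons a w ih =>
      rcases eq_or_ne w [] with rfl | h
      · have e1 : G.re 1 = 1 := rfl
        have e2 : G.im 1 = 0 := rfl
        change G.oR (G.S.D a (G.re 1)) + Complex.I • G.oR (G.S.D a (G.im 1)) = 0
        rw [e1, e2, G.hyp.toIsDS.D_one, G.hyp.toIsDS.D_zero, map_zero, smul_zero, add_zero]
      · rw [Mov.Dw, ih h]; exact (G.DL a).map_zero
  rcases eq_or_ne w [] with rfl | h
  · subst hw
    refine ne_top_of_le_ne_top ENNReal.one_ne_top (iSup_le fun p => ?_)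
    simp [Mov.Dw]
  · rw [z w h, mul_zero, G.sn_sC.zero]; exact ENNReal.zero_ne_top

/-! ### families with finite levels -/

/-- uniform level bounds give a uniform bound of the norm -/
theorem NN_le_of_lev (c : ℕ → ℝ≥0) : ∃ K : ℝ≥0, ∀ᶠ ε in admF, ∀ (f : G.SmC) (B : ℝ≥0∞),
    (∀ k, G.lev k f ≤ c k * B) → G.NN ε f ≤ K * B := by
  obtain ⟨K, h⟩ := tame 0 c
  refine ⟨K, h.mono fun ε h f B hf => ?_⟩
  simpa [NN] using h 0 (fun k => G.lev k f) B fun k => by simpa using hf k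

/-- uniform sup bounds give a uniform bound of the norm -/
theorem NN_le_of_Sc (c : ℕ → ℝ≥0) : ∃ K : ℝ≥0, ∀ᶠ ε in admF, ∀ (f : G.SmC) (B : ℝ≥0∞),
    (∀ k, G.Sc k f ≤ c k * B) → G.NN ε f ≤ K * B := by
  obtain ⟨K, h⟩ := G.NN_le_of_lev fun k => G.cm * c k + c (k - 5)
  refine ⟨K, h.mono fun ε h f B hf => h f B fun k => (G.lev_le_Sc k f).trans ?_⟩
  push_cast
  rw [add_mul, mul_assoc]
  gcongr <;> exact hf _

theorem NN_ne_top_of_lev {f : G.SmC} (h : ∀ k, G.lev k f ≠ ⊤) : ∀ᶠ ε in admF, G.NN ε f ≠ ⊤ := by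
  obtain ⟨K, hK⟩ := G.NN_le_of_lev fun k => (G.lev k f).toNNReal
  refine hK.mono fun ε hε => ne_top_of_le_ne_top (b := K * 1) (by simp) (hε f 1 fun k => ?_)
  rw [ENNReal.coe_toNNReal (h k), mul_one]

theorem NN_ne_top_of_Sc {f : G.SmC} (h : ∀ k, G.Sc k f ≠ ⊤) : ∀ᶠ ε in admF, G.NN ε f ≠ ⊤ :=
  G.NN_ne_top_of_lev (G.lev_ne_top h)

/-- tame level bounds give a bound of the norm -/
theorem NN_tame (C₀ : ℝ≥0) (c : ℕ → ℝ≥0) : ∃ K : ℝ≥0, ∀ᶠ ε in admF,
    ∀ (f g : G.SmC) (B : ℝ≥0∞),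
      (∀ k, G.lev k g ≤ C₀ * G.lev k f + c k * (G.low k f + B)) → G.NN ε g ≤ K * (G.NN ε f + B) := by
  obtain ⟨K, h⟩ := tame C₀ c
  exact ⟨K, h.mono fun ε h f g B hf => h (fun k => G.lev k f) (fun k => G.lev k g) B hf⟩

theorem jets_NN (ε : ℕ → ℝ≥0) (u : G.SmC) :
    G.jets (G.NN ε) u = ∑' k, (ε k : ℝ≥0∞) * G.jets (G.lev k) u := by
  simp only [jets, NN, mul_add, Finset.mul_sum, ENNReal.tsum_add]
  rw [Summable.tsum_finsetSum fun _ _ => ENNReal.summable,
    Summable.tsum_finsetSum fun _ _ => ENNReal.summable]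
  simp only [Summable.tsum_finsetSum fun _ _ => ENNReal.summable]

/-- **the main estimate in the Floer norm** -/
theorem NN_jets_le (h : G.MainS) : ∃ K : ℝ≥0, ∀ᶠ ε in admF, ∀ u,
    G.jets (G.NN ε) u ≤ K * (G.NN ε (G.oR G.ρ * G.SC.LL u) + G.gC u) := by
  obtain ⟨C₀, h⟩ := h
  choose c hc using h
  obtain ⟨K, hK⟩ := tame C₀ c
  refine ⟨K, hK.mono fun ε hε u => ?_⟩
  rw [jets_NN]
  exact hε (fun k => G.lev k (G.oR G.ρ * G.SC.LL u)) _ _ fun k => hc k u

theorem NN_mul (h : G.MulS) : ∃ K : ℝ≥0, 1 ≤ K ∧ ∀ᶠ ε in admF, ∀ f g,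
    G.NN ε (f * g) ≤ K * G.NN ε f * G.NN ε g := by
  choose c hc using h
  refine ⟨_, ?_, (adm_ev c).mono fun ε hε f g => hε.prod (fun k => G.lev k f) (fun k => G.lev k g)
    (fun k => G.lev k (f * g)) (fun k => (hc k f g).1) fun k => (hc k f g).2⟩
  exact le_trans one_le_two le_self_add

/-- **scales exist** for all admissible weights, with one constant -/
theorem exists_scale (h : G.MulS) : ∃ K : ℝ≥0, ∀ᶠ ε in admF, ∃ σ : Scale G, σ.ε = ε ∧ σ.K = K := by
  obtain ⟨K, h1, hK⟩ := G.NN_mul h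
  refine ⟨K, ?_⟩
  filter_upwards [hK, adm_ev 1, G.NN_ne_top_of_Sc G.Sc_one_ne_top] with ε a b c
  exact ⟨⟨ε, K, b, h1, a, c⟩, rfl, rfl⟩

/-- a scale with any eventually true property of the weights -/
theorem exists_scale' (h : G.MulS) {P : (ℕ → ℝ≥0) → Prop} (hP : ∀ᶠ ε in admF, P ε) :
    ∃ σ : Scale G, P σ.ε := by
  obtain ⟨K, hK⟩ := G.exists_scale h
  obtain ⟨ε, ⟨σ, rfl, -⟩, h2⟩ := (hK.and hP).exists
  exact ⟨σ, h2⟩

variable [BorelSpace X]

theorem aesmC (f : G.SmC) (μ : Measure X) : AEStronglyMeasurable f.1 μ :=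
  (Imm.Sm.continuous f.2).aestronglyMeasurable

theorem sn_Lp (μ : Measure X) : IsSn fun f : G.SmC => eLpNorm f.1 2 μ :=
  ⟨fun f g => eLpNorm_add_le (G.aesmC f μ) (G.aesmC g μ) one_le_two,
    fun c f => eLpNorm_const_smul_le (c := c) (f := f.1)⟩

theorem sn_nC : IsSn G.nC := G.sn_Lp _

theorem sn_gC : IsSn G.gC := G.sn_Lp _

theorem sn_Ac (j : ℕ) : IsSn (G.Ac j) := by
  have := IsSn.sumW j fun l => G.sn_nC.comp (G.jL j l)
  simp only [jL_apply] at this
  exact this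

theorem sn_lev (k : ℕ) : IsSn (G.lev k) := (G.sn_Ac k).plus ((G.sn_Sc (k - 5)).ite _)

theorem sn_low (k : ℕ) : IsSn (G.low k) := IsSn.fsum _ G.sn_lev

theorem sn_NN (ε : ℕ → ℝ≥0) : IsSn (G.NN ε) := IsSn.tsum fun k => (G.sn_lev k).cmul _

end Geo

end Crest.Agent.N250.WS

end
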