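import Crest.Agent.N250.Wt.Hol0
import Crest.Agent.N250.Wt.AA1

/-!
# Row 250 (helper43): holomorphy criterion for the Floer norm

`V` is any complete space of smooth functions (`j : V →ₗ[ℂ] G.SmC`) whose norm is bounded by a
multiple of `G.NN ε`.
-/

set_option autoImplicit false
set_option linter.unusedSectionVars false
open MeasureTheory Set Filter Topology Metric
open scoped ENNReal NNReal

noncomputable section

namespace Crest.Agent.N250.WS

open Crest.Agent.N222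

variable {X : Type} [TopologicalSpace X] [MeasurableSpace X]

namespace Geo

variable (G : Geo X)

/-- the weights `ε` sum the sup bounds `c` (of single words) -/
def Sums (c ε : ℕ → ℝ≥0) : Prop := ∃ K : ℝ≥0, ∀ (f : G.SmC) (t : ℝ≥0),
  (∀ l p, ‖(G.oR G.ρ ^ l.length * G.SC.Dw l f).1 p‖ ≤ t * c l.length) → G.NN ε f ≤ K * t

theorem Sc_le_of_words {f : G.SmC} {k : ℕ} {b : ℝ≥0}
    (h : ∀ l : List (Fin 3), l.length = k → ∀ p, ‖(G.oR G.ρ ^ k * G.SC.Dw l f).1 p‖ ≤ b) :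
    G.Sc k f ≤ 3 ^ k * b := by
  have e : ∀ k : ℕ, (sumW k fun _ : List (Fin 3) => (b : ℝ≥0∞)) = 3 ^ k * b := fun k => by
    induction k with
    | zero => simp [sumW]
    | succ k ih => simp only [sumW, ih, Finset.sum_const, Finset.card_univ, Fintype.card_fin,
        nsmul_eq_mul, Nat.cast_ofNat]; ring
  rw [← e]
  refine esumW_le k fun l hl => iSup_le fun p => ?_
  rw [enorm_eq_nnnorm, ENNReal.coe_le_coe]
  exact h l hl p

theorem word_le_of_Sc {f : G.SmC} (l : List (Fin 3)) {b : ℝ≥0} (h : G.Sc l.length f ≤ b) (p : X) :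
    ‖(G.oR G.ρ ^ l.length * G.SC.Dw l f).1 p‖ ≤ b := by
  have := ((G.le_sC _ p).trans (G.le_Sc l f)).trans h
  rw [enorm_eq_nnnorm, ENNReal.coe_le_coe] at this
  exact this

theorem sums_ev (c : ℕ → ℝ≥0) : ∀ᶠ ε in admF, G.Sums c ε := by
  obtain ⟨K, h⟩ := G.NN_le_of_Sc fun k => 3 ^ k * c k
  refine h.mono fun ε h => ⟨K, fun f t hf => h f t fun k => ?_⟩
  refine (G.Sc_le_of_words (b := t * c k) fun l hl p => ?_).trans (le_of_eq ?_)
  · subst hl; exact_mod_cast hf l p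
  · push_cast; ring

variable {G}

theorem Sums.mono {c c' ε : ℕ → ℝ≥0} (h : G.Sums c ε) (hc : ∀ k, c' k ≤ c k) : G.Sums c' ε := by
  obtain ⟨K, h⟩ := h
  refine ⟨K, fun f t hf => h f t fun l p => (hf l p).trans ?_⟩
  have : (c' l.length : ℝ) ≤ c l.length := hc _
  gcongr

/-- uniform sup bounds give a uniform bound for the norm -/
theorem Sums.NN_le {c ε : ℕ → ℝ≥0} (h : G.Sums c ε) : ∃ K : ℝ≥0, ∀ (f : G.SmC) (t : ℝ≥0),
    (∀ k, G.Sc k f ≤ t * c k) → G.NN ε f ≤ K * t := by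
  obtain ⟨K, h⟩ := h
  exact ⟨K, fun f t hf => h f t fun l p => by
    exact_mod_cast G.word_le_of_Sc l (b := t * c l.length) (by exact_mod_cast hf _) p⟩

variable {E V : Type*} [NormedAddCommGroup E] [NormedSpace ℂ E] [NormedAddCommGroup V]
  [NormedSpace ℂ V] [CompleteSpace V]

/-- **holomorphy criterion**, bounds on words -/
theorem Sums.diffOn_words {c ε : ℕ → ℝ≥0} (h : G.Sums c ε) (j : V →ₗ[ℂ] G.SmC) {K : ℝ≥0}
    (hj : ∀ v, ‖v‖ₑ ≤ K * G.NN ε (j v)) {F : E → V} {U : Set E} (hU : IsOpen U) {B : ℝ≥0}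
    (hb : ∀ z ∈ U, ∀ l p,
      ‖(G.oR G.ρ ^ l.length * G.SC.Dw l (j (F z))).1 p‖ ≤ B * c l.length)
    (hd : ∀ l p, DifferentiableOn ℂ (fun z => (G.SC.Dw l (j (F z))).1 p) U) :
    DifferentiableOn ℂ F U := by
  obtain ⟨K', h⟩ := h
  let Φ : List (Fin 3) × X → V →ₗ[ℂ] ℂ := fun i =>
    (LinearMap.proj i.2).comp
      (G.SmC.val.toLinearMap.comp ((G.jL i.1.length i.1).comp j))
  have hΦ : ∀ i v, Φ i v = (G.oR G.ρ ^ i.1.length * G.SC.Dw i.1 (j v)).1 i.2 := fun i v => by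
    rw [← G.jL_apply]; rfl
  refine Hol.diffOn_of_dom (Φ := Φ) (w := fun i => B * c i.1.length) (K := K * K' * B)
    (fun v t ht hv => ?_) hU (fun i z hz => hΦ i _ ▸ hb z hz i.1 i.2) fun i => ?_
  · lift t to ℝ≥0 using ht
    have h1 := (hj v).trans (mul_le_mul_right (h (j v) (t * B) fun l p => by
      have := hv (l, p)
      rw [hΦ] at this
      push_cast
      rw [mul_assoc]
      exact this) _)
    rw [enorm_eq_nnnorm, ← ENNReal.coe_mul, ← ENNReal.coe_mul, ENNReal.coe_le_coe] at h1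
    have h2 : ‖v‖ ≤ K * (K' * (t * B)) := by exact_mod_cast h1
    exact h2.trans (le_of_eq (by ring))
  · simp only [hΦ]
    exact (hd i.1 i.2).const_mul ((G.oR G.ρ ^ i.1.length).1 i.2)

/-- **holomorphy criterion** -/
theorem Sums.diffOn_jets {c ε : ℕ → ℝ≥0} (h : G.Sums c ε) (j : V →ₗ[ℂ] G.SmC) {K : ℝ≥0}
    (hj : ∀ v, ‖v‖ₑ ≤ K * G.NN ε (j v)) {F : E → V} {U : Set E} (hU : IsOpen U) {B : ℝ≥0}
    (hb : ∀ z ∈ U, ∀ k, G.Sc k (j (F z)) ≤ B * c k)
    (hd : ∀ l p, DifferentiableOn ℂ (fun z => (G.SC.Dw l (j (F z))).1 p) U) :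
    DifferentiableOn ℂ F U :=
  h.diffOn_words j hj hU (B := B) (fun z hz l p => by
    exact_mod_cast G.word_le_of_Sc l (b := B * c l.length) (by exact_mod_cast hb z hz _) p) hd

end Geo

end Crest.Agent.N250.WS

end
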