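import Crest.Agent.N250.G.Bern
import Crest.Agent.N222.F.Meas

/-!
# Row 250, weighted theory on a shrinker (helper54): definitions and leaf statements

`Geo X` = shrinker `M` with normal `n`, scale `ρ` (`√(1+|x|²)` off the tubes, `1` on the far tubes),
`ι = ρ⁻¹`, density `m` (`ρ⁻⁴` on the cones) and cut-off `ζ` (kills the far tubes).
All norms have values in `ℝ≥0∞`.
-/

set_option autoImplicit false
open MeasureTheory Set Filter Topology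
open scoped ContDiff ENNReal NNReal

noncomputable section

namespace Crest.Agent.N250

open Crest.Agent.N222

namespace Mov

variable {R : Type} [CommRing R] [Algebra ℝ R] {ι : Type} [Fintype ι] (S : Mov R ι)

/-- the drift `x · ∇` -/
def dr (f : R) : R := ∑ a, S.x a * S.D a f

/-- `x · ∇ f + (i - 1) f` -/
def Pi (i : ℕ) (f : R) : R := S.dr f + ((i : R) - 1) * f

/-- `Δ f - (x · ∇ f + (i - 1) f) / 2` -/
def Mi (i : ℕ) (f : R) : R := S.lap f - algebraMap ℝ R (1 / 2) * S.Pi i f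

/-- the Jacobi operator of a shrinker -/
def LL (f : R) : R := S.Mi 0 f + S.a2 * f

end Mov

namespace WS

variable {X : Type} [TopologicalSpace X]

/-- the static `Mov` of an immersed surface with normal `n` -/
def mov (M : Imm 2 (Fin 3) X) (n : Fin 3 → SmR M.ch) : Mov (SmR M.ch) (Fin 3) :=
  ⟨M.preR, fun _ => 0, n, 0⟩

/-- symbols of order `k` -/
def Sym {M : Imm 2 (Fin 3) X} (n : Fin 3 → SmR M.ch) (ρ : SmR M.ch) (k : ℤ) (f : SmR M.ch) : Prop :=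
  ∀ l : List (Fin 3), ∃ C : ℝ, ∀ p, |((mov M n).Dw l f).1 p| ≤ C * ρ.1 p ^ (k - l.length)

/-- the setting -/
structure Geo (X : Type) [TopologicalSpace X] [MeasurableSpace X] where
  M : Imm 2 (Fin 3) X
  n : Fin 3 → SmR M.ch
  ρ : SmR M.ch
  ι : SmR M.ch
  m : SmR M.ch
  ζ : SmR M.ch
  hyp : (mov M n).IsHyp
  shr : (mov M n).xn = 2 * (mov M n).h
  prop : ∀ r : ℝ, IsCompact {p | (mov M n).x2.1 p ≤ r}
  ρι : ρ * ι = 1
  one_le : ∀ p, 1 ≤ ρ.1 p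
  ρ_le : ∀ p, ρ.1 p ^ 2 ≤ 1 + (mov M n).x2.1 p
  symρ : Sym n ρ 1 ρ
  symι : Sym n ρ (-1) ι
  symn : ∀ a, Sym n ρ 0 (n a)
  drρ : ∃ C : ℝ, ∀ p, |((mov M n).dr ρ).1 p - ρ.1 p| ≤ C * ι.1 p
  m_pos : ∀ p, 0 < m.1 p
  m_le : ∀ p, m.1 p ≤ 1
  m_ge : ∃ (c : ℝ) (b : ℕ), 0 < c ∧ ∀ p, c ≤ m.1 p * (1 + (mov M n).x2.1 p) ^ b
  m_int : Integrable m.1 M.mu
  Dm : ∃ C : ℝ, ∀ a p, |((mov M n).D a m).1 p| ≤ C * ι.1 p * m.1 p
  drm : ∃ C : ℝ, ∀ p, ((mov M n).dr m).1 p ≤ (-4 + C * ι.1 p ^ 2) * m.1 p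
  far : ∃ R₁ : ℝ, ∀ p, R₁ ≤ (mov M n).x2.1 p →
    (1 + (mov M n).a2.1 p) * (ι ^ 2 * m).1 p ^ 2
      + ((mov M n).dr (ι ^ 2 * m)).1 p * (ι ^ 2 * m).1 p / 4
      + 2 * ((mov M n).gam (ι ^ 2 * m) (ι ^ 2 * m)).1 p ≤ -(ι ^ 2 * m).1 p ^ 2 / 8
  ζ_le : ∀ p, |ζ.1 p| ≤ 1
  symDζ : ∀ a, Sym n ρ (-3) ((mov M n).D a ζ)
  zone : ∃ C : ℝ, ∀ p ∈ tsupport ζ.1,
    1 + (mov M n).x2.1 p ≤ C * ρ.1 p ^ 2 ∧ ι.1 p ^ 4 ≤ C * m.1 p

variable [MeasurableSpace X]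

namespace Geo

variable (G : Geo X)

/-- real smooth functions -/
abbrev R : Type := SmR G.M.ch

/-- the real calculus -/
abbrev S : Mov G.R (Fin 3) := mov G.M G.n

/-- symbols -/
abbrev Sy (k : ℤ) (f : G.R) : Prop := Sym G.n G.ρ k f

/-- the finite measure `m dA` -/
def dm : Measure X := G.M.mu.withDensity fun p => ENNReal.ofReal (G.m.1 p)

/-- the Gaussian measure -/
def ga : Measure X := G.M.mu.withDensity fun p => ENNReal.ofReal (Real.exp (-G.S.x2.1 p / 4))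

/-- `L²(dm)` -/
def nR (f : G.R) : ℝ≥0∞ := eLpNorm f.1 2 G.dm

/-- Gaussian `L²` -/
def gR (f : G.R) : ℝ≥0∞ := eLpNorm f.1 2 G.ga

/-- sup norm -/
def sR (f : G.R) : ℝ≥0∞ := ⨆ p, ‖f.1 p‖ₑ

/-- `ρ^(j-1) D^j u` in `L²(dm)` -/
def U (j : ℕ) (u : G.R) : ℝ≥0∞ := sumW j fun l => G.nR (G.ρ ^ j * G.ι * G.S.Dw l u)

/-- the drift part -/
def T (j : ℕ) (u : G.R) : ℝ≥0∞ := sumW j fun l => G.nR (G.ρ ^ (j + 1) * G.S.Pi j (G.S.Dw l u))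

/-- `ρ^j D^j f` in `L²(dm)` -/
def Ar (j : ℕ) (f : G.R) : ℝ≥0∞ := sumW j fun l => G.nR (G.ρ ^ j * G.S.Dw l f)

/-- `ρ^j D^j f` in the sup norm -/
def Sr (j : ℕ) (f : G.R) : ℝ≥0∞ := sumW j fun l => G.sR (G.ρ ^ j * G.S.Dw l f)

/-! ### complex functions -/

/-- complex smooth functions -/
def SmC : Subalgebra ℂ (X → ℂ) where
  carrier := {f | G.M.Sm f}
  mul_mem' {_ _} hf hg p := (hf p).mul (hg p)
  add_mem' {_ _} hf hg p := (hf p).add (hg p)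
  algebraMap_mem' _ _ := contDiffOn_const

/-- real functions as complex functions -/
def oR : G.R →+* G.SmC where
  toFun f := ⟨fun p => (f.1 p : ℂ), Imm.Sm.comp f.2 Complex.ofRealCLM.contDiff⟩
  map_one' := Subtype.ext (funext fun _ => Complex.ofReal_one)
  map_mul' _ _ := Subtype.ext (funext fun _ => Complex.ofReal_mul _ _)
  map_zero' := Subtype.ext (funext fun _ => Complex.ofReal_zero)
  map_add' _ _ := Subtype.ext (funext fun _ => Complex.ofReal_add _ _)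

/-- real part -/
def re (f : G.SmC) : G.R := ⟨fun p => (f.1 p).re, Imm.Sm.comp f.2 Complex.reCLM.contDiff⟩

/-- imaginary part -/
def im (f : G.SmC) : G.R := ⟨fun p => (f.1 p).im, Imm.Sm.comp f.2 Complex.imCLM.contDiff⟩

/-- the complex calculus -/
def SC : Mov G.SmC (Fin 3) where
  x a := G.oR (G.S.x a)
  D a f := G.oR (G.S.D a (G.re f)) + Complex.I • G.oR (G.S.D a (G.im f))
  T _ := 0
  n a := G.oR (G.n a)
  V := 0

/-- `L²(dm)` -/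
def nC (f : G.SmC) : ℝ≥0∞ := eLpNorm f.1 2 G.dm

/-- Gaussian `L²` -/
def gC (f : G.SmC) : ℝ≥0∞ := eLpNorm f.1 2 G.ga

/-- sup norm -/
def sC (f : G.SmC) : ℝ≥0∞ := ⨆ p, ‖f.1 p‖ₑ

/-- `ρ^j D^j f` in `L²(dm)` -/
def Ac (j : ℕ) (f : G.SmC) : ℝ≥0∞ := sumW j fun l => G.nC (G.oR G.ρ ^ j * G.SC.Dw l f)

/-- `ρ^j D^j f` in the sup norm -/
def Sc (j : ℕ) (f : G.SmC) : ℝ≥0∞ := sumW j fun l => G.sC (G.oR G.ρ ^ j * G.SC.Dw l f)

/-- level `k` of the norm -/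
def lev (k : ℕ) (f : G.SmC) : ℝ≥0∞ := G.Ac k f + if 5 ≤ k then G.Sc (k - 5) f else 0

/-- the levels below `k` -/
def low (k : ℕ) (f : G.SmC) : ℝ≥0∞ := ∑ j ∈ Finset.range k, G.lev j f

/-- the norm with weights `ε` (all derivatives at once) -/
def NN (ε : ℕ → ℝ≥0) (f : G.SmC) : ℝ≥0∞ := ∑' k, ε k * G.lev k f

/-- the jets `ζ u / ρ`, `ζ D u`, `ζ ρ D D u` measured by `N` -/
def jets (N : G.SmC → ℝ≥0∞) (u : G.SmC) : ℝ≥0∞ :=
  N (G.oR (G.ζ * G.ι) * u) + ∑ a, N (G.oR G.ζ * G.SC.D a u)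
    + ∑ a, ∑ b, N (G.oR (G.ζ * G.ρ) * G.SC.D a (G.SC.D b u))

end Geo

/-- weights that are small with respect to the constants `c` -/
structure Adm (c ε : ℕ → ℝ≥0) : Prop where
  pos : ∀ k, 0 < ε k
  one : ∀ k ≤ 11, ε k = 1
  anti : ∀ k, ε (k + 1) ≤ ε k
  le : ∀ k, 11 ≤ k → ε (k + 1) * c (k + 1) * 2 ^ k ≤ ε k ^ 2

/-- a scale: weights for which `NN` is an algebra norm up to the constant `K` -/
structure Scale (G : Geo X) where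
  ε : ℕ → ℝ≥0
  K : ℝ≥0
  adm : Adm 1 ε
  one_le : 1 ≤ K
  mul : ∀ f g, G.NN ε (f * g) ≤ K * G.NN ε f * G.NN ε g
  one : G.NN ε 1 ≠ ⊤

/-! ### leaves (all for `[BorelSpace X] [T2Space X] [SecondCountableTopology X]`) -/

namespace Geo

variable (G : Geo X)

/-- commutators -/
def ComS : Prop := ∀ l : List (Fin 3), ∃ C : ℝ≥0, ∀ u,
  G.nR (G.ρ ^ (l.length + 1) * (G.S.Mi l.length (G.S.Dw l u) - G.S.Dw l (G.S.LL u))) ≤
    C * ∑ j ∈ Finset.range (l.length + 2), G.U j u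

/-- second order estimate, top constant independent of the level -/
def E2S : Prop := ∀ i : ℕ, ∃ C : ℝ≥0, ∀ v,
  G.nR (G.ρ ^ (i + 1) * G.S.Pi i v) + ∑ a, ∑ b, G.nR (G.ρ ^ (i + 1) * G.S.D a (G.S.D b v)) ≤
    100 * G.nR (G.ρ ^ (i + 1) * G.S.Mi i v) + C * ∑ a, G.nR (G.ρ ^ i * G.S.D a v)

/-- from Gaussian to polynomial weights -/
def E0S : Prop := ∃ C : ℝ≥0, ∀ u,
  G.nR (G.ι * u) + ∑ a, G.nR (G.S.D a u) ≤ C * (G.nR (G.ρ * G.S.LL u) + G.gR u)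

/-- all levels -/
def LevS : Prop := ∃ C₀ : ℝ≥0, ∀ k, ∃ C : ℝ≥0, ∀ u,
  G.U (k + 2) u + G.T k u + G.U 1 u + G.U 0 u ≤ C₀ * G.Ar k (G.ρ * G.S.LL u)
    + C * (∑ j ∈ Finset.range k, G.Ar j (G.ρ * G.S.LL u) + G.gR u)

/-- lower density -/
def DenS : Prop := ∀ p, ∀ V ∈ 𝓝 p, ∀ᶠ r : ℝ in 𝓝[>] 0,
  ENNReal.ofReal (r ^ 2) ≤ G.M.mu (V ∩ {q | dist (G.M.x q) (G.M.x p) < r})

/-- sup bounds (`s = ζ` or a derivative of `ζ`) -/
def SupS : Prop := ∀ s : G.R, G.Sy 0 s → (∀ a, G.Sy (-3) (G.S.D a s)) →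
  tsupport s.1 ⊆ tsupport G.ζ.1 → ∀ l : List (Fin 3), ∃ C : ℝ≥0, ∀ u,
  G.sR (s * G.ρ ^ l.length * G.ι * G.S.Dw l u) ≤
    C * ∑ j ∈ Finset.range (l.length + 3), (G.U j u + G.T j u)

/-- the main estimate, tame form -/
def MainS : Prop := ∃ C₀ : ℝ≥0, ∀ k, ∃ C : ℝ≥0, ∀ u,
  G.jets (G.lev k) u ≤ C₀ * G.lev k (G.oR G.ρ * G.SC.LL u)
    + C * (G.low k (G.oR G.ρ * G.SC.LL u) + G.gC u)

/-- products, tame form -/
def MulS : Prop := ∀ k, ∃ C : ℝ≥0, ∀ f g,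
  (k ≤ 11 → G.lev k (f * g) ≤ C * (G.low 12 f * G.low 12 g)) ∧
  (12 ≤ k → G.lev k (f * g) ≤ G.lev k f * G.lev 5 g + G.lev 5 f * G.lev k g
    + C * (G.low k f * G.low k g))

/-- limits of smooth functions -/
def LimS : Prop := ∀ (f : ℕ → G.SmC) (g : List (Fin 3) → X → ℂ),
  (∀ l, TendstoUniformly (fun i => (G.SC.Dw l (f i)).1) (g l) atTop) →
  ∃ F : G.SmC, ∀ l, (G.SC.Dw l F).1 = g l

end Geo

end WS

end Crest.Agent.N250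

end
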