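import Crest.Agent.N250.Wt.Hol
import Crest.Agent.N250.Wt.AA

/-!
# Row 250 (helper43): holomorphy criterion for the Floer norm, values only

Bounded pointwise limits of holomorphic functions are holomorphic, hence the jets of a bounded
family with holomorphic values are holomorphic.
-/

set_option autoImplicit false
set_option linter.unusedSectionVars false
open MeasureTheory Set Filter Topology Metric
open scoped ENNReal NNReal ContDiff

noncomputable section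

namespace Crest.Agent.N250.WS

open Crest.Agent.N222

namespace Hol

open Crest.Agent.N250.H

variable {E : Type*} [NormedAddCommGroup E] [NormedSpace ℂ E]

/-- bounded pointwise limits -/
theorem diffAt_of_ptlim {α : Type*} {l : Filter α} [l.NeBot] {F : α → E → ℂ} {f : E → ℂ} {c : E}
    {r M : ℝ} (hr : 0 < r)
    (hF : ∀ᶠ n in l, DifferentiableOn ℂ (F n) (ball c r) ∧ ∀ z ∈ ball c r, ‖F n z‖ ≤ M)
    (hl : ∀ z ∈ ball c r, Tendsto (fun n => F n z) l (𝓝 (f z))) : DifferentiableAt ℂ f c := by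
  let u : Ultrafilter α := Ultrafilter.of l
  have hu : (u : Filter α) ≤ l := Ultrafilter.of_le l
  have hb : ∀ h : E, ∀ᶠ n in (u : Filter α), ‖fderiv ℂ (F n) c h‖ ≤ 2 * M / r * ‖h‖ := fun h =>
    (hF.filter_mono hu).mono fun n hn => ((fderiv ℂ (F n) c).le_opNorm h).trans
      (mul_le_mul_of_nonneg_right (fd_le hr hn.1 hn.2) (norm_nonneg _))
  have hex : ∀ h : E, ∃ d, Tendsto (fun n => fderiv ℂ (F n) c h) u (𝓝 d) := fun h => by
    obtain ⟨d, -, hd⟩ := (isCompact_closedBall (0 : ℂ) (2 * M / r * ‖h‖)).ultrafilter_le_nhds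
      (u.map fun n => fderiv ℂ (F n) c h) (le_principal_iff.2 ((hb h).mono fun n hn => by
        simpa using hn))
    exact ⟨d, hd⟩
  choose D0 hD0 using hex
  let D1 : E →ₗ[ℂ] ℂ :=
    { toFun := D0
      map_add' := fun h h' => tendsto_nhds_unique (hD0 (h + h')) (by
        simpa only [map_add] using (hD0 h).add (hD0 h'))
      map_smul' := fun a h => tendsto_nhds_unique (hD0 (a • h)) (by
        simpa only [map_smul, RingHom.id_apply] using (hD0 h).const_smul a) }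
  have hD : ∀ h, ‖D1 h‖ ≤ 2 * M / r * ‖h‖ := fun h => le_of_tendsto (hD0 h).norm (hb h)
  refine (hasFD_of_sq (K := 4 * M / r ^ 2) hr (D1.mkContinuous _ hD) fun z hz => ?_).differentiableAt
  refine le_of_tendsto (((((hl z hz).sub (hl c (mem_ball_self hr))).mono_left hu).sub
    (hD0 (z - c))).norm) ((hF.filter_mono hu).mono fun n hn => ?_)
  exact (tay2 hn.1 hn.2 hz).trans (le_of_eq (by ring))

theorem diffOn_of_ptlim {α : Type*} {l : Filter α} [l.NeBot] {F : α → E → ℂ} {f : E → ℂ}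
    {U : Set E} (hU : IsOpen U) {M : ℝ}
    (hF : ∀ᶠ n in l, DifferentiableOn ℂ (F n) U ∧ ∀ z ∈ U, ‖F n z‖ ≤ M)
    (hl : ∀ z ∈ U, Tendsto (fun n => F n z) l (𝓝 (f z))) : DifferentiableOn ℂ f U := by
  intro c hc
  obtain ⟨r, hr, hs⟩ := Metric.isOpen_iff.1 hU c hc
  exact (diffAt_of_ptlim hr (hF.mono fun n hn => ⟨hn.1.mono hs, fun z hz => hn.2 z (hs hz)⟩)
    fun z hz => hl z (hs hz)).differentiableWithinAt

variable {d : ℕ} {ι : Type} [Fintype ι] [DecidableEq ι] {X : Type} [TopologicalSpace X]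

/-- a curve with velocity the tangential part of `e_a` -/
theorem curve (M : Imm d ι X) (p : X) (a : ι) : ∃ (γ : ℝ → X) (φ : ι → ℝ → ℝ) (δ C : ℝ),
    0 < δ ∧ γ 0 = p ∧ (∀ t ∈ ball (0 : ℝ) δ, ∑ b, |φ b t| ≤ C) ∧
    (∀ u : X → ℝ, M.pre.D a u p = ∑ b, M.pre.D b u p * φ b 0) ∧
    ∀ u : X → ℝ, M.Sm u → ∀ t ∈ ball (0 : ℝ) δ,
      HasDerivAt (fun t => u (γ t)) (∑ b, M.pre.D b u (γ t) * φ b t) t := by
  have hz := (M.ch p).map_source (M.mem p)
  have ho := (M.ch p).open_target.mem_nhds hz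
  set v := ContinuousLinearMap.adjoint (Lam (M.J p)) (ee a) with hv
  set z : ℝ → E (Fin d) := fun t => M.ch p p + t • v with hzz
  have z0 : z 0 = M.ch p p := by simp [hzz]
  have zd : ∀ t, HasDerivAt z v t := fun t =>
    (((hasDerivAt_id t).smul_const v).const_add (M.ch p p)).congr_deriv (one_smul _ _)
  have zt : Tendsto z (𝓝 0) (𝓝 (M.ch p p)) := z0 ▸ (zd 0).continuousAt.tendsto
  have ct : Tendsto (fun t => ∑ b, |LimP.Jr M p b (z t) v|) (𝓝 0)
      (𝓝 (∑ b, |LimP.Jr M p b (M.ch p p) v|)) := tendsto_finsetSum _ fun b _ =>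
    ((ContinuousLinearMap.apply ℝ ℝ v).continuous.tendsto _ |>.comp
      (((LimP.sm_Jr M p b).continuousOn.continuousAt ho).tendsto.comp zt)).abs
  obtain ⟨δ, hδ, h⟩ := Metric.eventually_nhds_iff_ball.1 ((zt.eventually ho).and
    (ct.eventually (gt_mem_nhds (lt_add_one _))))
  refine ⟨fun t => (M.ch p).symm (z t), fun b t => LimP.Jr M p b (z t) v, δ, _, hδ, ?_,
    fun t ht => (h t ht).2.le, fun u => ?_, fun u hu t ht => ?_⟩
  · simp only [z0, (M.ch p).left_inv (M.mem p)]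
  · change M.td u p (ee a) = _
    rw [Imm.td, LimP.fd_eq M p u hz, (M.ch p).left_inv (M.mem p)]
    simp [hv, z0]
  · have h1 := ((hu p).contDiffAt ((M.ch p).open_target.mem_nhds (h t ht).1)).differentiableAt
      (by simp)
    have h2 := h1.hasFDerivAt
    rw [LimP.fd_eq M p _ (h t ht).1] at h2
    exact (h2.comp_hasDerivAt t (zd t)).congr_deriv (by simp)

end Hol

variable {X : Type} [TopologicalSpace X] [MeasurableSpace X]

namespace Geo

variable (G : Geo X)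

theorem curveC (p : X) (a : Fin 3) : ∃ (γ : ℝ → X) (δ C : ℝ), 0 < δ ∧ γ 0 = p ∧
    ∀ f : G.SmC, HasDerivAt (fun t => f.1 (γ t)) ((G.SC.D a f).1 p) 0 ∧
      ∀ M : ℝ, (∀ b q, ‖(G.SC.D b f).1 q‖ ≤ M) → ∀ t ∈ ball (0 : ℝ) δ,
        ‖f.1 (γ t) - f.1 (γ 0)‖ ≤ M * C * ‖t‖ := by
  obtain ⟨γ, φ, δ, C, hδ, h0, hC, h1, h2⟩ := Hol.curve G.M p a
  have eD : ∀ b (f : G.SmC) q, (G.SC.D b f).1 q =
      (G.M.pre.D b (G.re f).1 q : ℂ) + Complex.I * (G.M.pre.D b (G.im f).1 q : ℂ) :=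
    fun _ _ _ => rfl
  have hd : ∀ f : G.SmC, ∀ t ∈ ball (0 : ℝ) δ,
      HasDerivAt (fun t => f.1 (γ t)) (∑ b, (G.SC.D b f).1 (γ t) * φ b t) t := fun f t ht => by
    have := (h2 _ (G.re f).2 t ht).ofReal_comp.add
      ((h2 _ (G.im f).2 t ht).ofReal_comp.const_mul Complex.I)
    refine (this.congr_of_eventuallyEq (Eventually.of_forall fun s => ?_)).congr_deriv ?_
    · change f.1 (γ s) = ((f.1 (γ s)).re : ℂ) + Complex.I * ((f.1 (γ s)).im : ℂ)
      rw [mul_comm, Complex.re_add_im]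
    · simp only [eD, add_mul, Finset.sum_add_distrib, Complex.ofReal_sum, Complex.ofReal_mul,
        Finset.mul_sum, mul_assoc]
  refine ⟨γ, δ, C, hδ, h0, fun f => ⟨?_, fun M hM t ht => ?_⟩⟩
  · refine (hd f 0 (mem_ball_self hδ)).congr_deriv ?_
    rw [h0, eD a, h1, h1 (G.im f).1]
    simp only [eD, add_mul, Finset.sum_add_distrib, Complex.ofReal_sum, Complex.ofReal_mul,
      Finset.mul_sum, mul_assoc]
  · have := (convex_ball (0 : ℝ) δ).norm_image_sub_le_of_norm_hasDerivWithin_le (C := M * C)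
      (fun s hs => (hd f s hs).hasDerivWithinAt) (fun s hs => ?_) (mem_ball_self hδ) ht
    · simpa using this
    · have M0 : 0 ≤ M := (norm_nonneg _).trans (hM a p)
      refine (norm_sum_le _ _).trans (le_trans (Finset.sum_le_sum fun b _ => ?_)
        ((Finset.mul_sum _ _ _).symm.trans_le (mul_le_mul_of_nonneg_left (hC s hs) M0)))
      rw [norm_mul, Complex.norm_real, Real.norm_eq_abs]
      exact mul_le_mul_of_nonneg_right (hM b _) (abs_nonneg _)

variable {E : Type*} [NormedAddCommGroup E] [NormedSpace ℂ E]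

/-- the derivatives of a bounded family with holomorphic values are holomorphic -/
theorem diffOn_D {F : E → G.SmC} {U : Set E} (hU : IsOpen U) {M : ℝ}
    (hb : ∀ z ∈ U, ∀ b q, ‖(G.SC.D b (F z)).1 q‖ ≤ M)
    (hd : ∀ q, DifferentiableOn ℂ (fun z => (F z).1 q) U) (a : Fin 3) (p : X) :
    DifferentiableOn ℂ (fun z => (G.SC.D a (F z)).1 p) U := by
  obtain ⟨γ, δ, C, hδ, -, h⟩ := G.curveC p a
  refine Hol.diffOn_of_ptlim (l := 𝓝[≠] (0 : ℝ)) (M := M * C)
    (F := fun t z => t⁻¹ • ((F z).1 (γ t) - (F z).1 (γ 0))) hU ?_ fun z _ => ?_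
  · filter_upwards [mem_nhdsWithin_of_mem_nhds (ball_mem_nhds 0 hδ), self_mem_nhdsWithin]
      with t ht t0
    refine ⟨((hd (γ t)).sub (hd (γ 0))).const_smul t⁻¹, fun z hz => ?_⟩
    rw [norm_smul, norm_inv, inv_mul_le_iff₀ (norm_pos_iff.2 t0), mul_comm]
    exact (h (F z)).2 M (hb z hz) t ht
  · simpa using (h (F z)).1.tendsto_slope_zero

theorem diffOn_Dw {F : E → G.SmC} {U : Set E} (hU : IsOpen U) {M : ℕ → ℝ}
    (hb : ∀ z ∈ U, ∀ l q, ‖(G.SC.Dw l (F z)).1 q‖ ≤ M l.length)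
    (hd : ∀ q, DifferentiableOn ℂ (fun z => (F z).1 q) U) (l : List (Fin 3)) (p : X) :
    DifferentiableOn ℂ (fun z => (G.SC.Dw l (F z)).1 p) U := by
  induction l generalizing p with
  | nil => exact hd p
  | cons a l ih =>
    exact G.diffOn_D (F := fun z => G.SC.Dw l (F z)) hU (M := M (l.length + 1))
      (fun z hz b q => hb z hz (b :: l) q) ih a p

variable {G} {V : Type*} [NormedAddCommGroup V] [NormedSpace ℂ V] [CompleteSpace V]

/-- **holomorphy criterion**, values only, bounds on words -/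
theorem Sums.diffOn_of_words {c ε : ℕ → ℝ≥0} (h : G.Sums c ε) (j : V →ₗ[ℂ] G.SmC) {K : ℝ≥0}
    (hj : ∀ v, ‖v‖ₑ ≤ K * G.NN ε (j v)) {F : E → V} {U : Set E} (hU : IsOpen U) {B : ℝ≥0}
    (hb : ∀ z ∈ U, ∀ l p,
      ‖(G.oR G.ρ ^ l.length * G.SC.Dw l (j (F z))).1 p‖ ≤ B * c l.length)
    (hd : ∀ p, DifferentiableOn ℂ (fun z => (j (F z)).1 p) U) : DifferentiableOn ℂ F U := by
  refine h.diffOn_words j hj hU hb (G.diffOn_Dw (F := fun z => j (F z)) hU
    (M := fun k => B * c k) (fun z hz l q => le_trans ?_ (hb z hz l q)) hd)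
  have := G.jet_le l (j (F z)) q
  rw [enorm_eq_nnnorm, enorm_eq_nnnorm, ENNReal.coe_le_coe] at this
  exact this

/-- **holomorphy criterion**, values only -/
theorem Sums.diffOn {c ε : ℕ → ℝ≥0} (h : G.Sums c ε) (j : V →ₗ[ℂ] G.SmC) {K : ℝ≥0}
    (hj : ∀ v, ‖v‖ₑ ≤ K * G.NN ε (j v)) {F : E → V} {U : Set E} (hU : IsOpen U) {B : ℝ≥0}
    (hb : ∀ z ∈ U, ∀ k, G.Sc k (j (F z)) ≤ B * c k)
    (hd : ∀ p, DifferentiableOn ℂ (fun z => (j (F z)).1 p) U) : DifferentiableOn ℂ F U :=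
  h.diffOn_of_words j hj hU (B := B) (fun z hz l p => by
    exact_mod_cast G.word_le_of_Sc l (b := B * c l.length) (by exact_mod_cast hb z hz _) p) hd

/-- the factor `B` may be locally bounded only -/
theorem Sums.diffOn_loc {c ε : ℕ → ℝ≥0} (h : G.Sums c ε) (j : V →ₗ[ℂ] G.SmC) {K : ℝ≥0}
    (hj : ∀ v, ‖v‖ₑ ≤ K * G.NN ε (j v)) {F : E → V} {U : Set E} (hU : IsOpen U)
    (hb : ∀ z ∈ U, ∃ B : ℝ≥0, ∀ᶠ w in 𝓝 z, ∀ k, G.Sc k (j (F w)) ≤ B * c k)
    (hd : ∀ p, DifferentiableOn ℂ (fun z => (j (F z)).1 p) U) : DifferentiableOn ℂ F U := by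
  intro z hz
  obtain ⟨B, hB⟩ := hb z hz
  obtain ⟨W, h1, h2, h3⟩ := _root_.eventually_nhds_iff.1 (hB.and (hU.mem_nhds hz))
  exact ((h.diffOn j hj h2 (fun w hw => (h1 w hw).1) fun p => (hd p).mono fun w hw =>
    (h1 w hw).2).differentiableAt (h2.mem_nhds h3)).differentiableWithinAt

end Geo

namespace Scale

variable [BorelSpace X] {G : Geo X} {σ : Scale G} {E : Type*} [NormedAddCommGroup E]
  [NormedSpace ℂ E] {c : ℕ → ℝ≥0}

/-- **holomorphy criterion in `AA`** -/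
theorem diffOn (h : G.Sums c σ.ε) {F : E → σ.AA} {U : Set E} (hU : IsOpen U) {B : ℝ≥0}
    (hb : ∀ z ∈ U, ∀ k, G.Sc k (σ.val (F z)) ≤ B * c k)
    (hd : ∀ p, DifferentiableOn ℂ (fun z => (σ.val (F z)).1 p) U) : DifferentiableOn ℂ F U :=
  h.diffOn σ.val.toLinearMap (fun v => (enorm_def v).le) hU hb hd

theorem diffOn_of_words (h : G.Sums c σ.ε) {F : E → σ.AA} {U : Set E} (hU : IsOpen U) {B : ℝ≥0}
    (hb : ∀ z ∈ U, ∀ l p,
      ‖(G.oR G.ρ ^ l.length * G.SC.Dw l (σ.val (F z))).1 p‖ ≤ B * c l.length)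
    (hd : ∀ p, DifferentiableOn ℂ (fun z => (σ.val (F z)).1 p) U) : DifferentiableOn ℂ F U :=
  h.diffOn_of_words σ.val.toLinearMap (fun v => (enorm_def v).le) hU hb hd

theorem diffOn_loc (h : G.Sums c σ.ε) {F : E → σ.AA} {U : Set E} (hU : IsOpen U)
    (hb : ∀ z ∈ U, ∃ B : ℝ≥0, ∀ᶠ w in 𝓝 z, ∀ k, G.Sc k (σ.val (F w)) ≤ B * c k)
    (hd : ∀ p, DifferentiableOn ℂ (fun z => (σ.val (F z)).1 p) U) : DifferentiableOn ℂ F U :=
  h.diffOn_loc σ.val.toLinearMap (fun v => (enorm_def v).le) hU hb hd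

variable (σ) in
open Classical in
/-- a smooth function as an element of `AA` (`0` if the norm is infinite) -/
def lift (f : G.SmC) : σ.AA := if hf : G.NN σ.ε f ≠ ⊤ then σ.el f hf else 0

theorem val_lift {f : G.SmC} (hf : G.NN σ.ε f ≠ ⊤) : σ.val (σ.lift f) = f := by
  rw [lift, dif_pos hf, val_el]

@[simp] theorem lift_val (f : σ.AA) : σ.lift (σ.val f) = f := AA_ext (val_lift (σ.NN_val f))

theorem val_lift_of_words (h : G.Sums c σ.ε) {f : G.SmC} {B : ℝ≥0}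
    (hb : ∀ l p, ‖(G.oR G.ρ ^ l.length * G.SC.Dw l f).1 p‖ ≤ B * c l.length) :
    σ.val (σ.lift f) = f := by
  obtain ⟨K, h⟩ := h
  exact val_lift (ne_top_of_le_ne_top (ENNReal.mul_ne_top ENNReal.coe_ne_top ENNReal.coe_ne_top)
    (h f B hb))

theorem val_lift_of_Sc (h : G.Sums c σ.ε) {f : G.SmC} {B : ℝ≥0}
    (hb : ∀ k, G.Sc k f ≤ B * c k) : σ.val (σ.lift f) = f := by
  obtain ⟨K, h⟩ := h.NN_le
  exact val_lift (ne_top_of_le_ne_top (ENNReal.mul_ne_top ENNReal.coe_ne_top ENNReal.coe_ne_top)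
    (h f B hb))

/-- families of smooth functions as holomorphic maps into `AA` -/
theorem diffOn_lift (h : G.Sums c σ.ε) {F : E → G.SmC} {U : Set E} (hU : IsOpen U) {B : ℝ≥0}
    (hb : ∀ z ∈ U, ∀ k, G.Sc k (F z) ≤ B * c k)
    (hd : ∀ p, DifferentiableOn ℂ (fun z => (F z).1 p) U) :
    DifferentiableOn ℂ (fun z => σ.lift (F z)) U :=
  diffOn h hU (B := B) (fun z hz => by rw [val_lift_of_Sc h (hb z hz)]; exact hb z hz)
    fun p => (hd p).congr fun z hz => by rw [val_lift_of_Sc h (hb z hz)]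

theorem diffOn_lift_of_words (h : G.Sums c σ.ε) {F : E → G.SmC} {U : Set E} (hU : IsOpen U)
    {B : ℝ≥0}
    (hb : ∀ z ∈ U, ∀ l p, ‖(G.oR G.ρ ^ l.length * G.SC.Dw l (F z)).1 p‖ ≤ B * c l.length)
    (hd : ∀ p, DifferentiableOn ℂ (fun z => (F z).1 p) U) :
    DifferentiableOn ℂ (fun z => σ.lift (F z)) U :=
  diffOn_of_words h hU (B := B) (fun z hz => by rw [val_lift_of_words h (hb z hz)]; exact hb z hz)
    fun p => (hd p).congr fun z hz => by rw [val_lift_of_words h (hb z hz)]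

end Scale

namespace Geo

variable [BorelSpace X] (G : Geo X)

/-- the norm of a lift, with a constant that does not depend on the weights -/
theorem norm_lift_le (c : ℕ → ℝ≥0) : ∃ K : ℝ≥0, ∀ᶠ ε in admF, ∀ σ : Scale G, σ.ε = ε →
    ∀ (f : G.SmC) (B : ℝ≥0), (∀ k, G.Sc k f ≤ B * c k) →
      σ.val (σ.lift f) = f ∧ ‖σ.lift f‖ ≤ σ.K * (K * B) := by
  obtain ⟨K, h⟩ := G.NN_le_of_Sc c
  refine ⟨K, h.mono ?_⟩
  rintro _ h σ rfl f B hb
  have h1 := h f B fun k => (hb k).trans_eq (mul_comm _ _)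
  have h2 := Scale.val_lift (ne_top_of_le_ne_top
    (ENNReal.mul_ne_top ENNReal.coe_ne_top ENNReal.coe_ne_top) h1)
  refine ⟨h2, Scale.norm_le_of_NN (by positivity) ?_⟩
  rw [h2, ← NNReal.coe_mul, ENNReal.ofReal_coe_nnreal, ENNReal.coe_mul]
  exact h1

theorem norm_lift_le_words (c : ℕ → ℝ≥0) : ∃ K : ℝ≥0, ∀ᶠ ε in admF, ∀ σ : Scale G, σ.ε = ε →
    ∀ (f : G.SmC) (B : ℝ≥0),
      (∀ l p, ‖(G.oR G.ρ ^ l.length * G.SC.Dw l f).1 p‖ ≤ B * c l.length) →
      σ.val (σ.lift f) = f ∧ ‖σ.lift f‖ ≤ σ.K * (K * B) := by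
  obtain ⟨K, h⟩ := G.norm_lift_le fun k => 3 ^ k * c k
  refine ⟨K, h.mono fun ε h σ hσ f B hf => h σ hσ f B fun k => ?_⟩
  refine (G.Sc_le_of_words (b := B * c k) fun l hl p => ?_).trans (le_of_eq ?_)
  · subst hl; exact_mod_cast hf l p
  · push_cast; ring

end Geo

end Crest.Agent.N250.WS

end
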