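import Crest.Agent.N250.Wt.Base

/-!
# Row 250, weighted theory (helper54): differential operators with symbol coefficients, `ComS`
-/

set_option autoImplicit false
set_option linter.unusedSectionVars false
open MeasureTheory Set Filter Topology
open scoped ContDiff ENNReal NNReal

noncomputable section

namespace Crest.Agent.N250.WS

open Crest.Agent.N222

variable {X : Type} [TopologicalSpace X] [MeasurableSpace X]

namespace Geo

variable (G : Geo X)

/-- operators `∑ z s D^l` of order `< r` and weight `k`, with cut-offs `z` in the class `Z` -/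
inductive Op (Z : G.R → Prop) (r : ℕ) (k : ℤ) : (G.R → G.R) → Prop
  | zero : Op Z r k fun _ => 0
  | mon (z s : G.R) (l : List (Fin 3)) : Z z → G.Sy (l.length + k) s → l.length < r →
      Op Z r k fun u => z * s * G.S.Dw l u
  | add {T T' : G.R → G.R} : Op Z r k T → Op Z r k T' → Op Z r k fun u => T u + T' u

/-- classes of cut-offs -/
def ZC (Z : G.R → Prop) : Prop := ∀ z, Z z → ∀ a, Z (G.ρ * G.S.D a z)

/-- the cut-offs of `SupS` -/
def Zc (s : G.R) : Prop :=
  G.Sy 0 s ∧ (∀ a, G.Sy (-3) (G.S.D a s)) ∧ tsupport s.1 ⊆ tsupport G.ζ.1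

theorem zC_sy : G.ZC (G.Sy 0) := fun _ h a => (G.sy_ρ.mul (h.D a)).cast (by norm_num)

theorem zC_Zc : G.ZC G.Zc := fun z h a =>
  ⟨(G.sy_ρ.mul (h.2.1 a)).mono (by norm_num),
    fun b => ((G.sy_ρ.mul (h.2.1 a)).D b).cast (by norm_num),
    ((tsupport_mul_subset_right (f := G.ρ.1) (g := (G.S.D a z).1)).trans
      (Imm.tsupport_D_subset z.1 a)).trans h.2.2⟩

theorem zc_ζ : G.Zc G.ζ := ⟨G.sy_ζ, G.symDζ, Subset.rfl⟩

variable {G} {Z : G.R → Prop} {r r' : ℕ} {k k' : ℤ} {T T' : G.R → G.R}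

namespace Op

theorem congr (h : G.Op Z r k T) (e : ∀ u, T' u = T u) : G.Op Z r k T' := by
  rw [show T' = T from funext e]; exact h

theorem mono (h : G.Op Z r k T) (hr : r ≤ r') (hk : k ≤ k') : G.Op Z r' k' T := by
  induction h with
  | zero => exact .zero
  | mon z s l h1 h2 h3 => exact .mon z s l h1 (h2.mono (by omega)) (by omega)
  | add _ _ h1 h2 => exact h1.add h2

theorem smul (h : G.Op Z r k T) {s : G.R} (hs : G.Sy k' s) :
    G.Op Z r (k' + k) fun u => s * T u := by
  induction h with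
  | zero => exact Op.zero.congr fun _ => mul_zero _
  | mon z s' l h1 h2 h3 =>
    exact (Op.mon z (s * s') l h1 ((hs.mul h2).cast (by ring)) h3).congr fun u => by ring
  | add _ _ h1 h2 => exact (h1.add h2).congr fun u => mul_add _ _ _

theorem neg (h : G.Op Z r k T) : G.Op Z r k fun u => -T u :=
  ((h.smul sy_one.neg).mono le_rfl (by omega)).congr fun u => by ring

theorem sub (h : G.Op Z r k T) (h' : G.Op Z r k T') : G.Op Z r k fun u => T u - T' u :=
  (h.add h'.neg).congr fun u => by ring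

theorem sum {κ : Type} (s : Finset κ) {T : κ → G.R → G.R} (h : ∀ i, G.Op Z r k (T i)) :
    G.Op Z r k fun u => ∑ i ∈ s, T i u := by
  classical
  induction s using Finset.induction_on with
  | empty => exact Op.zero.congr fun _ => Finset.sum_empty
  | insert i s hi ih => exact ((h i).add ih).congr fun _ => Finset.sum_insert hi

theorem D (hZ : G.ZC Z) (h : G.Op Z r k T) (a : Fin 3) :
    G.Op Z (r + 1) (k - 1) fun u => G.S.D a (T u) := by
  induction h with
  | zero => exact Op.zero.congr fun _ => G.hyp.toIsDS.D_zero a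
  | mon z s l h1 h2 h3 =>
    refine (((Op.mon z s (a :: l) h1 (h2.cast ?_) (by simpa using h3)).add
      (Op.mon z (G.S.D a s) l h1 ((h2.D a).cast (by ring)) (by omega))).add
      (Op.mon _ (G.ι * s) l (hZ z h1 a) ((G.sy_ι.mul h2).cast (by ring)) (by omega))).congr
      fun u => ?_
    · rw [List.length_cons]; push_cast; ring
    · rw [G.hyp.mul, G.hyp.mul, Mov.Dw]
      linear_combination (-(G.S.D a z * s * G.S.Dw l u)) * G.ρι
  | add _ _ h1 h2 => exact (h1.add h2).congr fun u => G.hyp.add _ _ _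

theorem Dw (hZ : G.ZC Z) (h : G.Op Z r k T) (l : List (Fin 3)) :
    G.Op Z (r + l.length) (k - l.length) fun u => G.S.Dw l (T u) := by
  induction l with
  | nil => exact h.mono le_rfl (by simp)
  | cons a l ih => exact (ih.D hZ a).mono le_rfl (by rw [List.length_cons]; push_cast; omega)

theorem comp (h : G.Op Z r k T) (l : List (Fin 3)) :
    G.Op Z (r + l.length) (k - l.length) fun u => T (G.S.Dw l u) := by
  induction h with
  | zero => exact .zero
  | mon z s l' h1 h2 h3 =>
    refine (Op.mon z s (l' ++ l) h1 (h2.cast ?_) (by simpa using h3)).congr fun u => by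
      rw [Mov.Dw_append]
    rw [List.length_append]; push_cast; ring
  | add _ _ h1 h2 => exact h1.add h2

/-- bounds for operators from bounds for monomials -/
theorem bound (h : G.Op Z r k T) {N : G.R → ℝ≥0∞} {B : G.R → ℝ≥0∞} {e e' : G.R}
    (he : e * e' = 1) (he' : G.Sy (-k) e') (N0 : N 0 = 0) (Na : ∀ f g, N (f + g) ≤ N f + N g)
    (Nm : ∀ s, G.Bd 0 s → ∃ C : ℝ≥0, ∀ g, N (s * g) ≤ C * N g)
    (hB : ∀ z, Z z → ∀ l : List (Fin 3), l.length < r →
      ∃ C : ℝ≥0, ∀ u, N (z * G.ρ ^ l.length * e * G.S.Dw l u) ≤ C * B u) :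
    ∃ C : ℝ≥0, ∀ u, N (T u) ≤ C * B u := by
  induction h with
  | zero => exact ⟨0, fun u => by simp [N0]⟩
  | mon z s l h1 h2 h3 =>
    obtain ⟨C, hC⟩ := hB z h1 l h3
    obtain ⟨C', hC'⟩ := Nm (s * G.ι ^ l.length * e')
      (((h2.mul (G.sy_ι.pow _)).mul he').cast (by ring)).bd
    refine ⟨C' * C, fun u => ?_⟩
    have e1 : G.ρ ^ l.length * G.ι ^ l.length = 1 := by rw [← mul_pow, G.ρι, one_pow]
    have e2 : z * s * G.S.Dw l u =
        s * G.ι ^ l.length * e' * (z * G.ρ ^ l.length * e * G.S.Dw l u) := by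
      linear_combination (-(z * s * G.S.Dw l u)) * he - (z * s * G.S.Dw l u * e * e') * e1
    beta_reduce
    rw [e2, ENNReal.coe_mul, mul_assoc (C' : ℝ≥0∞)]
    exact (hC' _).trans (mul_le_mul_right (hC u) _)
  | add _ _ h1 h2 =>
    obtain ⟨C, hC⟩ := h1
    obtain ⟨C', hC'⟩ := h2
    exact ⟨C + C', fun u => by
      rw [ENNReal.coe_add, add_mul]; exact (Na _ _).trans (add_le_add (hC u) (hC' u))⟩

end Op

theorem op_mon {s : G.R} (l : List (Fin 3)) (hs : G.Sy (l.length + k) s) (h : l.length < r) :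
    G.Op (G.Sy 0) r k fun u => s * G.S.Dw l u :=
  (Op.mon 1 s l sy_one hs h).congr fun u => by rw [one_mul]

/-- Leibniz rule, top term removed -/
theorem op_leib (hZ : G.ZC Z) {z s : G.R} (hz : Z z) (hs : G.Sy k s) (l : List (Fin 3)) :
    G.Op Z l.length (k - l.length) fun u => G.S.Dw l (z * s * u) - z * s * G.S.Dw l u := by
  induction l with
  | nil => exact Op.zero.congr fun u => sub_self _
  | cons a l ih =>
    refine (((ih.D hZ a).mono le_rfl ?_).add
      ((Op.mon z (G.S.D a s) l hz ((hs.D a).cast ?_) (by simp)).add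
      (Op.mon _ (G.ι * s) l (hZ z hz a) ((G.sy_ι.mul hs).cast ?_) (by simp)))).congr fun u => ?_
    iterate 3 rw [List.length_cons]; push_cast; omega
    simp only [Mov.Dw, G.hyp.toIsDS.D_sub, G.hyp.mul]
    linear_combination (-(G.S.D a z * s * G.S.Dw l u)) * G.ρι

/-- the commutator of the level operators and words -/
theorem op_com (l : List (Fin 3)) : G.Op (G.Sy 0) (l.length + 2) (-2 - l.length) fun u =>
    G.S.Mi l.length (G.S.Dw l u) - G.S.Dw l (G.S.LL u) := by
  induction l with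
  | nil =>
    exact (op_mon [] (G.sy_a2.neg.cast (by simp)) (by simp)).congr fun u => by
      simp only [Mov.Dw, Mov.LL, List.length_nil]; ring
  | cons a l ih =>
    have h1 : G.Op (G.Sy 0) 3 (-3) fun u => -(2 * ∑ b, G.S.B2 a b * G.S.D b u)
        - 2 * G.S.n a * ∑ b, ∑ c, G.S.B b c * G.S.D b (G.S.D c u) :=
      (((Op.sum _ fun b => op_mon (k := -3) [b] ((G.sy_B2 a b).cast (by simp)) (by simp)).smul
        sy_two).mono le_rfl (by norm_num)).neg.sub
      (((Op.sum _ fun b => Op.sum _ fun c => op_mon (k := -3) [b, c]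
        ((G.sy_B b c).cast (by simp)) (by simp)).smul (sy_two.mul (G.sy_n a))).mono le_rfl
        (by norm_num))
    refine (((ih.D G.zC_sy a).mono ?_ ?_).add ((h1.comp l).mono ?_ ?_)).congr fun u => ?_
    iterate 4 simp only [List.length_cons]; push_cast; omega
    rw [List.length_cons, Mov.Dw, Mov.Dw, G.hyp.Mi_D G.shr, G.hyp.toIsDS.D_sub]; ring

variable [BorelSpace X]

theorem le_U (l : List (Fin 3)) (u : G.R) :
    G.nR (G.ρ ^ l.length * G.ι * G.S.Dw l u) ≤ G.U l.length u :=
  le_sumW' (fun l' => G.nR (G.ρ ^ l.length * G.ι * G.S.Dw l' u)) l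

theorem le_Ar (l : List (Fin 3)) (u : G.R) :
    G.nR (G.ρ ^ l.length * G.S.Dw l u) ≤ G.Ar l.length u :=
  le_sumW' (fun l' => G.nR (G.ρ ^ l.length * G.S.Dw l' u)) l

theorem Op.nU (h : G.Op (G.Sy 0) r (-1) T) :
    ∃ C : ℝ≥0, ∀ u, G.nR (T u) ≤ C * ∑ j ∈ Finset.range r, G.U j u :=
  h.bound (e := G.ι) (e' := G.ρ) (by rw [mul_comm, G.ρι]) G.sy_ρ nR_zero nR_add
    (fun _ h => h.nR_mul) fun z hz l hl => by
      obtain ⟨C, hC⟩ := hz.bd.nR_mul
      refine ⟨C, fun u => ?_⟩
      rw [mul_assoc z, mul_assoc z]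
      exact (hC _).trans (mul_le_mul_right ((le_U l u).trans (Finset.single_le_sum
        (f := fun j => G.U j u) (fun _ _ => zero_le) (Finset.mem_range.2 hl))) _)

theorem Op.nA (h : G.Op (G.Sy 0) r 0 T) :
    ∃ C : ℝ≥0, ∀ u, G.nR (T u) ≤ C * ∑ j ∈ Finset.range r, G.Ar j u :=
  h.bound (e := 1) (e' := 1) (mul_one _) sy_one nR_zero nR_add
    (fun _ h => h.nR_mul) fun z hz l hl => by
      obtain ⟨C, hC⟩ := hz.bd.nR_mul
      refine ⟨C, fun u => ?_⟩
      rw [mul_one, mul_assoc z]
      exact (hC _).trans (mul_le_mul_right ((le_Ar l u).trans (Finset.single_le_sum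
        (f := fun j => G.Ar j u) (fun _ _ => zero_le) (Finset.mem_range.2 hl))) _)

/-- sup bounds for operators with cut-offs -/
theorem Op.sU (hS : G.SupS) (h : G.Op G.Zc r (-1) T) :
    ∃ C : ℝ≥0, ∀ u, G.sR (T u) ≤ C * ∑ j ∈ Finset.range (r + 2), (G.U j u + G.T j u) :=
  h.bound (e := G.ι) (e' := G.ρ) (by rw [mul_comm, G.ρι]) G.sy_ρ sR_zero sR_add
    (fun _ h => h.sR_mul) fun z hz l hl => by
      obtain ⟨C, hC⟩ := hS z hz.1 hz.2.1 hz.2.2 l
      exact ⟨C, fun u => (hC u).trans (mul_le_mul_right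
        (Finset.sum_le_sum_of_subset (Finset.range_mono (by omega))) _)⟩

variable (G)

theorem comS : G.ComS := fun l =>
  (((op_com l).smul (G.sy_ρ_pow (l.length + 1))).mono le_rfl (by push_cast; omega)).nU

end Geo

end Crest.Agent.N250.WS

end
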