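import Crest.Agent.N250.Wt.Defs
import Crest.Agent.N250.FV.Hu2

/-!
Row 250, weighted theory (helper85): from Gaussian to polynomial weights, `E0S`.
-/

set_option autoImplicit false
open MeasureTheory Set Filter Topology
open scoped ContDiff ENNReal NNReal

noncomputable section

namespace Crest.Agent.N250.WS

namespace E0

open Crest.Agent.N222

/-! ### algebra -/

section Alg

variable {R : Type} [CommRing R] [Algebra ℝ R] {S : Mov R (Fin 3)}

/-- the field of the energy identity -/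
def Y (S : Mov R (Fin 3)) (W u : R) (a : Fin 3) : R := W * (8 * u * S.D a u - u * u * S.D a S.x2)

lemma two_half : (2 : R) * algebraMap ℝ R (1 / 2) = 1 := by
  rw [show (2 : R) = algebraMap ℝ R 2 from (map_ofNat _ 2).symm, ← map_mul]
  norm_num

lemma gam_x2 (H : S.IsHyp) (f : R) : ∑ a, S.D a f * S.D a S.x2 = 2 * S.dr f := by
  have := H.n_D f
  simp only [H.D_x2, Mov.dr, Fin.sum_univ_three] at this ⊢
  linear_combination (-2 * S.xn) * this

lemma tan_Y (H : S.IsHyp) (W u : R) : S.Tan (Y S W u) := by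
  refine H.tan_of ?_
  have h1 := H.n_D u
  have h2 := H.n_D S.x2
  simp only [Y, Fin.sum_univ_three] at h1 h2 ⊢
  linear_combination (8 * W * u) * h1 - (W * u * u) * h2

lemma dv_Y (H : S.IsHyp) (hs : S.xn = 2 * S.h) (W u : R) :
    S.dv (Y S W u) = 8 * W * S.gam u u + 8 * W * u * S.LL u + 8 * u * S.gam W u
      - u * u * (W * (8 + 8 * S.a2 - 4 * (S.h * S.h)) + 2 * S.dr W) := by
  have d8 : ∀ a, S.D a 8 = 0 := fun a => by
    rw [show (8 : R) = algebraMap ℝ R 8 from (map_ofNat _ 8).symm]; exact H.const a 8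
  have h1 := gam_x2 H W
  have h2 := gam_x2 H u
  have h3 := H.lap_x2
  have h4 := two_half (R := R)
  simp only [Pre.dv, Y, H.mul, H.toIsDS.D_sub, d8, Pre.gam, Mov.LL, Mov.Mi, Mov.Pi, Pre.lap,
    Fin.sum_univ_three, Fintype.card_fin, hs, Nat.cast_ofNat, Nat.cast_zero] at h1 h2 h3 ⊢
  linear_combination (-(u * u)) * h1 - (2 * W * u) * h2 - (W * u * u) * h3
    + (4 * W * u * (S.dr u - u)) * h4

end Alg

/-! ### the cut-off profile -/

/-- `η (t / n²) / (1 + e^{t/8} / n)` -/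
def Ph (n t : ℝ) : ℝ := Hu.eta (t / n ^ 2) * (1 + Real.exp (t / 8) / n)⁻¹

lemma Ph_sm {n : ℝ} (hn : 0 < n) : ContDiff ℝ ∞ (Ph n) :=
  (Hu.eta_sm.comp (contDiff_id.div_const _)).mul
    ((contDiff_const.add ((Real.contDiff_exp.comp (contDiff_id.div_const 8)).div_const n)).inv
      fun t => by simp only [Function.comp]; positivity)

lemma Ph_sq_le {n : ℝ} (hn : 0 < n) (t : ℝ) : Ph n t ^ 2 ≤ 1 := by
  have a := Hu.eta_nonneg (t / n ^ 2)
  have b := Hu.eta_le (t / n ^ 2)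
  have c : (1 + Real.exp (t / 8) / n)⁻¹ ≤ 1 := inv_le_one_of_one_le₀ (by
    have : 0 < Real.exp (t / 8) / n := by positivity
    linarith)
  exact pow_le_one₀ (by unfold Ph; positivity) (mul_le_one₀ b (by positivity) c)

lemma Ph_lim (t : ℝ) : Tendsto (fun n : ℕ => Ph (n + 1) t) atTop (𝓝 1) := by
  have i : Tendsto (fun n : ℕ => (n : ℝ) + 1) atTop atTop :=
    tendsto_atTop_add_const_right _ 1 tendsto_natCast_atTop_atTop
  have a : Tendsto (fun n : ℕ => Hu.eta (t / ((n : ℝ) + 1) ^ 2)) atTop (𝓝 (Hu.eta 0)) :=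
    (Hu.eta_sm.continuous.tendsto 0).comp
      (tendsto_const_nhds.div_atTop ((tendsto_pow_atTop two_ne_zero).comp i))
  have b := ((tendsto_const_nhds (x := Real.exp (t / 8))).div_atTop i).const_add 1 |>.inv₀ (by simp)
  simpa [Hu.eta_one zero_le_one, Ph] using a.mul b

lemma Ph_bd : ∃ C : ℝ, 0 ≤ C ∧ ∀ n t : ℝ, 0 < n → 0 ≤ t → ∃ d, HasDerivAt (Ph n) d t ∧
    ∀ s, 0 ≤ s → s ≤ t → s * (5 * (Ph n t * d) + 32 * d ^ 2) ≤ C * Real.exp (-t / 4) := by
  obtain ⟨C, C0, hC⟩ := Hu.eta_bd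
  refine ⟨320 * C ^ 2, by positivity, fun n t hn ht => ?_⟩
  set q := Real.exp (t / 8) / n with hq
  have q0 : 0 < q := by positivity
  set b := (1 + q)⁻¹ with hb
  have b0 : 0 < b := by positivity
  have bq : b * q ≤ 1 := by rw [hb, inv_mul_le_iff₀ (by positivity)]; linarith
  set e := deriv Hu.eta (t / n ^ 2) with he
  have e0 : e ≤ 0 := Hu.eta_anti.deriv_nonpos
  have d1 : HasDerivAt (fun t => Hu.eta (t / n ^ 2)) (e * (1 / n ^ 2)) t :=
    ((Hu.eta_sm.differentiable (by simp)) _).hasDerivAt.comp t ((hasDerivAt_id t).div_const _)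
  have d2 : HasDerivAt (fun t => (1 + Real.exp (t / 8) / n)⁻¹) (-(b * (b * q) / 8)) t := by
    refine ((((hasDerivAt_id t).div_const 8).exp.div_const n).const_add 1 |>.inv
      (by positivity)).congr_deriv ?_
    simp only [id, hb, hq]
    field_simp
  refine ⟨_, d1.mul d2, fun s s0 st => ?_⟩
  set c := Hu.eta (t / n ^ 2) with hc
  have c0 : 0 ≤ c := Hu.eta_nonneg _
  set e' := e * (1 / n ^ 2) with he'
  have e1 : e' ≤ 0 := mul_nonpos_of_nonpos_of_nonneg e0 (by positivity)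
  have k : 5 * (c * b * (e' * b + c * -(b * (b * q) / 8))) +
      32 * (e' * b + c * -(b * (b * q) / 8)) ^ 2 ≤ 160 * (e' * b) ^ 2 := by
    set B := b * q
    have B0 : 0 ≤ B := by positivity
    have h1 : 0 ≤ (c * b) ^ 2 * (B * (1 - B)) := by
      have : 0 ≤ 1 - B := by linarith
      positivity
    have h2 : 0 ≤ c * -e' * b ^ 2 := by
      have : 0 ≤ -e' := by linarith
      positivity
    nlinarith [sq_nonneg (4 * (e' * b) + c * (b * B) / 8)]
  have bb : b ^ 2 ≤ n ^ 2 * Real.exp (-t / 4) := by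
    have : b ≤ n * Real.exp (-t / 8) := by
      have : b ≤ q⁻¹ := inv_anti₀ q0 (by linarith)
      rwa [hq, inv_div, div_eq_mul_inv, ← Real.exp_neg, ← neg_div] at this
    calc b ^ 2 ≤ (n * Real.exp (-t / 8)) ^ 2 := by gcongr
      _ = _ := by rw [mul_pow, ← Real.exp_nat_mul]; congr 2; push_cast; ring
  have te : t * e' ^ 2 * n ^ 2 ≤ 2 * C ^ 2 := by
    have u0 : 0 ≤ t / n ^ 2 := by positivity
    have r : t * e' ^ 2 * n ^ 2 = t / n ^ 2 * e ^ 2 := by rw [he']; field_simp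
    rw [r]
    rcases le_or_gt (t / n ^ 2) 2 with h | h
    · have : e ^ 2 ≤ C ^ 2 := sq_le_sq' (neg_le_of_abs_le (hC _ u0).1) (le_of_abs_le (hC _ u0).1)
      exact mul_le_mul h this (sq_nonneg _) (by norm_num)
    · have e0 : Hu.eta =ᶠ[𝓝 (t / n ^ 2)] fun _ => 0 := by
        filter_upwards [Ioi_mem_nhds h] with v hv using Hu.eta_zero (le_of_lt hv)
      have : e = 0 := by simpa using e0.deriv_eq
      rw [this]
      nlinarith [sq_nonneg C]
  calc s * (5 * (Ph n t * (e' * b + c * -(b * (b * q) / 8))) +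
        32 * (e' * b + c * -(b * (b * q) / 8)) ^ 2) ≤ s * (160 * (e' * b) ^ 2) :=
        mul_le_mul_of_nonneg_left k s0
    _ ≤ t * (160 * (e' ^ 2 * (n ^ 2 * Real.exp (-t / 4)))) := by rw [mul_pow]; gcongr
    _ = 160 * (t * e' ^ 2 * n ^ 2) * Real.exp (-t / 4) := by ring
    _ ≤ 160 * (2 * C ^ 2) * Real.exp (-t / 4) := by gcongr
    _ = _ := by ring

/-! ### integration -/

variable {X : Type} [TopologicalSpace X] [MeasurableSpace X] [BorelSpace X] [T2Space X]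
  [SecondCountableTopology X] (G : Geo X)

/-- evaluation -/
def ev (p : X) : G.R →ₐ[ℝ] ℝ := (Pi.evalAlgHom ℝ (fun _ : X => ℝ) p).comp (SmR G.M.ch).val

omit [BorelSpace X] [T2Space X] [SecondCountableTopology X] in
lemma ev_eq (p : X) (f : G.R) : f.1 p = ev G p f := rfl

omit [BorelSpace X] [T2Space X] [SecondCountableTopology X] in
lemma cont (f : G.R) : Continuous f.1 := Imm.Sm.continuous f.2

omit [BorelSpace X] [T2Space X] [SecondCountableTopology X] in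
lemma x2_nonneg (p : X) : 0 ≤ G.S.x2.1 p := by
  simp only [ev_eq, Mov.x2, map_sum, map_mul]
  exact Finset.sum_nonneg fun a _ => mul_self_nonneg _

/-- the cut-off -/
def ph (n : ℕ) : G.R :=
  ⟨fun p => Ph (n + 1) (G.S.x2.1 p), Imm.Sm.comp G.S.x2.2 (Ph_sm (by positivity))⟩

omit [BorelSpace X] [SecondCountableTopology X] in
lemma ph_cs (n : ℕ) (f : X → ℝ) : HasCompactSupport fun p => (ph G n).1 p * f p := by
  refine HasCompactSupport.intro (G.prop (2 * ((n : ℝ) + 1) ^ 2)) fun p hp => ?_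
  have : 2 ≤ G.S.x2.1 p / ((n : ℝ) + 1) ^ 2 := by
    rw [le_div_iff₀ (by positivity)]; exact (not_le.1 hp).le
  simp only [ph, Ph, Hu.eta_zero this, zero_mul]

omit [TopologicalSpace X] [BorelSpace X] [T2Space X] [SecondCountableTopology X] in
lemma ofReal_int_le {μ : Measure X} {f : X → ℝ} (hf : Integrable f μ) :
    ENNReal.ofReal (∫ p, f p ∂μ) ≤ ∫⁻ p, ENNReal.ofReal (f p) ∂μ := by
  have h : ∫ p, f p ∂μ ≤ ∫ p, max (f p) 0 ∂μ :=
    integral_mono hf hf.pos_part fun p => le_max_left _ _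
  refine (ENNReal.ofReal_le_ofReal h).trans (le_of_eq ?_)
  rw [ofReal_integral_eq_lintegral_ofReal hf.pos_part (.of_forall fun p => le_max_right _ _)]
  simp

/-- integration of a pointwise inequality, then `n → ∞` -/
lemma lint_le {a b : X → ℝ} (ha : Continuous a) (a0 : ∀ p, 0 ≤ a p) (w u : G.R)
    (h : ∀ (n : ℕ) p, (ph G n).1 p ^ 2 * a p ≤ b p + (G.S.dv (Y G.S (ph G n ^ 2 * w) u)).1 p) :
    ∫⁻ p, ENNReal.ofReal (a p) ∂G.M.mu ≤ ∫⁻ p, ENNReal.ofReal (b p) ∂G.M.mu := by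
  have k : ∀ n : ℕ, ∫⁻ p, ENNReal.ofReal ((ph G n).1 p ^ 2 * a p) ∂G.M.mu ≤
      ∫⁻ p, ENNReal.ofReal (b p) ∂G.M.mu := fun n => by
    set Z : Fin 3 → G.R := Y G.S (ph G n ^ 2 * w) u with hZ
    have cs : ∀ c, HasCompactSupport (Z c).1 := fun c => by
      have := ph_cs G n (ph G n * w * (8 * u * G.S.D c u - u * u * G.S.D c G.S.x2)).1
      convert this using 1
      funext p
      simp only [ev_eq, hZ, Y, map_mul, map_pow]
      ring
    have e : (G.S.dv Z).1 = G.M.pre.dv fun c => (Z c).1 := G.M.hom.dv Z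
    have c1 : ∀ c, G.M.C1 (Z c).1 := fun c => Imm.Sm.c1 (Z c).2
    have z : ∫ p, (G.S.dv Z).1 p ∂G.M.mu = 0 := by
      rw [e]
      refine Imm.integral_dv_tan c1 cs fun c => ?_
      have := congrArg G.M.val (tan_Y G.hyp (ph G n ^ 2 * w) u c)
      rw [map_sum] at this
      simp only [map_mul] at this
      exact this
    have i1 : Integrable (G.S.dv Z).1 G.M.mu := by
      rw [e]
      have := integrable_finsetSum Finset.univ fun c _ => (c1 c).integrable_D (cs c) c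
      exact this.congr (.of_forall fun p => (Imm.dv_apply _ p).symm)
    have i2 : Integrable (fun p => (ph G n).1 p ^ 2 * a p) G.M.mu := by
      refine Imm.integrable_of_support (ph_cs G n fun p => (ph G n).1 p * a p)
        (((cont G _).pow 2).mul ha) fun p hp => ?_
      have := image_eq_zero_of_notMem_tsupport hp
      rw [sq, mul_assoc]
      exact this
    rw [← ofReal_integral_eq_lintegral_ofReal i2
      (.of_forall fun p => mul_nonneg (sq_nonneg _) (a0 p)), ← sub_zero (∫ p, _ ∂G.M.mu), ← z,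
      ← integral_sub i2 i1]
    exact (ofReal_int_le (i2.sub i1)).trans
      (lintegral_mono fun p => ENNReal.ofReal_le_ofReal (sub_le_iff_le_add.2 (h n p)))
  have l : ∀ p, liminf (fun n : ℕ => ENNReal.ofReal ((ph G n).1 p ^ 2 * a p)) atTop =
      ENNReal.ofReal (a p) := fun p => by
    refine Tendsto.liminf_eq (ENNReal.tendsto_ofReal ?_)
    have := ((Ph_lim (G.S.x2.1 p)).pow 2).mul_const (a p)
    rwa [one_pow, one_mul] at this
  simp only [← l]
  refine (lintegral_liminf_le fun n => ?_).trans (liminf_le_of_frequently_le' (.of_forall k))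
  exact (((cont G _).pow 2).mul ha).measurable.ennreal_ofReal

lemma core {φ d W U e L a h κ C : ℝ} {u w t x : Fin 3 → ℝ} (w0 : 0 < W) (w1 : W ≤ 1)
    (ce : 0 ≤ C * e) (s1 : ∑ i, t i * t i = 2 * ∑ i, x i * t i)
    (hs : (∑ i, x i * t i) / 2 * (5 * (φ * d) + 32 * d ^ 2) ≤ C * e)
    (hκ : (1 + a) * W ^ 2 + (∑ i, x i * w i) * W / 4 + 2 * ∑ i, w i * w i ≤ κ * W ^ 2) :
    φ ^ 2 * (W * (2 * ∑ i, u i * u i + 8 * U * L - 8 * κ * U ^ 2)) ≤ 2 * C * (U ^ 2 * e) +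
      (8 * (φ ^ 2 * W) * ∑ i, u i * u i + 8 * (φ ^ 2 * W) * U * L
        + 8 * U * ∑ i, (φ ^ 2 * w i + 2 * φ * (d * t i) * W) * u i
        - U * U * (φ ^ 2 * W * (8 + 8 * a - 4 * (h * h))
          + 2 * ∑ i, x i * (φ ^ 2 * w i + 2 * φ * (d * t i) * W))) := by
  rw [← sub_nonneg, ← mul_nonneg_iff_of_pos_left w0]
  have h1 : 0 ≤ φ ^ 2 * ∑ i, (W * u i + 4 * U * w i) ^ 2 := by positivity
  have h2 := mul_nonneg (mul_nonneg (sq_nonneg U) (sq_nonneg φ)) (sub_nonneg.2 hκ)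
  have h3 : 0 ≤ W ^ 2 * ∑ i, (5 * φ * u i + 8 * d * U * t i) ^ 2 := by positivity
  have h4 : 0 ≤ (U * φ * W * h) ^ 2 := sq_nonneg _
  have h5 := mul_nonneg (mul_nonneg (sq_nonneg U) (sq_nonneg W)) (sub_nonneg.2 hs)
  have h6 : 0 ≤ W * U ^ 2 * (C * e) * (2 - 8 / 5 * W) :=
    mul_nonneg (by positivity) (by linarith)
  simp only [Fin.sum_univ_three] at *
  linear_combination h1 + 8 * h2 + h3 / 5 + 4 * h4 + 8 / 5 * h5 + h6
    + 64 / 5 * W ^ 2 * d ^ 2 * U ^ 2 * s1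

omit [BorelSpace X] [T2Space X] [SecondCountableTopology X] in
/-- the pointwise inequality -/
lemma pt : ∃ C : ℝ, 0 ≤ C ∧ ∀ (w u : G.R) (n : ℕ) (p : X) (κ : ℝ), 0 < w.1 p → w.1 p ≤ 1 →
    (1 + G.S.a2.1 p) * w.1 p ^ 2 + (G.S.dr w).1 p * w.1 p / 4 + 2 * (G.S.gam w w).1 p ≤
      κ * w.1 p ^ 2 →
    (ph G n).1 p ^ 2 * (w.1 p * (2 * (G.S.gam u u).1 p + 8 * u.1 p * (G.S.LL u).1 p
      - 8 * κ * u.1 p ^ 2)) ≤
      C * (u.1 p ^ 2 * Real.exp (-G.S.x2.1 p / 4)) + (G.S.dv (Y G.S (ph G n ^ 2 * w) u)).1 p := by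
  obtain ⟨C, C0, hC⟩ := Ph_bd
  refine ⟨2 * C, by positivity, fun w u n p κ w0 w1 hκ => ?_⟩
  obtain ⟨d, hd, hb⟩ := hC (n + 1) _ (by positivity) (x2_nonneg G p)
  have H : G.S.IsHyp := G.hyp
  have dφ : ∀ a, ev G p (G.S.D a (ph G n)) = d * ev G p (G.S.D a G.S.x2) := fun a =>
    Imm.D_comp (Imm.Sm.diffAt G.S.x2.2 p) hd a
  have s1 := congrArg (ev G p) (gam_x2 H G.S.x2)
  have s2 : G.S.dr G.S.x2 = 2 * (G.S.x2 - G.S.xn * G.S.xn) := by
    simp only [Mov.dr, H.D_x2]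
    simp only [Mov.xn, Mov.x2, Fin.sum_univ_three]
    ring
  have s3 := congrArg (ev G p) s2
  have hs := hb (ev G p (G.S.dr G.S.x2) / 2) (by
    simp only [map_sum, map_mul, map_ofNat] at s1
    have : 0 ≤ ∑ a, ev G p (G.S.D a G.S.x2) * ev G p (G.S.D a G.S.x2) :=
      Finset.sum_nonneg fun a _ => mul_self_nonneg _
    linarith) (by
    simp only [map_mul, map_sub, map_ofNat] at s3
    rw [s3, ev_eq]
    nlinarith [mul_self_nonneg (ev G p G.S.xn)])
  rw [dv_Y H G.shr]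
  rw [show Ph (n + 1) (G.S.x2.1 p) = ev G p (ph G n) from rfl] at hs
  simp only [ev_eq, map_add, map_sub, map_mul, map_ofNat, map_pow, map_sum, Pre.gam, Mov.dr, H.mul,
    H.toIsDS.D_sq, dφ] at hκ hs s1 w0 w1 ⊢
  exact core w0 w1 (by positivity) s1 hs hκ

omit [T2Space X] [SecondCountableTopology X] in
lemma sq_wd {f m : X → ℝ} (hf : Continuous f) (hm : Continuous m) (μ : Measure X) :
    eLpNorm f 2 (μ.withDensity fun p => ENNReal.ofReal (m p)) ^ 2 =
      ∫⁻ p, ENNReal.ofReal (f p ^ 2 * m p) ∂μ := by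
  have := eLpNorm_nnreal_pow_eq_lintegral (f := f) (p := 2)
    (μ := μ.withDensity fun p => ENNReal.ofReal (m p)) two_ne_zero
  simp only [ENNReal.coe_ofNat, NNReal.coe_ofNat, ENNReal.rpow_ofNat] at this
  rw [this, lintegral_withDensity_eq_lintegral_mul _ hm.measurable.ennreal_ofReal
      (by have := hf.measurable; fun_prop)]
  refine lintegral_congr fun p => ?_
  rw [ENNReal.ofReal_mul (sq_nonneg _), mul_comm, ← sq_abs, ENNReal.ofReal_pow (abs_nonneg _)]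
  simp [Real.enorm_eq_ofReal_abs]

omit [T2Space X] [SecondCountableTopology X] in
/-- from integrals of squares to norms -/
lemma comb {θ K : ℝ} (hθ : 0 < θ) (hK : 0 ≤ K) : ∃ c : ℝ≥0, ∀ f g h u : G.R,
    ∫⁻ p, ENNReal.ofReal (θ * (f.1 p ^ 2 * G.m.1 p)) ∂G.M.mu ≤
      ∫⁻ p, ENNReal.ofReal (K * (g.1 p ^ 2 * G.m.1 p + h.1 p ^ 2 * G.m.1 p
        + u.1 p ^ 2 * Real.exp (-G.S.x2.1 p / 4))) ∂G.M.mu →
    G.nR f ≤ c * (G.nR g + G.nR h + G.gR u) := by
  refine ⟨Real.toNNReal (K / θ + 1), fun f g h u H => ?_⟩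
  have ce : Continuous fun p => Real.exp (-G.S.x2.1 p / 4) := by have := cont G G.S.x2; fun_prop
  have mm : ∀ f : G.R, Measurable fun p => ENNReal.ofReal (f.1 p ^ 2 * G.m.1 p) := fun f =>
    (((cont G f).pow 2).mul (cont G _)).measurable.ennreal_ofReal
  have nn : ∀ (f : G.R) p, 0 ≤ f.1 p ^ 2 * G.m.1 p := fun f p =>
    mul_nonneg (sq_nonneg _) (G.m_pos p).le
  have e : ∀ p, ENNReal.ofReal (K * (g.1 p ^ 2 * G.m.1 p + h.1 p ^ 2 * G.m.1 p
      + u.1 p ^ 2 * Real.exp (-G.S.x2.1 p / 4))) = ENNReal.ofReal K *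
      (ENNReal.ofReal (g.1 p ^ 2 * G.m.1 p) + (ENNReal.ofReal (h.1 p ^ 2 * G.m.1 p)
        + ENNReal.ofReal (u.1 p ^ 2 * Real.exp (-G.S.x2.1 p / 4)))) := fun p => by
    rw [ENNReal.ofReal_mul hK, add_assoc, ENNReal.ofReal_add (nn g p)
      (add_nonneg (nn h p) (by positivity)), ENNReal.ofReal_add (nn h p) (by positivity)]
  simp only [e, ENNReal.ofReal_mul hθ.le] at H
  rw [lintegral_const_mul' _ _ ENNReal.ofReal_ne_top, lintegral_const_mul' _ _ ENNReal.ofReal_ne_top,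
    lintegral_add_left (mm g), lintegral_add_left (mm h), ← sq_wd (cont G f) (cont G _),
    ← sq_wd (cont G g) (cont G _), ← sq_wd (cont G h) (cont G _), ← sq_wd (cont G u) ce] at H
  change _ * G.nR f ^ 2 ≤ _ * (G.nR g ^ 2 + (G.nR h ^ 2 + G.gR u ^ 2)) at H
  have k : ENNReal.ofReal K ≤ ENNReal.ofReal θ * (Real.toNNReal (K / θ + 1) : ℝ≥0∞) ^ 2 := by
    change _ ≤ _ * ENNReal.ofReal _ ^ 2
    rw [← ENNReal.ofReal_pow (by positivity), ← ENNReal.ofReal_mul hθ.le]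
    refine ENNReal.ofReal_le_ofReal ?_
    have : 0 ≤ K / θ := by positivity
    calc K = θ * (K / θ) := by field_simp
      _ ≤ _ := by gcongr; nlinarith
  have s : G.nR g ^ 2 + (G.nR h ^ 2 + G.gR u ^ 2) ≤ (G.nR g + G.nR h + G.gR u) ^ 2 := by
    rw [show (G.nR g + G.nR h + G.gR u) ^ 2 = G.nR g ^ 2 + (G.nR h ^ 2 + G.gR u ^ 2) +
      2 * (G.nR g * G.nR h + G.nR g * G.gR u + G.nR h * G.gR u) by ring]
    exact le_self_add
  have := H.trans (mul_le_mul' k s)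
  rw [mul_assoc, ENNReal.mul_le_mul_iff_right (by simpa using hθ) ENNReal.ofReal_ne_top,
    ← mul_pow] at this
  by_contra hn
  exact absurd this (not_le.2 (ENNReal.pow_lt_pow_left two_ne_zero (not_le.1 hn)))

omit [BorelSpace X] [T2Space X] [SecondCountableTopology X] in
lemma ρι (p : X) : G.ρ.1 p * G.ι.1 p = 1 := congrArg (fun f : G.R => f.1 p) G.ρι

omit [BorelSpace X] [T2Space X] [SecondCountableTopology X] in
lemma ι_bd (p : X) : 0 < G.ι.1 p ∧ G.ι.1 p ≤ 1 := by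
  have h := ρι G p
  have := G.one_le p
  have a : 0 < G.ι.1 p := by by_contra hn; nlinarith
  exact ⟨a, by nlinarith⟩

/-- first test: the weight `ι² m` -/
lemma test1 : ∃ c : ℝ≥0, ∀ u : G.R,
    G.nR (G.ι * u) ≤ c * (G.nR (G.ρ * G.S.LL u) + G.nR (G.ρ * G.S.LL u) + G.gR u) := by
  obtain ⟨C, C0, hC⟩ := pt G
  obtain ⟨R₁, hR⟩ := G.far
  set w := G.ι ^ 2 * G.m with hw
  have we : ∀ p, w.1 p = G.ι.1 p ^ 2 * G.m.1 p := fun p => by simp only [ev_eq, hw, map_mul, map_pow]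
  have w0 : ∀ p, 0 < w.1 p := fun p => by
    rw [we]; exact mul_pos (pow_pos (ι_bd G p).1 2) (G.m_pos p)
  have w1 : ∀ p, w.1 p ≤ G.m.1 p := fun p => by
    rw [we]
    exact mul_le_of_le_one_left (G.m_pos p).le (pow_le_one₀ (ι_bd G p).1.le (ι_bd G p).2)
  obtain ⟨K, hK⟩ := (G.prop R₁).exists_bound_of_continuousOn (f := fun p => ((1 + G.S.a2.1 p) *
    w.1 p ^ 2 + (G.S.dr w).1 p * w.1 p / 4 + 2 * (G.S.gam w w).1 p) / w.1 p ^ 2) (by
      have := cont G w; have := cont G G.S.a2; have := cont G (G.S.dr w)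
      have := cont G (G.S.gam w w)
      exact (Continuous.div (by fun_prop) (by fun_prop) fun p => (pow_pos (w0 p) 2).ne').continuousOn)
  set K' := (1 + 8 * |K|) * Real.exp (R₁ / 4) with hK'
  obtain ⟨c, hc⟩ := comb G (θ := 1 / 2) (K := 16 + C + K') (by norm_num) (by positivity)
  refine ⟨c, fun u => hc _ _ _ _ (lint_le G (by
    have := cont G (G.ι * u); have := cont G G.m; fun_prop)
    (fun p => by have := G.m_pos p; positivity) w u fun n p => ?_)⟩
  have φ1 : (ph G n).1 p ^ 2 ≤ 1 := Ph_sq_le (by positivity) _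
  have A0 : 0 ≤ (G.S.gam u u).1 p := by
    simp only [ev_eq, Pre.gam, map_sum, map_mul]
    exact Finset.sum_nonneg fun a _ => mul_self_nonneg _
  have e1 : (G.ι * u).1 p ^ 2 * G.m.1 p = w.1 p * u.1 p ^ 2 := by
    rw [we]; simp only [ev_eq, map_mul]; ring
  have e2 : w.1 p * (G.S.LL u).1 p ^ 2 ≤ (G.ρ * G.S.LL u).1 p ^ 2 * G.m.1 p := by
    have : (G.ρ * G.S.LL u).1 p ^ 2 = G.ρ.1 p ^ 2 * (G.S.LL u).1 p ^ 2 := by
      simp only [ev_eq, map_mul]; ring
    rw [this, mul_right_comm]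
    refine mul_le_mul_of_nonneg_right ((w1 p).trans ?_) (sq_nonneg _)
    exact le_mul_of_one_le_left (G.m_pos p).le (one_le_pow₀ (G.one_le p))
  rw [e1]
  have w0 := w0 p
  have w2 := (w1 p).trans (G.m_le p)
  have K0 : 0 ≤ K' := by positivity
  have key : ∀ κ κ' : ℝ, (1 + G.S.a2.1 p) * w.1 p ^ 2 + (G.S.dr w).1 p * w.1 p / 4 +
      2 * (G.S.gam w w).1 p ≤ κ * w.1 p ^ 2 → 1 + 8 * κ ≤ κ' → 0 ≤ κ' →
      κ' ≤ K' * Real.exp (-G.S.x2.1 p / 4) → _ := fun κ κ' h1 h2 h3 h4 => by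
    have := hC w u n p κ w0 w2 h1
    show (ph G n).1 p ^ 2 * (1 / 2 * (w.1 p * u.1 p ^ 2)) ≤ (16 + C + K') *
      ((G.ρ * G.S.LL u).1 p ^ 2 * G.m.1 p + (G.ρ * G.S.LL u).1 p ^ 2 * G.m.1 p
        + u.1 p ^ 2 * Real.exp (-G.S.x2.1 p / 4)) + (G.S.dv (Y G.S (ph G n ^ 2 * w) u)).1 p
    generalize (G.ρ * G.S.LL u).1 p ^ 2 * G.m.1 p = g at *
    generalize (ph G n).1 p = φ at *
    generalize (G.S.LL u).1 p = L at *
    generalize u.1 p = U at *
    generalize w.1 p = W at *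
    have e0 := Real.exp_pos (-G.S.x2.1 p / 4)
    generalize Real.exp (-G.S.x2.1 p / 4) = e at *
    have g0 : 0 ≤ g := le_trans (by positivity) e2
    have p0 : 0 ≤ φ ^ 2 * W := by positivity
    have p1 : φ ^ 2 * W ≤ 1 := mul_le_one₀ φ1 w0.le w2
    have a1 := mul_nonneg p0 (sq_nonneg (U + 8 * L))
    have a2 := mul_nonneg p0 A0
    have a3 : φ ^ 2 * (W * L ^ 2) ≤ g := (mul_le_of_le_one_left (by positivity) φ1).trans e2
    have a4 : φ ^ 2 * W * ((1 + 8 * κ) * U ^ 2) ≤ K' * e * U ^ 2 :=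
      calc _ ≤ φ ^ 2 * W * (κ' * U ^ 2) := by gcongr
        _ ≤ κ' * U ^ 2 := mul_le_of_le_one_left (by positivity) p1
        _ ≤ _ := by gcongr
    have a5 : 0 ≤ (C + K') * g := by positivity
    have a6 : 0 ≤ U ^ 2 * e := by positivity
    nlinarith
  rcases le_total R₁ (G.S.x2.1 p) with h | h
  · exact key (-1 / 8) 0 ((hR p h).trans (le_of_eq (by ring))) (by norm_num) le_rfl (by positivity)
  · refine key |K| (1 + 8 * |K|) ?_ le_rfl (by positivity) ?_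
    · rw [← div_le_iff₀ (by positivity)]
      exact (le_abs_self _).trans ((hK p h).trans (le_abs_self K))
    · rw [hK', mul_assoc, ← Real.exp_add]
      exact le_mul_of_one_le_right (by positivity) (Real.one_le_exp (by linarith))

omit [BorelSpace X] [T2Space X] [SecondCountableTopology X] in
lemma a2_le : ∃ C : ℝ, ∀ p, G.S.a2.1 p ≤ C * G.ι.1 p ^ 2 := by
  choose C hC using fun a b => G.symn b [a]
  refine ⟨∑ a, ∑ b, C a b ^ 2, fun p => ?_⟩
  simp only [ev_eq, Mov.a2, map_sum, map_mul, Finset.sum_mul]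
  refine Finset.sum_le_sum fun a _ => Finset.sum_le_sum fun b _ => ?_
  have h : |ev G p (G.S.B a b)| ≤ C a b * G.ρ.1 p ^ ((0 : ℤ) - ((1 : ℕ) : ℤ)) := hC a b p
  rw [show (0 : ℤ) - ((1 : ℕ) : ℤ) = -1 by norm_num, zpow_neg_one,
    ← eq_inv_of_mul_eq_one_right (ρι G p)] at h
  rw [← sq, ← mul_pow, ← sq_abs]
  exact pow_le_pow_left₀ (abs_nonneg _) h 2

/-- second test: the weight `m` -/
lemma test2 : ∃ c : ℝ≥0, ∀ (u : G.R) a,
    G.nR (G.S.D a u) ≤ c * (G.nR (G.ι * u) + G.nR (G.ρ * G.S.LL u) + G.gR u) := by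
  obtain ⟨C, C0, hC⟩ := pt G
  obtain ⟨C1, h1⟩ := a2_le G
  obtain ⟨C2, h2⟩ := G.Dm
  obtain ⟨C3, h3⟩ := G.drm
  set K := |C1 + C3 / 4 + 6 * C2 ^ 2| with hK
  obtain ⟨c, hc⟩ := comb G (θ := 2) (K := 4 + 8 * K + C) (by norm_num) (by positivity)
  refine ⟨c, fun u a => hc _ _ _ _ (lint_le G (by
    have := cont G (G.S.D a u); have := cont G G.m; fun_prop)
    (fun p => by have := G.m_pos p; positivity) G.m u fun n p => ?_)⟩
  have φ1 : (ph G n).1 p ^ 2 ≤ 1 := Ph_sq_le (by positivity) _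
  have m0 := G.m_pos p
  have A0 : (G.S.D a u).1 p ^ 2 ≤ (G.S.gam u u).1 p := by
    simp only [ev_eq, Pre.gam, map_sum, map_mul, sq]
    exact Finset.single_le_sum (f := fun a => ev G p (G.S.D a u) * ev G p (G.S.D a u))
      (fun a _ => mul_self_nonneg _) (Finset.mem_univ a)
  have gm : (G.S.gam G.m G.m).1 p ≤ 3 * (C2 * G.ι.1 p * G.m.1 p) ^ 2 := by
    have b : ∀ a, ev G p (G.S.D a G.m) * ev G p (G.S.D a G.m) ≤ (C2 * G.ι.1 p * G.m.1 p) ^ 2 :=
      fun a => by rw [← sq, ← sq_abs]; exact pow_le_pow_left₀ (abs_nonneg _) (h2 a p) 2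
    rw [ev_eq, Pre.gam, map_sum, Fin.sum_univ_three, map_mul, map_mul, map_mul]
    linarith [b 0, b 1, b 2]
  have := hC G.m u n p (K * G.ι.1 p ^ 2) m0 (G.m_le p) (by
    have b1 := mul_le_mul_of_nonneg_right (h1 p) (sq_nonneg (G.m.1 p))
    have b2 := mul_le_mul_of_nonneg_right (h3 p) m0.le
    have b3 := mul_le_mul_of_nonneg_right (le_abs_self (C1 + C3 / 4 + 6 * C2 ^ 2))
      (sq_nonneg (G.ι.1 p * G.m.1 p))
    change (G.S.dr G.m).1 p * _ ≤ _ at b2
    nlinarith)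
  have r := ρι G p
  have K0 : 0 ≤ K := abs_nonneg _
  rw [show (G.ι * u).1 p = G.ι.1 p * u.1 p from rfl,
    show (G.ρ * G.S.LL u).1 p = G.ρ.1 p * (G.S.LL u).1 p from rfl]
  generalize (ph G n).1 p = φ at *
  generalize (G.S.LL u).1 p = L at *
  generalize u.1 p = U at *
  generalize G.m.1 p = W at *
  generalize G.ι.1 p = i at *
  generalize G.ρ.1 p = ρ at *
  have e0 := Real.exp_pos (-G.S.x2.1 p / 4)
  generalize Real.exp (-G.S.x2.1 p / 4) = e at *
  have p0 : 0 ≤ φ ^ 2 * W := by positivity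
  have a1 := mul_nonneg p0 (sq_nonneg (i * U + ρ * L))
  have a2 := mul_le_mul_of_nonneg_left A0 p0
  have a3 : φ ^ 2 * ((ρ * L) ^ 2 * W) ≤ (ρ * L) ^ 2 * W := mul_le_of_le_one_left (by positivity) φ1
  have a4 : φ ^ 2 * ((4 + 8 * K) * ((i * U) ^ 2 * W)) ≤ (4 + 8 * K) * ((i * U) ^ 2 * W) :=
    mul_le_of_le_one_left (by positivity) φ1
  have a5 : 0 ≤ C * ((i * U) ^ 2 * W) := by positivity
  have a6 : 0 ≤ (8 * K + C) * ((ρ * L) ^ 2 * W) := by positivity
  have a7 : 0 ≤ (4 + 8 * K) * (U ^ 2 * e) := by positivity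
  have a8 : φ ^ 2 * W * (U * L) * (ρ * i) = φ ^ 2 * W * (U * L) := by rw [r, mul_one]
  nlinarith

end E0

/-- **from Gaussian to polynomial weights** -/
theorem Geo.e0S {X : Type} [TopologicalSpace X] [MeasurableSpace X] [BorelSpace X] [T2Space X]
    [SecondCountableTopology X] (G : Geo X) : G.E0S := by
  obtain ⟨c1, h1⟩ := E0.test1 G
  obtain ⟨c2, h2⟩ := E0.test2 G
  refine ⟨2 * c1 + 3 * (c2 * (2 * c1 + 1)), fun u => ?_⟩
  set N := G.nR (G.ρ * G.S.LL u) + G.gR u with hN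
  have a : G.nR (G.ι * u) ≤ 2 * c1 * N := (h1 u).trans (by
    rw [show 2 * c1 * N = c1 * (G.nR (G.ρ * G.S.LL u) + G.nR (G.ρ * G.S.LL u) + G.gR u) +
      c1 * G.gR u by rw [hN]; ring]
    exact le_self_add)
  have b : ∀ a, G.nR (G.S.D a u) ≤ c2 * (2 * c1 + 1) * N := fun c => (h2 u c).trans (by
    rw [mul_assoc, add_mul, one_mul, add_assoc]
    gcongr)
  rw [Fin.sum_univ_three]
  calc _ ≤ 2 * c1 * N + (c2 * (2 * c1 + 1) * N + c2 * (2 * c1 + 1) * N + c2 * (2 * c1 + 1) * N) := by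
        gcongr <;> exact b _
    _ = _ := by push_cast; ring

end Crest.Agent.N250.WS

end
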