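import Crest.Agent.N250.G.Ev2

/-!
# Row 250: drift Laplacians on a hypersurface, weighted energy and Bochner identities, commutators
(helper86; pure algebra)
-/

set_option autoImplicit false
set_option linter.unusedSectionVars false

noncomputable section

namespace Crest.Agent.N250

open Crest.Agent.N222

namespace Mov

variable {R : Type} [CommRing R] {ι : Type} [Fintype ι] (S : Mov R ι)

/-- the drift Laplacian `Δ f - ⟨∇ψ, ∇f⟩` -/
def L0 (ψ f : R) : R := S.lap f - S.gam ψ f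

/-- the drift Laplacian with an extra drift `V` -/
def LV (β : R) (V : ι → R) (f : R) : R := S.L0 β f - S.dir V f

/-- `|Hess f|²` -/
def hs2 (f : R) : R := ∑ a, ∑ b, S.hess f a b * S.hess f a b

/-- `∑ (D_a D_b f)²` -/
def dd2 (f : R) : R := ∑ a, ∑ b, S.D a (S.D b f) * S.D a (S.D b f)

/-- a matrix evaluated on `(∇f, ∇f)` -/
def qf (T : ι → ι → R) (f : R) : R := ∑ a, ∑ b, T a b * (S.D a f * S.D b f)

/-- the field of the energy identity -/
def enY (E : R) (V : ι → R) (f : R) (a : ι) : R := E * (f * f * V a - 2 * f * S.D a f)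

/-- the field of the Bochner identity -/
def boY (E β : R) (V : ι → R) (f : R) (a : ι) : R :=
  E * (2 * S.L0 β f * S.D a f - S.D a (S.gam f f) - 4 * S.dir V f * S.D a f + 2 * S.gam f f * V a)

variable [Algebra ℝ R] [DecidableEq ι] {S}

namespace IsHyp

variable (H : S.IsHyp)
include H

theorem L0_eq_LV (ψ β f : R) : S.L0 ψ f = S.LV β (fun a => S.D a ψ - S.D a β) f := by
  simp only [LV, L0, Pre.dir, Pre.gam, sub_mul, Finset.sum_sub_distrib]; ring

theorem tan_sub_D (ψ β : R) : S.Tan fun a => S.D a ψ - S.D a β :=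
  H.tan_of (by simp only [mul_sub, Finset.sum_sub_distrib, H.n_D, sub_zero])

theorem L0_add (ψ f g : R) : S.L0 ψ (f + g) = S.L0 ψ f + S.L0 ψ g := by
  simp only [L0, Pre.lap, Pre.gam, H.add, mul_add, Finset.sum_add_distrib]; ring

theorem L0_mul (ψ f g : R) : S.L0 ψ (f * g) = f * S.L0 ψ g + 2 * S.gam f g + S.L0 ψ f * g := by
  have : S.gam ψ (f * g) = f * S.gam ψ g + S.gam ψ f * g := by
    simp only [Pre.gam, H.mul, Finset.mul_sum, Finset.sum_mul, ← Finset.sum_add_distrib]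
    exact Finset.sum_congr rfl fun a _ => by ring
  rw [L0, L0, L0, H.toIsDS.lap_mul, this]; ring

theorem dd2_eq (f : R) : S.dd2 f = S.hs2 f + S.qf S.B2 f := by
  have e : ∀ a b, S.D a (S.D b f) * S.D a (S.D b f) = S.hess f a b * S.hess f a b
      - 2 * (∑ c, S.B a c * S.D c f) * (S.n b * S.hess f a b)
      + (∑ c, S.B a c * S.D c f) * (∑ c, S.B a c * S.D c f) * (S.n b * S.n b) := fun a b => by
    rw [H.DD]; ring
  have e2 : ∑ a, (∑ c, S.B a c * S.D c f) * (∑ c, S.B a c * S.D c f) = S.qf S.B2 f := by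
    simp only [Finset.sum_mul_sum]
    simp only [qf, B2, Finset.sum_mul]
    rw [Finset.sum_comm]
    refine Finset.sum_congr rfl fun c _ => ?_
    rw [Finset.sum_comm]
    exact Finset.sum_congr rfl fun e _ => Finset.sum_congr rfl fun a _ => by
      rw [H.B_symm c a]; ring
  simp only [dd2, e, Finset.sum_add_distrib, Finset.sum_sub_distrib, ← Finset.mul_sum, H.nn,
    H.n_tan (H.toIsDS.tan_hess f _), mul_zero, mul_one, e2, hs2, sub_zero]

theorem D_gam (f g : R) (a : ι) :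
    S.D a (S.gam f g) = ∑ b, (S.D b f * S.D a (S.D b g) + S.D a (S.D b f) * S.D b g) := by
  simp only [Pre.gam, H.toIsDS.D_sum, H.mul]

/-- two tangential fields see a symmetric second derivative -/
theorem DD_tan {Y Z : ι → R} (hY : S.Tan Y) (hZ : S.Tan Z) (f : R) :
    ∑ a, ∑ b, Y a * Z b * S.D a (S.D b f) = ∑ a, ∑ b, Y a * Z b * S.D b (S.D a f) := by
  have e : ∀ a b, Y a * Z b * S.D a (S.D b f) = Y a * Z b * S.D b (S.D a f)
      + (S.n a * Y a) * (Z b * ∑ c, S.B b c * S.D c f)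
      - (Y a * ∑ c, S.B a c * S.D c f) * (S.n b * Z b) := fun a b => by
    rw [H.DD_comm f a b]; ring
  simp only [e, Finset.sum_add_distrib, Finset.sum_sub_distrib, ← Finset.mul_sum,
    ← Finset.sum_mul, H.n_tan hY, H.n_tan hZ, mul_zero, zero_mul, add_zero, sub_zero]

theorem qf_hess (β f : R) : S.qf (S.hess β) f = ∑ a, ∑ b, S.D a f * S.D b f * S.D a (S.D b β) := by
  refine Finset.sum_congr rfl fun a _ => ?_
  have := H.toIsDS.tan_DD (H.tan f) β a
  simp only [mul_assoc, ← Finset.mul_sum, this]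
  rw [Finset.mul_sum]
  exact Finset.sum_congr rfl fun b _ => by ring

/-- Bochner's formula -/
theorem bochner (f : R) : S.lap (S.gam f f) = 2 * S.hs2 f + 2 * S.gam f (S.lap f)
    + 2 * (S.h * S.qf S.B f - S.qf S.B2 f) := by
  have e0 : S.lap (S.gam f f) = ∑ a, S.lap (S.D a f * S.D a f) := by
    simp only [Pre.lap, Pre.gam, H.toIsDS.D_sum]; exact Finset.sum_comm
  have e1 : ∀ a, S.lap (S.D a f * S.D a f) = 2 * (S.D a f * S.D a (S.lap f))
      - 4 * ∑ b, S.B2 a b * (S.D a f * S.D b f) + 2 * S.h * ∑ b, S.B a b * (S.D a f * S.D b f)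
      - (4 * (∑ b, ∑ c, S.B b c * S.D b (S.D c f)) + 2 * S.gam S.h f) * (S.n a * S.D a f)
      + 2 * ∑ b, S.D b (S.D a f) * S.D b (S.D a f) := fun a => by
    have a1 : ∑ b, S.B2 a b * (S.D a f * S.D b f) = S.D a f * ∑ b, S.B2 a b * S.D b f := by
      rw [Finset.mul_sum]; exact Finset.sum_congr rfl fun b _ => by ring
    have a2 : ∑ b, S.B a b * (S.D a f * S.D b f) = S.D a f * ∑ b, S.B a b * S.D b f := by
      rw [Finset.mul_sum]; exact Finset.sum_congr rfl fun b _ => by ring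
    have a3 : S.gam (S.D a f) (S.D a f) = ∑ b, S.D b (S.D a f) * S.D b (S.D a f) := rfl
    rw [H.toIsDS.lap_mul, H.lap_D, a1, a2, a3]; ring
  have e2 : ∑ a, ∑ b, S.D b (S.D a f) * S.D b (S.D a f) = S.dd2 f := Finset.sum_comm
  simp only [e0, e1, Finset.sum_add_distrib, Finset.sum_sub_distrib, ← Finset.mul_sum, H.n_D, e2,
    H.dd2_eq]
  simp only [qf, Pre.gam]
  ring

theorem bochner_L0 (β f : R) : S.L0 β (S.gam f f) = 2 * S.hs2 f + 2 * S.gam f (S.L0 β f)
    + 2 * (S.h * S.qf S.B f - S.qf S.B2 f) + 2 * S.qf (S.hess β) f := by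
  have e1 : S.gam β (S.gam f f) = 2 * ∑ a, ∑ b, S.D a β * S.D b f * S.D a (S.D b f) := by
    rw [Pre.gam, Finset.mul_sum]
    refine Finset.sum_congr rfl fun a _ => ?_
    rw [H.D_gam, Finset.mul_sum, Finset.mul_sum]
    exact Finset.sum_congr rfl fun b _ => by ring
  have e2 : S.gam f (S.gam β f) = ∑ a, ∑ b, S.D a β * S.D b f * S.D b (S.D a f)
      + ∑ a, ∑ b, S.D a f * S.D b f * S.D a (S.D b β) := by
    rw [Finset.sum_comm, ← Finset.sum_add_distrib, Pre.gam]
    refine Finset.sum_congr rfl fun a _ => ?_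
    rw [H.D_gam, Finset.mul_sum, ← Finset.sum_add_distrib]
    exact Finset.sum_congr rfl fun b _ => by ring
  have e3 : S.gam f (S.L0 β f) = S.gam f (S.lap f) - S.gam f (S.gam β f) := by
    rw [L0, Pre.gam]
    simp only [H.toIsDS.D_sub, mul_sub, Finset.sum_sub_distrib]; rfl
  rw [e3, L0, H.bochner, e1, e2, H.qf_hess, H.DD_tan (H.tan β) (H.tan f)]; ring

section Weight

variable {E β : R} (hE : ∀ a, S.D a E = -(E * S.D a β))
include hE

theorem dv_weight (Y : ι → R) : S.dv (fun a => E * Y a) = E * (S.dv Y - S.dir Y β) := by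
  rw [H.toIsDS.dv_mul, Pre.dir, Pre.dir, mul_sub, Finset.mul_sum, sub_eq_add_neg,
    ← Finset.sum_neg_distrib]
  congr 1
  exact Finset.sum_congr rfl fun a _ => by rw [hE]; ring

/-- **weighted energy identity** -/
theorem energy (V : ι → R) (f : R) : 2 * E * (-S.LV β V f * f) =
    2 * E * S.gam f f + E * (f * f) * (S.dir V β - S.dv V) + S.dv (S.enY E V f) := by
  have e : S.dv (S.enY E V f) = _ := H.dv_weight hE fun a => f * f * V a - 2 * f * S.D a f
  have e1 : ∀ a, S.D a (f * f * V a - 2 * f * S.D a f) = f * f * S.D a (V a)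
      + 2 * f * (V a * S.D a f) - 2 * f * S.D a (S.D a f) - 2 * (S.D a f * S.D a f) := fun a => by
    rw [H.toIsDS.D_sub]; simp only [H.mul, H.toIsDS.D_two]; ring
  have e2 : ∀ a, (f * f * V a - 2 * f * S.D a f) * S.D a β =
      f * f * (V a * S.D a β) - 2 * f * (S.D a β * S.D a f) := fun a => by ring
  rw [e]
  simp only [LV, L0, Pre.dv, Pre.dir, Pre.lap, Pre.gam, e1, e2, Finset.sum_add_distrib,
    Finset.sum_sub_distrib, ← Finset.mul_sum]
  ring

/-- **weighted Bochner identity** -/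
theorem bochner_w {V : ι → R} (hV : S.Tan V) (f : R) : 2 * E * (S.LV β V f * S.LV β V f) =
    2 * E * (S.hs2 f + S.dir V f * S.dir V f + (S.h * S.qf S.B f - S.qf S.B2 f)
      + S.qf (S.hess β) f + 2 * S.qf (fun a b => S.D a (V b)) f
      + (S.dir V β - S.dv V) * S.gam f f) + S.dv (S.boY E β V f) := by
  have e : S.dv (S.boY E β V f) = _ := H.dv_weight hE fun a => 2 * S.L0 β f * S.D a f
    - S.D a (S.gam f f) - 4 * S.dir V f * S.D a f + 2 * S.gam f f * V a
  have d4 : ∀ a, S.D a 4 = 0 := fun a => by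
    rw [show (4 : R) = 2 * 2 by norm_num, H.mul, H.toIsDS.D_two]; ring
  have e1 : ∀ a, S.D a (2 * S.L0 β f * S.D a f - S.D a (S.gam f f) - 4 * S.dir V f * S.D a f
      + 2 * S.gam f f * V a) = 2 * S.L0 β f * S.D a (S.D a f) + 2 * (S.D a f * S.D a (S.L0 β f))
      - S.D a (S.D a (S.gam f f)) - 4 * S.dir V f * S.D a (S.D a f)
      - 4 * (S.D a f * S.D a (S.dir V f)) + 2 * S.gam f f * S.D a (V a)
      + 2 * (V a * S.D a (S.gam f f)) := fun a => by
    rw [H.add, H.toIsDS.D_sub, H.toIsDS.D_sub]; simp only [H.mul, H.toIsDS.D_two, d4]; ring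
  have e2 : ∀ a, (2 * S.L0 β f * S.D a f - S.D a (S.gam f f) - 4 * S.dir V f * S.D a f
      + 2 * S.gam f f * V a) * S.D a β = 2 * S.L0 β f * (S.D a β * S.D a f)
      - S.D a β * S.D a (S.gam f f) - 4 * S.dir V f * (S.D a β * S.D a f)
      + 2 * S.gam f f * (V a * S.D a β) := fun a => by ring
  have e3 : ∑ a, V a * S.D a (S.gam f f) = 2 * ∑ a, ∑ b, V a * S.D b f * S.D a (S.D b f) := by
    rw [Finset.mul_sum]
    refine Finset.sum_congr rfl fun a _ => ?_
    rw [H.D_gam, Finset.mul_sum, Finset.mul_sum]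
    exact Finset.sum_congr rfl fun b _ => by ring
  have e4 : ∑ a, S.D a f * S.D a (S.dir V f) = ∑ a, ∑ b, V a * S.D b f * S.D b (S.D a f)
      + S.qf (fun a b => S.D a (V b)) f := by
    rw [Finset.sum_comm, qf, ← Finset.sum_add_distrib]
    refine Finset.sum_congr rfl fun a _ => ?_
    simp only [Pre.dir, H.toIsDS.D_sum, H.mul]
    rw [Finset.mul_sum, ← Finset.sum_add_distrib]
    exact Finset.sum_congr rfl fun b _ => by ring
  have e5 := H.bochner_L0 β f
  have e6 : S.L0 β f = S.lap f - S.gam β f := rfl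
  rw [L0] at e5
  rw [e, Pre.dv.eq_1 S.toPre (fun a => _ + _), Pre.dir.eq_1 S.toPre (fun a => _ + _)]
  simp only [e1, e2, Finset.sum_add_distrib, Finset.sum_sub_distrib, ← Finset.mul_sum, e3, e4,
    ← H.DD_tan hV (H.tan f)]
  change _ = _ + E * (2 * S.L0 β f * S.lap f + 2 * S.gam f (S.L0 β f) - S.lap (S.gam f f)
    - 4 * S.dir V f * S.lap f - _ + 2 * S.gam f f * S.dv V + _ - (2 * S.L0 β f * S.gam β f
    - S.gam β (S.gam f f) - 4 * S.dir V f * S.gam β f + 2 * S.gam f f * S.dir V β))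
  rw [LV]
  linear_combination E * e5 + E * (2 * S.L0 β f - 4 * S.dir V f) * e6

omit hE in
theorem tan_enY (E : R) {V : ι → R} (hV : S.Tan V) (f : R) : S.Tan (S.enY E V f) := by
  refine H.tan_of ?_
  have : ∀ a, S.n a * S.enY E V f a = E * (f * f) * (S.n a * V a) - 2 * E * f * (S.n a * S.D a f) :=
    fun a => by rw [enY]; ring
  simp only [this, Finset.sum_sub_distrib, ← Finset.mul_sum, H.n_tan hV, H.n_D]; ring

omit hE in
theorem tan_boY (E β : R) {V : ι → R} (hV : S.Tan V) (f : R) : S.Tan (S.boY E β V f) := by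
  refine H.tan_of ?_
  have : ∀ a, S.n a * S.boY E β V f a = E * (2 * S.L0 β f - 4 * S.dir V f) * (S.n a * S.D a f)
      - E * (S.n a * S.D a (S.gam f f)) + 2 * E * S.gam f f * (S.n a * V a) :=
    fun a => by rw [boY]; ring
  simp only [this, Finset.sum_sub_distrib, Finset.sum_add_distrib, ← Finset.mul_sum, H.n_tan hV,
    H.n_D]; ring

end Weight

/-- commutator of the drift Laplacian and a tangential derivative -/
theorem L0_D (ψ f : R) (a : ι) : S.L0 ψ (S.D a f) = S.D a (S.L0 ψ f)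
    - 2 * ∑ b, S.B2 a b * S.D b f + S.h * ∑ b, S.B a b * S.D b f
    - 2 * S.n a * ∑ b, ∑ c, S.B b c * S.D b (S.D c f) - S.n a * S.gam S.h f
    + ∑ b, S.D a (S.D b ψ) * S.D b f + S.n a * ∑ b, ∑ c, S.B b c * (S.D b ψ * S.D c f) := by
  have e : ∀ b, S.D b ψ * S.D b (S.D a f) = S.D b ψ * S.D a (S.D b f)
      + (S.n b * S.D b ψ) * ∑ c, S.B a c * S.D c f
      - S.n a * ∑ c, S.B b c * (S.D b ψ * S.D c f) := fun b => by
    have : ∑ c, S.B b c * (S.D b ψ * S.D c f) = S.D b ψ * ∑ c, S.B b c * S.D c f := by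
      rw [Finset.mul_sum]; exact Finset.sum_congr rfl fun c _ => by ring
    rw [H.DD_comm f b a, this]; ring
  rw [L0, L0, H.lap_D, H.toIsDS.D_sub, H.D_gam, Pre.gam.eq_1 S.toPre ψ]
  simp only [e, Finset.sum_add_distrib, Finset.sum_sub_distrib, ← Finset.mul_sum, ← Finset.sum_mul,
    H.n_D]
  ring

/-! ### shrinkers: `4 ψ = |x|²`, `⟨x, n⟩ = 2 h` -/

section Shr

variable {ψ : R} (hψ : 4 * ψ = S.x2)
include hψ

theorem D_psi (a : ι) : 2 * S.D a ψ = S.x a - S.xn * S.n a := by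
  have d4 : S.D a 4 = 0 := by
    rw [show (4 : R) = 2 * 2 by norm_num, H.mul, H.toIsDS.D_two]; ring
  have := H.D_x2 a
  rw [← hψ, H.mul, d4] at this
  rw [← sub_eq_zero]
  apply Pre.IsDS.two_cancel
  linear_combination this

theorem gam_psi (f : R) : 2 * S.gam ψ f = ∑ a, S.x a * S.D a f := by
  have : ∀ a, 2 * (S.D a ψ * S.D a f) = S.x a * S.D a f - S.xn * (S.n a * S.D a f) := fun a => by
    linear_combination (S.D a f) * H.D_psi hψ a
  simp only [Pre.gam, Finset.mul_sum, this, Finset.sum_sub_distrib]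
  simp only [← Finset.mul_sum, H.n_D, mul_zero, sub_zero]

theorem DD_psi (a b : ι) : 2 * S.D a (S.D b ψ) =
    S.P a b - S.xn * S.B a b - S.n b * ∑ c, S.B a c * S.x c := by
  have := congrArg (S.D a) (H.D_psi hψ b)
  rw [H.mul, H.toIsDS.D_two, H.toIsDS.D_sub, H.mul, H.D_xn] at this
  rw [Pre.P, Mov.B]
  linear_combination this

theorem hess_psi (a b : ι) : 2 * S.hess ψ a b = S.P a b - S.xn * S.B a b := by
  have e : 2 * ∑ c, S.B a c * S.D c ψ = ∑ c, S.B a c * S.x c := by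
    have : ∀ c, 2 * (S.B a c * S.D c ψ) = S.B a c * S.x c - S.xn * (S.n c * S.B a c) := fun c => by
      linear_combination (S.B a c) * H.D_psi hψ c
    simp only [Finset.mul_sum, this, Finset.sum_sub_distrib]
    simp only [← Finset.mul_sum, H.B_n, mul_zero, sub_zero]
  linear_combination H.DD_psi hψ a b - 2 * H.DD ψ a b + S.n b * e

variable (hs : S.xn = 2 * S.h)
include hs

omit hψ in
/-- `A x = 2 ∇ H` -/
theorem B_x (a : ι) : ∑ b, S.B a b * S.x b = 2 * S.D a S.h := by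
  rw [← H.D_xn, hs, H.mul, H.toIsDS.D_two]; ring

/-- **commutator on a shrinker** -/
theorem shr_L0_D (f : R) (a : ι) : 2 * S.L0 ψ (S.D a f) = 2 * S.D a (S.L0 ψ f) + S.D a f
    - 4 * ∑ b, S.B2 a b * S.D b f - 4 * S.n a * ∑ b, ∑ c, S.B b c * S.D b (S.D c f) := by
  have e1 : 2 * ∑ b, S.D a (S.D b ψ) * S.D b f =
      S.D a f - 2 * S.h * ∑ b, S.B a b * S.D b f := by
    have : ∀ b, 2 * (S.D a (S.D b ψ) * S.D b f) = S.P a b * S.D b f - 2 * S.h * (S.B a b * S.D b f)
        - (∑ c, S.B a c * S.x c) * (S.n b * S.D b f) := fun b => by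
      rw [← hs]; linear_combination (S.D b f) * H.DD_psi hψ a b
    rw [Finset.mul_sum]
    simp only [this, Finset.sum_sub_distrib, ← Finset.mul_sum, H.n_D, H.toIsDS.PD, mul_zero,
      sub_zero]
  have e2 : ∑ b, ∑ c, S.B b c * (S.D b ψ * S.D c f) = S.gam S.h f := by
    rw [← sub_eq_zero]
    apply Pre.IsDS.two_cancel
    have : ∀ c, 2 * ∑ b, S.B b c * (S.D b ψ * S.D c f) = 2 * (S.D c S.h * S.D c f) := fun c => by
      have h1 : ∀ b, 2 * (S.B b c * (S.D b ψ * S.D c f)) = S.D c f * (S.B c b * S.x b)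
          - S.xn * S.D c f * (S.n b * S.B b c) := fun b => by
        rw [H.B_symm c b]; linear_combination (S.B b c * S.D c f) * H.D_psi hψ b
      rw [Finset.mul_sum]
      simp only [h1, Finset.sum_sub_distrib, ← Finset.mul_sum, H.n_B, H.B_x hs]; ring
    rw [Finset.sum_comm, mul_sub, Finset.mul_sum, Pre.gam, Finset.mul_sum]
    simp only [this, sub_self]
  rw [H.L0_D, e2]
  linear_combination e1

theorem shr_L0_x (a : ι) : 2 * S.L0 ψ (S.x a) = -S.x a := by
  rw [L0, H.lap_x, H.gam_x]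
  linear_combination -H.D_psi hψ a + S.n a * hs

theorem shr_L0_n (a : ι) : S.L0 ψ (S.n a) = -(S.a2 * S.n a) := by
  have e : ∑ b, S.x b * S.D b (S.n a) = ∑ b, S.B a b * S.x b :=
    Finset.sum_congr rfl fun b _ => by rw [H.B_symm a b, mul_comm]; rfl
  rw [← sub_eq_zero]
  apply Pre.IsDS.two_cancel
  rw [L0, H.lap_n]
  linear_combination -H.gam_psi hψ (S.n a) - e - H.B_x hs a

theorem shr_L0_h : 2 * S.L0 ψ S.h = S.h - 2 * S.a2 * S.h := by
  have e := H.lap_xn
  have e2 : S.lap (2 * S.h) = 2 * S.lap S.h := by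
    simp only [Pre.lap, H.mul, H.toIsDS.D_two, zero_mul, add_zero, Finset.mul_sum]
  rw [hs, e2] at e
  rw [L0]
  linear_combination e - H.gam_psi hψ S.h

theorem gam_psi_psi : 4 * S.gam ψ ψ = S.x2 - 4 * S.h * S.h := by
  have e : 2 * ∑ a, S.x a * S.D a ψ = S.x2 - S.xn * S.xn := by
    have : ∀ a, 2 * (S.x a * S.D a ψ) = S.x a * S.x a - S.xn * (S.x a * S.n a) := fun a => by
      linear_combination (S.x a) * H.D_psi hψ a
    rw [Finset.mul_sum]
    simp only [this, Finset.sum_sub_distrib, ← Finset.mul_sum]; rfl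
  rw [hs] at e
  linear_combination 2 * H.gam_psi hψ ψ + e

theorem shr_L0_psi : 2 * S.L0 ψ ψ = ((Fintype.card ι : R) - 1) - 2 * ψ := by
  have e := H.lap_x2
  have d4 : ∀ a, S.D a 4 = 0 := fun a => by
    rw [show (4 : R) = 2 * 2 by norm_num, H.mul, H.toIsDS.D_two]; ring
  have e2 : S.lap (4 * ψ) = 4 * S.lap ψ := by
    simp only [Pre.lap, H.mul, d4, zero_mul, add_zero, Finset.mul_sum]
  rw [← hψ, e2, hs] at e
  rw [← sub_eq_zero]
  apply Pre.IsDS.two_cancel
  rw [L0]
  linear_combination e - H.gam_psi_psi hψ hs + hψ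

end Shr

end IsHyp

end Mov

end Crest.Agent.N250

end
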