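import Crest.Agent.N250.Wt.Defs
import Crest.Agent.N250.Wt.Boch

/-!
# Row 250, weighted theory (helper35): the pointwise half of the second order estimate
-/

set_option autoImplicit false
set_option linter.unusedSectionVars false

noncomputable section

namespace Crest.Agent.N250

open Crest.Agent.N222

namespace Mov

variable {R : Type} [CommRing R] [Algebra ℝ R] (S : Mov R (Fin 3))

/-- the field of the second order identity, without the weight -/
def e2Z (i : ℕ) (v : R) (a : Fin 3) : R := 4 * S.lap v * S.D a v - 2 * S.D a (S.gam v v)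
  - 4 * S.Pi i v * S.D a v + 2 * S.gam v v * (S.x a - S.xn * S.n a)

/-- the field of the second order identity -/
def e2Y (W : R) (i : ℕ) (v : R) (a : Fin 3) : R := W * S.e2Z i v a

variable {S}

namespace IsHyp

variable (H : S.IsHyp)
include H

theorem tan_e2Y (W : R) (i : ℕ) (v : R) : S.Tan (S.e2Y W i v) := by
  refine H.tan_of ?_
  have : ∀ a, S.n a * S.e2Y W i v a = W * (4 * S.lap v - 4 * S.Pi i v) * (S.n a * S.D a v)
      - 2 * W * (S.n a * S.D a (S.gam v v)) + 2 * W * S.gam v v * (S.x a * S.n a)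
      - 2 * W * S.gam v v * S.xn * (S.n a * S.n a) := fun a => by rw [e2Y, e2Z]; ring
  simp only [this, Finset.sum_sub_distrib, Finset.sum_add_distrib, ← Finset.mul_sum, H.n_D, H.nn]
  rw [← xn]; ring

theorem D_nat (a : Fin 3) (i : ℕ) : S.D a (i : R) = 0 := by
  rw [← map_natCast (algebraMap ℝ R)]; exact H.const a _

theorem dir_xT (f : R) : ∑ a, (S.x a - S.xn * S.n a) * S.D a f = S.dr f := by
  have : ∀ a, (S.x a - S.xn * S.n a) * S.D a f = S.x a * S.D a f - S.xn * (S.n a * S.D a f) :=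
    fun a => by ring
  simp only [this, Finset.sum_sub_distrib, ← Finset.mul_sum, H.n_D, mul_zero, sub_zero, dr]

theorem dv_xT : ∑ a, S.D a (S.x a - S.xn * S.n a) = 2 - S.xn * S.h := by
  have h1 := H.tr_P
  have : ∀ a, S.D a (S.x a - S.xn * S.n a) = S.P a a - S.xn * S.B a a - S.n a * S.D a S.xn :=
    fun a => by rw [H.toIsDS.D_sub, H.mul, Pre.P, B]; ring
  simp only [this, Finset.sum_sub_distrib, ← Finset.mul_sum, H.n_D, h1, Fintype.card_fin]
  rw [← h]; push_cast; ring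

theorem gam_Pi (i : ℕ) (v : R) : 2 * S.gam v (S.Pi i v) =
    2 * (i : R) * S.gam v v + S.dr (S.gam v v) - 2 * S.xn * S.qf S.B v := by
  have e1 : ∀ a, S.D a (S.Pi i v) = ∑ b, S.x b * S.D a (S.D b v) + (i : R) * S.D a v := fun a => by
    have := H.toIsDS.PD a v
    simp only [Pre.P] at this
    simp only [Mov.Pi, dr, H.add, H.mul, H.toIsDS.D_sum, H.toIsDS.D_sub, H.D_nat, H.toIsDS.D_one,
      Finset.sum_add_distrib, this]
    ring
  have e2 : ∀ a b, S.D a v * (S.x b * S.D a (S.D b v)) = S.x b * (S.D a v * S.D b (S.D a v))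
      + (S.n a * S.D a v) * (S.x b * ∑ c, S.B b c * S.D c v)
      - (S.D a v * ∑ c, S.B a c * S.D c v) * (S.x b * S.n b) := fun a b => by
    rw [H.DD_comm v a b]; ring
  have e3 : ∑ a, S.D a v * ∑ c, S.B a c * S.D c v = S.qf S.B v := by
    simp only [qf, Finset.mul_sum]
    exact Finset.sum_congr rfl fun a _ => Finset.sum_congr rfl fun c _ => by ring
  have e4 : S.dr (S.gam v v) = 2 * ∑ a, ∑ b, S.x b * (S.D a v * S.D b (S.D a v)) := by
    rw [Finset.sum_comm, dr, Finset.mul_sum]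
    refine Finset.sum_congr rfl fun a _ => ?_
    rw [H.D_gam, Finset.mul_sum, Finset.mul_sum]
    exact Finset.sum_congr rfl fun b _ => by ring
  have e5 : S.gam v (S.Pi i v) = ∑ a, ∑ b, S.D a v * (S.x b * S.D a (S.D b v))
      + (i : R) * S.gam v v := by
    simp only [Pre.gam, e1, mul_add, Finset.sum_add_distrib, Finset.mul_sum]
    congr 1
    exact Finset.sum_congr rfl fun a _ => by ring
  rw [e5, e4]
  simp only [e2, Finset.sum_add_distrib, Finset.sum_sub_distrib, ← Finset.mul_sum,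
    ← Finset.sum_mul, H.n_D, e3]
  rw [← xn]; ring

theorem dv_e2Z (i : ℕ) (v : R) : S.dv (S.e2Z i v) = 4 * S.lap v ^ 2 + 4 * S.gam v (S.lap v)
    - 2 * S.lap (S.gam v v) - 4 * S.Pi i v * S.lap v - 4 * S.gam v (S.Pi i v)
    + 2 * S.gam v v * (2 - S.xn * S.h) + 2 * S.dr (S.gam v v) := by
  have d4 : ∀ a, S.D a 4 = 0 := fun a => by exact_mod_cast H.D_nat a 4
  have e : ∀ a, S.D a (S.e2Z i v a) = 4 * S.lap v * S.D a (S.D a v)
      + 4 * (S.D a v * S.D a (S.lap v)) - 2 * S.D a (S.D a (S.gam v v))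
      - 4 * S.Pi i v * S.D a (S.D a v) - 4 * (S.D a v * S.D a (S.Pi i v))
      + 2 * S.gam v v * S.D a (S.x a - S.xn * S.n a)
      + 2 * ((S.x a - S.xn * S.n a) * S.D a (S.gam v v)) := fun a => by
    rw [e2Z, H.add, H.toIsDS.D_sub, H.toIsDS.D_sub, H.mul _ _ (S.x a - S.xn * S.n a)]
    simp only [H.mul _ _ (S.D a _), H.mul _ 4, H.mul _ 2, H.toIsDS.D_two, d4]
    ring
  rw [Pre.dv]
  simp only [e, Finset.sum_add_distrib, Finset.sum_sub_distrib, ← Finset.mul_sum, H.dv_xT,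
    H.dir_xT]
  simp only [Pre.lap, Pre.gam]
  ring

/-- the second order identity with an arbitrary weight -/
theorem e2_id (hs : S.xn = 2 * S.h) (W : R) (i : ℕ) (v : R) : 4 * W * S.Mi i v ^ 2 =
    W * (4 * S.dd2 v + S.Pi i v ^ 2 - 8 * S.qf S.B2 v - 4 * S.h * S.qf S.B v
      + 4 * S.h ^ 2 * S.gam v v + 4 * ((i : R) - 1) * S.gam v v)
    - (4 * S.lap v * S.gam W v - 2 * S.gam W (S.gam v v) - 4 * S.Pi i v * S.gam W v
      + 2 * S.gam v v * S.dr W) + S.dv (S.e2Y W i v) := by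
  have e0 : S.dv (S.e2Y W i v) = _ := H.toIsDS.dv_mul W (S.e2Z i v)
  have e1 : S.dir (S.e2Z i v) W = 4 * S.lap v * S.gam W v - 2 * S.gam W (S.gam v v)
      - 4 * S.Pi i v * S.gam W v + 2 * S.gam v v * S.dr W := by
    have : ∀ a, S.e2Z i v a * S.D a W = 4 * S.lap v * (S.D a W * S.D a v)
        - 2 * (S.D a W * S.D a (S.gam v v)) - 4 * S.Pi i v * (S.D a W * S.D a v)
        + 2 * S.gam v v * ((S.x a - S.xn * S.n a) * S.D a W) := fun a => by rw [e2Z]; ring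
    rw [Pre.dir]
    simp only [this, Finset.sum_add_distrib, Finset.sum_sub_distrib, ← Finset.mul_sum, H.dir_xT]
    rfl
  have e2 : 2 * S.Mi i v = 2 * S.lap v - S.Pi i v := by
    have : (2 : R) * algebraMap ℝ R (1 / 2) = 1 := by
      rw [← map_ofNat (algebraMap ℝ R) 2, ← map_mul]; norm_num
    rw [Mi]; linear_combination (-S.Pi i v) * this
  have e3 := H.bochner v
  have e4 := H.gam_Pi i v
  have e5 := H.dd2_eq v
  rw [e0, e1, H.dv_e2Z]
  rw [hs] at e4 ⊢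
  linear_combination W * (2 * S.Mi i v + 2 * S.lap v - S.Pi i v) * e2 + 2 * W * e3 + 2 * W * e4
    - 4 * W * e5

end IsHyp

end Mov

namespace WS

theorem abs_sum3 {f : Fin 3 → ℝ} {c : ℝ} (h : ∀ a, |f a| ≤ c) : |∑ a, f a| ≤ 3 * c :=
  (Finset.abs_sum_le_sum_abs _ _).trans ((Finset.sum_le_sum fun a _ => h a).trans (by simp))

theorem abs_mul_le' {a b c d : ℝ} (h1 : |a| ≤ c) (h2 : |b| ≤ d) : |a * b| ≤ c * d := by
  rw [abs_mul]; exact mul_le_mul h1 h2 (abs_nonneg _) ((abs_nonneg _).trans h1)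

theorem e2_real {κ P : ℝ} {d ω : Fin 3 → ℝ} {Q β : Fin 3 → Fin 3 → ℝ}
    (hω : ∀ a, |ω a| ≤ κ) (hβ : ∀ a b, |β a b| ≤ κ) :
    -(2 * ∑ a, ∑ b, Q a b * Q a b + P ^ 2 / 2 + 1044 * κ ^ 2 * ∑ a, d a * d a) ≤
      -8 * ∑ a, ∑ b, (∑ c, β a c * β c b) * (d a * d b)
      - 4 * ((∑ a, β a a) * ∑ a, ∑ b, β a b * (d a * d b))
      - 4 * ((∑ a, Q a a) * ∑ a, ω a * d a) + 4 * ∑ a, ∑ b, ω a * (d b * Q a b)
      + 4 * (P * ∑ a, ω a * d a) := by
  have g0 : 0 ≤ ∑ a, d a * d a := Finset.sum_nonneg fun a _ => mul_self_nonneg _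
  have q1 : ∀ a, 0 ≤ ∑ b, Q a b * Q a b := fun a => Finset.sum_nonneg fun b _ => mul_self_nonneg _
  have q0 : 0 ≤ ∑ a, ∑ b, Q a b * Q a b := Finset.sum_nonneg fun a _ => q1 a
  have hd : ∀ a, |d a| ≤ √(∑ a, d a * d a) := fun a => Real.abs_le_sqrt (by
    rw [sq]; exact Finset.single_le_sum (fun a _ => mul_self_nonneg (d a)) (Finset.mem_univ a))
  have hQ : ∀ a b, |Q a b| ≤ √(∑ a, ∑ b, Q a b * Q a b) := fun a b => Real.abs_le_sqrt (by
    rw [sq]
    exact (Finset.single_le_sum (fun b _ => mul_self_nonneg (Q a b)) (Finset.mem_univ b)).trans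
      (Finset.single_le_sum (fun a _ => q1 a) (Finset.mem_univ a)))
  have hg := Real.sq_sqrt g0
  have hq := Real.sq_sqrt q0
  set γ := √(∑ a, d a * d a)
  set q := √(∑ a, ∑ b, Q a b * Q a b)
  have a1 := abs_le.1 (abs_sum3 fun a => abs_sum3 fun b => abs_mul_le'
    (abs_sum3 fun c => abs_mul_le' (hβ a c) (hβ c b)) (abs_mul_le' (hd a) (hd b)))
  have a2 := abs_le.1 (abs_mul_le' (abs_sum3 fun a => hβ a a) (abs_sum3 fun a => abs_sum3 fun b =>
    abs_mul_le' (hβ a b) (abs_mul_le' (hd a) (hd b))))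
  have a0 := abs_sum3 fun a => abs_mul_le' (hω a) (hd a)
  have a3 := abs_le.1 (abs_mul_le' (abs_sum3 fun a => hQ a a) a0)
  have a4 := abs_le.1 (abs_sum3 fun a => abs_sum3 fun b => abs_mul_le' (hω a)
    (abs_mul_le' (hd b) (hQ a b)))
  have a5 := abs_le.1 (abs_mul_le' (le_refl |P|) a0)
  rw [← hg, ← hq, ← sq_abs P]
  nlinarith [sq_nonneg (q - 18 * (κ * γ)), sq_nonneg (|P| - 12 * (κ * γ)), a1.2, a2.2, a3.2, a4.1,
    a5.1]

theorem e2_abs {R : Type} [CommRing R] [Algebra ℝ R] {S : Mov R (Fin 3)} (H : S.IsHyp)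
    (hs : S.xn = 2 * S.h) (E : R →+* ℝ) (W v : R) (i : ℕ) {s m κ c : ℝ} {ω : Fin 3 → ℝ}
    (hm : 0 ≤ m) (hW : E W = s ^ 2 * m) (hD : ∀ a, E (S.D a W) = s * m * ω a)
    (hω : ∀ a, |ω a| ≤ κ) (hβ : ∀ a b, |s * E (S.B a b)| ≤ κ)
    (hr : E (S.dr W) ≤ m * ((2 * i - 2) * s ^ 2 + c)) :
    2 * E (W * S.dd2 v) + E (W * S.Pi i v ^ 2) / 2 ≤ 4 * E (W * S.Mi i v ^ 2)
      - E (S.dv (S.e2Y W i v)) + (1044 * κ ^ 2 + 2 * c) * (m * E (S.gam v v)) := by
  have id := congrArg E (H.e2_id hs W i v)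
  have k2 := mul_le_mul_of_nonneg_left (e2_real (P := s * E (S.Pi i v)) (d := fun a => E (S.D a v))
    (Q := fun a b => s * E (S.D a (S.D b v))) hω hβ) hm
  have g0 : 0 ≤ E (S.gam v v) := by
    rw [Pre.gam, map_sum]
    exact Finset.sum_nonneg fun a _ => by rw [map_mul]; exact mul_self_nonneg _
  have k4 := mul_le_mul_of_nonneg_left hr g0
  have k5 : 0 ≤ m * ((s * E S.h) ^ 2 * E (S.gam v v)) := by positivity
  have e1 : S.gam W (S.gam v v) = ∑ a, S.D a W *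
      ∑ b, (S.D b v * S.D a (S.D b v) + S.D a (S.D b v) * S.D b v) := by
    rw [Pre.gam.eq_1 _ W]; simp only [H.D_gam]
  rw [e1] at id
  simp only [map_add, map_sub, map_mul, map_pow, map_ofNat, map_natCast, map_one] at id ⊢
  generalize E (S.dv _) = z at id ⊢
  generalize E (S.dr W) = y at id k4
  generalize E (S.Mi i v) = M at id ⊢
  generalize S.Pi i v = P at id k2 ⊢
  simp only [Mov.dd2, Mov.qf, Mov.B2, Mov.h, Pre.lap, Pre.gam, map_add, map_mul, hW, hD,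
    Fin.sum_univ_three] at id k2 k4 k5 ⊢
  linarith

variable {X : Type} [TopologicalSpace X] [MeasurableSpace X]

namespace Geo

variable (G : Geo X)

/-- evaluation at a point -/
def evp (p : X) : G.R →+* ℝ := (Pi.evalRingHom (fun _ : X => ℝ) p).comp G.M.val

theorem evp_eq (p : X) (f : G.R) : f.1 p = G.evp p f := rfl

theorem iota_pos (p : X) : 0 < G.ι.1 p := by
  have h : G.ρ.1 p * G.ι.1 p = 1 := congrArg (fun f : G.R => f.1 p) G.ρι
  exact pos_of_mul_pos_of_pos_left' h (G.one_le p)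
where
  pos_of_mul_pos_of_pos_left' {a b : ℝ} (h : a * b = 1) (ha : 1 ≤ a) : 0 < b := by
    by_contra hb
    nlinarith [not_lt.1 hb]

theorem exists_B : ∃ C : ℝ, 0 ≤ C ∧ ∀ a b p, |(G.S.B a b).1 p| ≤ C * G.ι.1 p := by
  choose C hC using fun a b => G.symn b [a]
  refine ⟨∑ a, ∑ b, |C a b|, by positivity, fun a b p => (hC a b p).trans ?_⟩
  have h : G.ρ.1 p * G.ι.1 p = 1 := congrArg (fun f : G.R => f.1 p) G.ρι
  have e : G.ρ.1 p ^ ((0 : ℤ) - ([a].length : ℕ)) = G.ι.1 p := by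
    simp [eq_inv_of_mul_eq_one_right h]
  rw [e]
  refine mul_le_mul_of_nonneg_right ((le_abs_self _).trans ?_) (G.iota_pos p).le
  exact (Finset.single_le_sum (fun b _ => abs_nonneg (C a b)) (Finset.mem_univ b)).trans
    (Finset.single_le_sum (f := fun a => ∑ b, |C a b|) (fun a _ => by positivity)
      (Finset.mem_univ a))

/-- the pointwise second order inequality for the weight `s² m` -/
theorem e2_pt (i : ℕ) (K : ℝ) : ∃ C : ℝ, 0 ≤ C ∧ ∀ (s τ v : G.R) (p : X), 0 ≤ τ.1 p →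
    |s.1 p| * G.ι.1 p ≤ τ.1 p → (∀ a, |(G.S.D a s).1 p| ≤ K * τ.1 p) →
    s.1 p * (G.S.dr s).1 p ≤ (i + 1) * s.1 p ^ 2 + K * τ.1 p ^ 2 →
    2 * (s ^ 2 * G.m * G.S.dd2 v).1 p + (s ^ 2 * G.m * G.S.Pi i v ^ 2).1 p / 2 ≤
      4 * (s ^ 2 * G.m * G.S.Mi i v ^ 2).1 p - (G.S.dv (G.S.e2Y (s ^ 2 * G.m) i v)).1 p
        + C * (τ ^ 2 * G.m * G.S.gam v v).1 p := by
  obtain ⟨C1, h1, hB⟩ := G.exists_B
  obtain ⟨C2, h2⟩ := G.Dm
  obtain ⟨C3, h3⟩ := G.drm
  refine ⟨1044 * (C1 + 2 * |K| + |C2|) ^ 2 + 4 * |K| + 2 * |C3|, by positivity,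
    fun s τ v p hτ hs hD hr => ?_⟩
  have H := G.hyp
  have hm := G.m_pos p
  have hι := G.iota_pos p
  have hK : K * τ.1 p ≤ |K| * τ.1 p := mul_le_mul_of_nonneg_right (le_abs_self _) hτ
  have DW : ∀ a, G.S.D a (s ^ 2 * G.m) = s * (2 * G.m * G.S.D a s + s * G.S.D a G.m) := fun a => by
    rw [H.mul, H.toIsDS.D_sq]; ring
  have drW : G.S.dr (s ^ 2 * G.m) = 2 * G.m * (s * G.S.dr s) + s ^ 2 * G.S.dr G.m := by
    simp only [Mov.dr, DW, Finset.mul_sum, ← Finset.sum_add_distrib]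
    exact Finset.sum_congr rfl fun a _ => by ring
  have b3 : (s.1 p * G.ι.1 p) ^ 2 ≤ τ.1 p ^ 2 := by
    rw [← sq_abs, abs_mul, abs_of_pos hι]
    exact pow_le_pow_left₀ (by positivity) hs 2
  have key := e2_abs H G.shr (G.evp p) (s ^ 2 * G.m) v i (s := s.1 p) (m := G.m.1 p)
    (κ := (C1 + 2 * |K| + |C2|) * τ.1 p) (c := (2 * |K| + |C3|) * τ.1 p ^ 2)
    (ω := fun a => 2 * (G.S.D a s).1 p + s.1 p * (G.S.D a G.m).1 p / G.m.1 p) hm.le
    (by rw [map_mul, map_pow]; rfl) (fun a => ?_) (fun a => ?_) (fun a b => ?_) ?_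
  · have e : (τ ^ 2 * G.m * G.S.gam v v).1 p = τ.1 p ^ 2 * G.m.1 p * G.evp p (G.S.gam v v) := by
      rw [evp_eq, map_mul, map_mul, map_pow]; rfl
    rw [e]
    refine key.trans (le_of_eq ?_)
    simp only [← evp_eq]
    ring
  · rw [DW]
    simp only [map_add, map_mul, map_ofNat, ← evp_eq]
    field_simp
  · refine (abs_add_le _ _).trans ?_
    have b1 : |2 * (G.S.D a s).1 p| ≤ 2 * (|K| * τ.1 p) := by
      rw [abs_mul, abs_two]; linarith [hD a]
    have b2 : |s.1 p * (G.S.D a G.m).1 p / G.m.1 p| ≤ |C2| * τ.1 p := by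
      rw [abs_div, abs_of_pos hm, div_le_iff₀ hm, abs_mul]
      have c1 := mul_le_mul_of_nonneg_left ((h2 a p).trans (mul_le_mul_of_nonneg_right
        (mul_le_mul_of_nonneg_right (le_abs_self C2) hι.le) hm.le)) (abs_nonneg (s.1 p))
      linarith [mul_le_mul_of_nonneg_left hs (mul_nonneg (abs_nonneg C2) hm.le)]
    linarith [mul_nonneg h1 hτ]
  · rw [abs_mul, ← evp_eq]
    linarith [mul_le_mul_of_nonneg_left (hB a b p) (abs_nonneg (s.1 p)),
      mul_le_mul_of_nonneg_left hs h1, mul_nonneg (abs_nonneg K) hτ, mul_nonneg (abs_nonneg C2) hτ]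
  · have b1 := mul_le_mul_of_nonneg_left (h3 p) (sq_nonneg (s.1 p))
    have b2 := mul_le_mul_of_nonneg_left hr hm.le
    have b4 : C3 * (s.1 p * G.ι.1 p) ^ 2 ≤ |C3| * τ.1 p ^ 2 :=
      mul_le_mul (le_abs_self _) b3 (sq_nonneg _) (abs_nonneg _)
    have b5 : K * τ.1 p ^ 2 ≤ |K| * τ.1 p ^ 2 :=
      mul_le_mul_of_nonneg_right (le_abs_self _) (sq_nonneg _)
    rw [drW]
    simp only [map_add, map_mul, map_pow, map_ofNat, ← evp_eq]
    linarith [mul_le_mul_of_nonneg_left b4 hm.le, mul_le_mul_of_nonneg_left b5 hm.le]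

end Geo

end WS

end Crest.Agent.N250

end
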