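import Crest.Agent.N250.Wt.Cut
import Crest.Agent.N250.Wt.E2a

/-!
# Row 250, weighted theory (helper23): the second order estimate `E2S`
-/

set_option autoImplicit false
open MeasureTheory Set Filter Topology
open scoped ContDiff ENNReal NNReal

noncomputable section

namespace Crest.Agent.N250.WS.Geo

open Crest.Agent.N222

variable {X : Type} [TopologicalSpace X] [MeasurableSpace X] (G : Geo X)

theorem D_pow_succ (f : G.R) (a : Fin 3) (i : ℕ) :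
    G.S.D a (f ^ (i + 1)) = ((i : G.R) + 1) * f ^ i * G.S.D a f := by
  induction i with
  | zero => simp
  | succ i ih => rw [pow_succ, G.hyp.mul, ih]; push_cast; ring

theorem e2_weight (i : ℕ) : ∃ K : ℝ, ∀ k p,
    |(G.chi k * G.ρ ^ (i + 1)).1 p| * G.ι.1 p ≤ (G.ρ ^ i).1 p ∧
    (∀ a, |(G.S.D a (G.chi k * G.ρ ^ (i + 1))).1 p| ≤ K * (G.ρ ^ i).1 p) ∧
    (G.chi k * G.ρ ^ (i + 1)).1 p * (G.S.dr (G.chi k * G.ρ ^ (i + 1))).1 p ≤
      (i + 1) * (G.chi k * G.ρ ^ (i + 1)).1 p ^ 2 + K * (G.ρ ^ i).1 p ^ 2 := by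
  obtain ⟨C1, hC1, h1⟩ := G.D_chi_le
  obtain ⟨C2, h2⟩ := G.drρ
  have h3 := fun a => (G.sy_ρ.D a).bd
  choose C3 hC3 h3 using h3
  have hS : 0 ≤ ∑ a, C3 a := Finset.sum_nonneg fun a _ => hC3 a
  refine ⟨(i + 1) * (∑ a, C3 a + |C2|) + C1, fun k p => ?_⟩
  have r0 := G.ρ_pos p
  have ri := G.ρι_ev p
  have i0 := G.ι_pos p
  have c0 := G.chi_nonneg k p
  have c1 := G.chi_le k p
  have rp : 0 < G.ρ.1 p ^ i := pow_pos r0 i
  have hi : (0 : ℝ) ≤ i + 1 := by positivity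
  have e0 : (G.chi k * G.ρ ^ (i + 1)).1 p = (G.chi k).1 p * (G.ρ.1 p ^ i * G.ρ.1 p) := by
    rw [← ev_apply, map_mul, map_pow, pow_succ]; rfl
  have e1 : (G.ρ ^ i).1 p = G.ρ.1 p ^ i := by rw [← ev_apply, map_pow]; rfl
  have e2 : ∀ a, (G.S.D a (G.chi k * G.ρ ^ (i + 1))).1 p =
      (G.chi k).1 p * ((i + 1) * G.ρ.1 p ^ i * (G.S.D a G.ρ).1 p) +
        (G.S.D a (G.chi k)).1 p * (G.ρ.1 p ^ i * G.ρ.1 p) := fun a => by
    rw [← ev_apply, G.hyp.mul, D_pow_succ]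
    simp only [map_add, map_mul, map_pow, map_natCast, map_one, pow_succ]; rfl
  rw [e0, e1]
  refine ⟨?_, fun a => ?_, ?_⟩
  · rw [abs_of_nonneg (by positivity)]
    calc _ = (G.chi k).1 p * G.ρ.1 p ^ i * (G.ρ.1 p * G.ι.1 p) := by ring
      _ ≤ _ := by rw [ri, mul_one]; exact mul_le_of_le_one_left rp.le c1
  · have a1 : |(G.S.D a G.ρ).1 p| ≤ ∑ a, C3 a := by
      have := h3 a p
      rw [sub_self, zpow_zero, mul_one] at this
      exact this.trans (Finset.single_le_sum (fun a _ => hC3 a) (Finset.mem_univ a))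
    have a2 : |(G.S.D a (G.chi k)).1 p| * G.ρ.1 p ≤ C1 := by
      calc _ ≤ C1 * G.ι.1 p * G.ρ.1 p := mul_le_mul_of_nonneg_right (h1 k a p) r0.le
        _ = C1 := by rw [mul_assoc, mul_comm (G.ι.1 p), ri, mul_one]
    rw [e2]
    refine (abs_add_le _ _).trans ?_
    rw [abs_mul, abs_mul, abs_mul (G.S.D a (G.chi k) |>.1 p), abs_of_nonneg c0,
      abs_of_nonneg (mul_nonneg hi rp.le), abs_of_nonneg (mul_nonneg rp.le r0.le)]
    have b1 : (G.chi k).1 p * ((i + 1) * G.ρ.1 p ^ i * |(G.S.D a G.ρ).1 p|) ≤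
        (i + 1) * G.ρ.1 p ^ i * ∑ a, C3 a :=
      (mul_le_of_le_one_left (by positivity) c1).trans
        (mul_le_mul_of_nonneg_left a1 (by positivity))
    have b2 := mul_le_mul_of_nonneg_left a2 rp.le
    have b3 : 0 ≤ (i + 1) * G.ρ.1 p ^ i * |C2| := by positivity
    nlinarith
  · have e3 : (G.S.dr (G.chi k * G.ρ ^ (i + 1))).1 p =
        (G.chi k).1 p * ((i + 1) * G.ρ.1 p ^ i * (G.S.dr G.ρ).1 p) +
          (G.S.dr (G.chi k)).1 p * (G.ρ.1 p ^ i * G.ρ.1 p) := by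
      simp only [dr_pt, e2, Fin.sum_univ_three]; ring
    have a1 : G.ρ.1 p * (G.S.dr G.ρ).1 p ≤ G.ρ.1 p ^ 2 + |C2| := by
      have := (le_abs_self _).trans (h2 p)
      have h4 : C2 * G.ι.1 p * G.ρ.1 p ≤ |C2| := by
        rw [mul_assoc, mul_comm (G.ι.1 p), ri, mul_one]; exact le_abs_self _
      nlinarith [mul_le_mul_of_nonneg_right this r0.le]
    have a2 : (G.chi k).1 p * (G.ρ.1 p ^ i * G.ρ.1 p) *
        ((G.S.dr (G.chi k)).1 p * (G.ρ.1 p ^ i * G.ρ.1 p)) ≤ 0 :=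
      mul_nonpos_of_nonneg_of_nonpos (by positivity)
        (mul_nonpos_of_nonpos_of_nonneg (G.dr_chi k p) (by positivity))
    have a3 := mul_le_mul_of_nonneg_left a1
      (show 0 ≤ (G.chi k).1 p ^ 2 * (i + 1) * (G.ρ.1 p ^ i) ^ 2 by positivity)
    have a4 : (G.chi k).1 p ^ 2 * ((i + 1) * (G.ρ.1 p ^ i) ^ 2 * |C2|) ≤
        (i + 1) * (G.ρ.1 p ^ i) ^ 2 * |C2| :=
      mul_le_of_le_one_left (by positivity) (pow_le_one₀ c0 c1)
    have a5 : 0 ≤ ((i + 1) * ∑ a, C3 a + C1) * (G.ρ.1 p ^ i) ^ 2 := by positivity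
    rw [e3]
    nlinarith

variable [BorelSpace X] [T2Space X] [SecondCountableTopology X]

theorem e2S : G.E2S := by
  intro i
  obtain ⟨K, hK⟩ := G.e2_weight i
  obtain ⟨C, hC, h⟩ := G.e2_pt i K
  obtain ⟨c, hc⟩ : ∃ c : ℝ≥0, 4 * C = (c : ℝ) ^ 2 :=
    ⟨⟨√(4 * C), Real.sqrt_nonneg _⟩, (Real.sq_sqrt (by positivity)).symm⟩
  refine ⟨10 * c, fun v => ?_⟩
  have eg : ∀ p, (G.S.gam v v).1 p = ∑ a, (G.S.D a v).1 p ^ 2 := fun p => by
    rw [← ev_apply, Pre.gam, map_sum]; simp only [map_mul, sq]; rfl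
  have ed : ∀ p, (G.S.dd2 v).1 p = ∑ a, ∑ b, (G.S.D a (G.S.D b v)).1 p ^ 2 := fun p => by
    rw [← ev_apply, Mov.dd2, map_sum]; simp only [map_sum, map_mul, sq]; rfl
  have d0 : ∀ p, 0 ≤ (G.S.dd2 v).1 p := fun p => by rw [ed]; positivity
  have ms : ∀ f : G.R, Measurable fun p => f.1 p ^ 2 * G.m.1 p := fun f =>
    ((G.meas_R _).pow_const 2).mul (G.meas_R _)
  have n0 : ∀ (f : G.R) p, 0 ≤ f.1 p ^ 2 * G.m.1 p := fun f p =>
    mul_nonneg (sq_nonneg _) (G.m_pos p).le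
  have key : ∀ (f : G.R), (∀ p, f.1 p ^ 2 ≤ 8 * (G.S.dd2 v).1 p + 2 * (G.S.Pi i v).1 p ^ 2) →
      G.nR (G.ρ ^ (i + 1) * f) ≤ 4 * G.nR (G.ρ ^ (i + 1) * G.S.Mi i v) +
        c * ∑ a, G.nR (G.ρ ^ i * G.S.D a v) := by
    intro f hf
    refine le_of_sq_le (G.nR_sq_le_of_chi _ fun k => ?_)
    have cs : ∀ g : G.R, HasCompactSupport (G.chi k * g).1 := fun g => (G.chi_cs k).mul_right
    have step := G.lint_le (a := fun p => (G.chi k * (G.ρ ^ (i + 1) * f)).1 p ^ 2 * G.m.1 p)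
      (b := fun p => 16 * ((G.ρ ^ (i + 1) * G.S.Mi i v).1 p ^ 2 * G.m.1 p) +
        ∑ a, (c : ℝ) ^ 2 * ((G.ρ ^ i * G.S.D a v).1 p ^ 2 * G.m.1 p))
      (by
        have := G.intg_cs (cs (G.ρ ^ (i + 1) * f * (G.chi k * (G.ρ ^ (i + 1) * f)) * G.m))
        refine this.congr (Eventually.of_forall fun p => ?_)
        show (G.chi k).1 p * ((G.ρ ^ (i + 1) * f).1 p * ((G.chi k).1 p * (G.ρ ^ (i + 1) * f).1 p)
          * G.m.1 p) = ((G.chi k).1 p * (G.ρ ^ (i + 1) * f).1 p) ^ 2 * _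
        ring)
      (n0 _) ((measurable_const.mul (ms _)).add
        (Finset.measurable_fun_sum _ fun a _ => measurable_const.mul (ms _)))
      (fun p => add_nonneg (mul_nonneg (by norm_num) (n0 _ p))
        (Finset.sum_nonneg fun a _ => mul_nonneg (sq_nonneg _) (n0 _ p)))
      (Y := G.S.e2Y ((G.chi k * G.ρ ^ (i + 1)) ^ 2 * G.m) i v)
      (fun a => by
        rw [Mov.e2Y, sq, mul_assoc, mul_assoc, mul_assoc]; exact cs _)
      (G.hyp.tan_e2Y _ i v) (c := -4) fun p => ?_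
    · rw [nR_sq]
      refine step.trans ?_
      have e : ∀ p, ENNReal.ofReal (16 * ((G.ρ ^ (i + 1) * G.S.Mi i v).1 p ^ 2 * G.m.1 p) +
          ∑ a, (c : ℝ) ^ 2 * ((G.ρ ^ i * G.S.D a v).1 p ^ 2 * G.m.1 p)) =
          16 * ENNReal.ofReal ((G.ρ ^ (i + 1) * G.S.Mi i v).1 p ^ 2 * G.m.1 p) +
          ∑ a, (c : ℝ≥0∞) ^ 2 * ENNReal.ofReal ((G.ρ ^ i * G.S.D a v).1 p ^ 2 * G.m.1 p) := by
        intro p
        rw [ENNReal.ofReal_add (mul_nonneg (by norm_num) (n0 _ p))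
          (Finset.sum_nonneg fun a _ => mul_nonneg (sq_nonneg _) (n0 _ p)),
          ENNReal.ofReal_sum_of_nonneg fun a _ => mul_nonneg (sq_nonneg _) (n0 _ p),
          ENNReal.ofReal_mul (by norm_num), ENNReal.ofReal_ofNat]
        simp only [ENNReal.ofReal_mul (sq_nonneg (c : ℝ)), ENNReal.ofReal_pow (NNReal.coe_nonneg c),
          ENNReal.ofReal_coe_nnreal]
      simp only [e]
      rw [lintegral_add_left ((ms _).ennreal_ofReal.const_mul _),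
        lintegral_const_mul _ (ms _).ennreal_ofReal,
        lintegral_finsetSum _ fun a _ => (ms _).ennreal_ofReal.const_mul _]
      simp only [lintegral_const_mul _ (ms _).ennreal_ofReal, ← nR_sq, Fin.sum_univ_three]
      generalize G.nR (G.ρ ^ (i + 1) * G.S.Mi i v) = A
      generalize G.nR (G.ρ ^ i * G.S.D 0 v) = B0
      generalize G.nR (G.ρ ^ i * G.S.D 1 v) = B1
      generalize G.nR (G.ρ ^ i * G.S.D 2 v) = B2
      exact le_of_le_of_eq (le_self_add (b := 8 * A * c * (B0 + B1 + B2) +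
        2 * c ^ 2 * (B0 * B1 + B0 * B2 + B1 * B2))) (by ring)
    · obtain ⟨k1, k2, k3⟩ := hK k p
      have h1 := h (G.chi k * G.ρ ^ (i + 1)) (G.ρ ^ i) v p
        (by rw [← ev_apply, map_pow]; exact pow_nonneg (G.ρ_pos p).le i) k1 k2 k3
      have c0 := G.chi_nonneg k p
      have c1 := G.chi_le k p
      have m0 := G.m_pos p
      have h2 := mul_le_mul_of_nonneg_left (hf p)
        (show 0 ≤ ((G.chi k).1 p * G.ρ.1 p ^ (i + 1)) ^ 2 * G.m.1 p by positivity)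
      have h3 : (G.chi k).1 p ^ 2 * ((G.ρ.1 p ^ (i + 1) * (G.S.Mi i v).1 p) ^ 2 * G.m.1 p) ≤
          (G.ρ.1 p ^ (i + 1) * (G.S.Mi i v).1 p) ^ 2 * G.m.1 p :=
        mul_le_of_le_one_left (by positivity) (pow_le_one₀ c0 c1)
      have h4 := eg p
      simp only [← ev_apply, map_mul, map_pow, Fin.sum_univ_three, ← hc] at h1 h2 h3 h4 ⊢
      rw [h4] at h1
      nlinarith
  have k1 := key (G.S.Pi i v) fun p => by nlinarith [d0 p, sq_nonneg ((G.S.Pi i v).1 p)]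
  have k2 := fun a b => key (G.S.D a (G.S.D b v)) fun p => by
    have h1 : (G.S.D a (G.S.D b v)).1 p ^ 2 ≤ (G.S.dd2 v).1 p := by
      rw [ed]
      exact (Finset.single_le_sum (f := fun b => (G.S.D a (G.S.D b v)).1 p ^ 2)
        (fun _ _ => sq_nonneg _) (Finset.mem_univ b)).trans (Finset.single_le_sum
          (f := fun a => ∑ b, (G.S.D a (G.S.D b v)).1 p ^ 2)
          (fun _ _ => Finset.sum_nonneg fun _ _ => sq_nonneg _) (Finset.mem_univ a))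
    nlinarith [d0 p, sq_nonneg ((G.S.Pi i v).1 p)]
  refine (add_le_add k1 (Finset.sum_le_sum fun a _ => Finset.sum_le_sum fun b _ => k2 a b)).trans ?_
  generalize G.nR (G.ρ ^ (i + 1) * G.S.Mi i v) = A
  generalize ∑ a, G.nR (G.ρ ^ i * G.S.D a v) = B
  simp only [Fin.sum_univ_three]
  push_cast
  exact le_of_le_of_eq (le_self_add (b := 60 * A)) (by ring)

end Crest.Agent.N250.WS.Geo

end
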