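import Crest.Agent.N250.Wt.Defs

/-!
# Row 250 (helper61): the weighted estimate at all levels, `LevS`
-/

set_option autoImplicit false
set_option linter.unusedSectionVars false
open MeasureTheory Set Filter Topology
open scoped ContDiff ENNReal NNReal

noncomputable section

namespace Crest.Agent.N250.WS

open Crest.Agent.N222

namespace Lev

/-- domination up to a constant -/
def Dom {α : Type} (A B : α → ℝ≥0∞) : Prop := ∃ C : ℝ≥0, ∀ u, A u ≤ C * B u

section Dom

variable {α : Type} {A A' B B' : α → ℝ≥0∞}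

theorem Dom.of_le (h : ∀ u, A u ≤ B u) : Dom A B := ⟨1, fun u => by simpa using h u⟩

theorem Dom.trans (h : Dom A B) (h' : Dom B B') : Dom A B' := by
  obtain ⟨C, hC⟩ := h
  obtain ⟨D, hD⟩ := h'
  refine ⟨C * D, fun u => (hC u).trans ?_⟩
  rw [ENNReal.coe_mul, mul_assoc]
  gcongr
  exact hD u

theorem Dom.add (h : Dom A B) (h' : Dom A' B) : Dom (fun u => A u + A' u) B := by
  obtain ⟨C, hC⟩ := h
  obtain ⟨D, hD⟩ := h'
  refine ⟨C + D, fun u => ?_⟩
  rw [ENNReal.coe_add, add_mul]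
  exact add_le_add (hC u) (hD u)

theorem Dom.cmul (c : ℝ≥0) (h : Dom A B) : Dom (fun u => c * A u) B :=
  Dom.trans ⟨c, fun _ => le_rfl⟩ h

theorem Dom.zero : Dom (fun _ => 0) B := Dom.of_le fun _ => zero_le

theorem Dom.sum {κ : Type} (s : Finset κ) {F : κ → α → ℝ≥0∞} (h : ∀ i ∈ s, Dom (F i) B) :
    Dom (fun u => ∑ i ∈ s, F i u) B := by
  classical
  induction s using Finset.induction_on with
  | empty => simpa using Dom.zero
  | insert a s ha ih =>
    simp only [Finset.sum_insert ha]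
    exact (h a (by simp)).add (ih fun i hi => h i (by simp [hi]))

theorem Dom.sumW {ι : Type} [Fintype ι] (k : ℕ) {F : List ι → α → ℝ≥0∞}
    (h : ∀ l, l.length = k → Dom (F l) B) : Dom (fun u => sumW k fun l => F l u) B := by
  induction k generalizing F with
  | zero => exact h [] rfl
  | succ k ih =>
    exact Dom.sum (F := fun a u => N250.sumW k fun w => F (a :: w) u) _ fun a _ =>
      ih fun w hw => h _ (by simp [hw])

end Dom

section SumW

variable {ι : Type} [Fintype ι]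

theorem sumW_mono (k : ℕ) {F G : List ι → ℝ≥0∞} (h : ∀ w, w.length = k → F w ≤ G w) :
    sumW k F ≤ sumW k G := by
  induction k generalizing F G with
  | zero => exact h [] rfl
  | succ k ih => exact Finset.sum_le_sum fun a _ => ih fun w hw => h _ (by simp [hw])

theorem le_sumW' (F : List ι → ℝ≥0∞) (w : List ι) : F w ≤ sumW w.length F := by
  induction w generalizing F with
  | nil => exact le_rfl
  | cons a w ih =>
    refine (ih fun w => F (a :: w)).trans ?_
    exact Finset.single_le_sum (f := fun a => sumW w.length fun w => F (a :: w))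
      (fun a _ => zero_le) (Finset.mem_univ a)

theorem sumW_cmul (c : ℝ≥0∞) (k : ℕ) (F : List ι → ℝ≥0∞) :
    sumW k (fun w => c * F w) = c * sumW k F :=
  (map_sumW (AddMonoidHom.mulLeft c) k F).symm

end SumW

variable {X : Type} [TopologicalSpace X] [MeasurableSpace X] (G : Geo X)

theorem Dw_append (l w : List (Fin 3)) (f : G.R) :
    G.S.Dw (l ++ w) f = G.S.Dw l (G.S.Dw w f) := by
  induction l with
  | nil => rfl
  | cons a l ih => simp only [List.cons_append, Mov.Dw, ih]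

variable {G}

theorem sy_D {k : ℤ} {s : G.R} (h : G.Sy k s) (a : Fin 3) : G.Sy (k - 1) (G.S.D a s) := by
  intro l
  obtain ⟨C, hC⟩ := h (l ++ [a])
  refine ⟨C, fun p => ?_⟩
  have := hC p
  rw [Dw_append] at this
  have e : k - 1 - (l.length : ℤ) = k - ((l ++ [a]).length : ℤ) := by
    simp only [List.length_append, List.length_singleton]
    push_cast
    ring
  rw [e]
  exact this

theorem nR_le {f g : G.R} {C : ℝ} (h : ∀ p, |f.1 p| ≤ C * |g.1 p|) :
    G.nR f ≤ C.toNNReal * G.nR g :=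
  eLpNorm_le_mul_eLpNorm_of_ae_le_mul (Eventually.of_forall fun p => by simpa using h p) 2

theorem nR_zero : G.nR 0 = 0 := eLpNorm_zero

variable (G) in
/-- sums of `s * D^w`, `s` of order `m + |w|`, `|w| < k` -/
inductive Op : ℤ → ℕ → (G.R → G.R) → Prop
  | zero (m : ℤ) (k : ℕ) : Op m k fun _ => 0
  | term (m : ℤ) (k : ℕ) (s : G.R) (w : List (Fin 3)) : G.Sy (m + w.length) s → w.length < k →
      Op m k fun g => s * G.S.Dw w g
  | add (m : ℤ) (k : ℕ) (A B : G.R → G.R) : Op m k A → Op m k B → Op m k fun g => A g + B g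

theorem D_zero (a : Fin 3) : G.S.D a 0 = 0 := by
  simpa using G.hyp.const a 0

theorem Op.D {m : ℤ} {k : ℕ} {A : G.R → G.R} (h : Op G m k A) (a : Fin 3) :
    Op G (m - 1) (k + 1) fun g => G.S.D a (A g) := by
  induction h with
  | zero => simpa only [D_zero] using Op.zero _ _
  | term s w hs hw =>
    simp only [G.hyp.mul]
    refine Op.add _ _ _ _ (Op.term _ _ s (a :: w) ?_ (by simpa using hw))
      (Op.term _ _ _ w ?_ (by omega))
    · convert hs using 1
      simp
    · convert sy_D hs a using 1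
      ring
  | add A B _ _ ihA ihB =>
    simp only [G.hyp.add]
    exact Op.add _ _ _ _ ihA ihB

/-- Leibniz rule with a symbol -/
theorem leib {m : ℤ} {s : G.R} (hs : G.Sy m s) (l : List (Fin 3)) :
    ∃ A, Op G (m - l.length) l.length A ∧ ∀ g, G.S.Dw l (s * g) = s * G.S.Dw l g + A g := by
  induction l with
  | nil => exact ⟨_, Op.zero _ _, fun g => by simp [Mov.Dw]⟩
  | cons a l ih =>
    obtain ⟨A, hA, h⟩ := ih
    refine ⟨fun g => G.S.D a s * G.S.Dw l g + G.S.D a (A g), Op.add _ _ _ _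
      (Op.term _ _ _ l ?_ (by simp)) ?_, fun g => ?_⟩
    · convert sy_D hs a using 1
      simp only [List.length_cons]
      push_cast
      ring
    · have e : m - ((a :: l).length : ℤ) = m - l.length - 1 := by
        simp only [List.length_cons]
        push_cast
        ring
      rw [e]
      exact hA.D a
    · simp only [Mov.Dw, h, G.hyp.add, G.hyp.mul]
      ring

variable [BorelSpace X]

theorem nR_add (f g : G.R) : G.nR (f + g) ≤ G.nR f + G.nR g :=
  eLpNorm_add_le (Imm.Sm.continuous f.2).aestronglyMeasurable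
    (Imm.Sm.continuous g.2).aestronglyMeasurable (by norm_num)

theorem Op.dom {m : ℤ} {k : ℕ} {A : G.R → G.R} (h : Op G m k A) {n : ℕ} (hn : m + n = 0) :
    Dom (fun g => G.nR (G.ρ ^ n * A g)) fun g => ∑ j ∈ Finset.range k, G.Ar j g := by
  induction h with
  | zero => simpa only [mul_zero, nR_zero] using Dom.zero
  | term s w hs hw =>
    obtain ⟨C, hC⟩ := hs []
    refine Dom.trans (B := fun g => G.nR (G.ρ ^ w.length * G.S.Dw w g))
      ⟨C.toNNReal, fun g => nR_le fun p => ?_⟩ (Dom.of_le fun g => ?_)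
    · have h1 := hC p
      have h0 : 0 < G.ρ.1 p := one_pos.trans_le (G.one_le p)
      simp only [Mov.Dw, List.length_nil, Nat.cast_zero, sub_zero] at h1
      have e : G.ρ.1 p ^ n * G.ρ.1 p ^ (m + (w.length : ℤ)) = G.ρ.1 p ^ w.length := by
        rw [← zpow_natCast, ← zpow_add₀ h0.ne', ← zpow_natCast]
        congr 1
        omega
      show |G.ρ.1 p ^ n * (s.1 p * (G.S.Dw w g).1 p)| ≤ C * |G.ρ.1 p ^ w.length * (G.S.Dw w g).1 p|
      rw [abs_mul, abs_mul, abs_mul, abs_of_pos (pow_pos h0 _), abs_of_pos (pow_pos h0 _), ← e]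
      calc G.ρ.1 p ^ n * (|s.1 p| * |(G.S.Dw w g).1 p|)
          ≤ G.ρ.1 p ^ n * (C * G.ρ.1 p ^ (m + (w.length : ℤ)) * |(G.S.Dw w g).1 p|) := by gcongr
        _ = _ := by ring
    · refine (le_sumW' (fun l => G.nR (G.ρ ^ w.length * G.S.Dw l g)) w).trans ?_
      exact Finset.single_le_sum (f := fun j => G.Ar j g) (fun _ _ => zero_le)
        (Finset.mem_range.2 hw)
  | add A B _ _ ihA ihB =>
    refine Dom.trans (Dom.of_le fun g => ?_) (ihA.add ihB)
    rw [mul_add]
    exact nR_add _ _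

theorem U_two (k : ℕ) (u : G.R) : G.U (k + 2) u =
    sumW k fun l => ∑ a, ∑ b, G.nR (G.ρ ^ (k + 1) * G.S.D a (G.S.D b (G.S.Dw l u))) := by
  have e : G.ρ ^ (k + 2) * G.ι = G.ρ ^ (k + 1) := by rw [pow_succ, mul_assoc, G.ρι, mul_one]
  simp only [Geo.U, sumW, Mov.Dw, e, sumW_sum]

theorem U_one (k : ℕ) (u : G.R) : G.U (k + 1) u =
    sumW k fun l => ∑ a, G.nR (G.ρ ^ k * G.S.D a (G.S.Dw l u)) := by
  have e : G.ρ ^ (k + 1) * G.ι = G.ρ ^ k := by rw [pow_succ, mul_assoc, G.ρι, mul_one]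
  simp only [Geo.U, sumW, Mov.Dw, e, sumW_sum]

/-- one level -/
theorem step (hC : G.ComS) (h2 : G.E2S) (k : ℕ) : ∃ E : G.R → ℝ≥0∞,
    Dom E (fun u => ∑ j ∈ Finset.range k, G.Ar j (G.ρ * G.S.LL u)
      + ∑ j ∈ Finset.range (k + 2), G.U j u) ∧
    ∀ u, G.U (k + 2) u + G.T k u ≤ 100 * G.Ar k (G.ρ * G.S.LL u) + E u := by
  obtain ⟨C, hC2⟩ := h2 k
  choose A hA hl using fun l => leib G.symι l
  refine ⟨fun u => (100 : ℝ≥0) * (sumW k fun l => G.nR (G.ρ ^ (k + 1) * A l (G.ρ * G.S.LL u))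
      + G.nR (G.ρ ^ (k + 1) * (G.S.Mi k (G.S.Dw l u) - G.S.Dw l (G.S.LL u))))
      + C * G.U (k + 1) u, ?_, fun u => ?_⟩
  · refine Dom.add (Dom.cmul _ (Dom.sumW k fun l hl => Dom.add ?_ ?_)) (Dom.cmul _ ?_)
    · obtain ⟨D, hD⟩ := (hA l).dom (n := k + 1) (by rw [hl]; push_cast; ring)
      refine ⟨D, fun u => (hD _).trans ?_⟩
      rw [hl]
      gcongr
      exact le_self_add
    · subst hl
      exact Dom.trans (hC l) (Dom.of_le fun u => le_add_self)
    · refine Dom.of_le fun u => le_trans ?_ le_add_self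
      exact Finset.single_le_sum (f := fun j => G.U j u) (fun _ _ => zero_le) (by simp)
  · beta_reduce
    rw [U_two, U_one, Geo.T, Geo.Ar, ← sumW_add, ← sumW_cmul, ← sumW_cmul, ← sumW_cmul,
      ← sumW_add, ← sumW_add]
    refine sumW_mono k fun l _ => ?_
    rw [add_comm]
    refine (hC2 _).trans ?_
    rw [← add_assoc, ENNReal.coe_ofNat, ← mul_add]
    gcongr
    have e1 : G.S.LL u = G.ι * (G.ρ * G.S.LL u) := by rw [← mul_assoc, mul_comm G.ι, G.ρι, one_mul]
    have e2 : G.ρ ^ (k + 1) * G.ι = G.ρ ^ k := by rw [pow_succ, mul_assoc, G.ρι, mul_one]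
    have e : G.ρ ^ (k + 1) * G.S.Mi k (G.S.Dw l u) = G.ρ ^ k * G.S.Dw l (G.ρ * G.S.LL u)
        + (G.ρ ^ (k + 1) * A l (G.ρ * G.S.LL u)
          + G.ρ ^ (k + 1) * (G.S.Mi k (G.S.Dw l u) - G.S.Dw l (G.S.LL u))) := by
      have := hl l (G.ρ * G.S.LL u)
      rw [← e1] at this
      rw [this, ← e2]
      ring
    rw [e]
    exact (nR_add _ _).trans (add_le_add le_rfl (nR_add _ _))

theorem base (h0 : G.E0S) : Dom (fun u => ∑ j ∈ Finset.range 2, G.U j u)
    fun u => G.Ar 0 (G.ρ * G.S.LL u) + G.gR u := by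
  obtain ⟨C, hC⟩ := h0
  refine ⟨C, fun u => ?_⟩
  have := hC u
  simpa [Finset.sum_range_succ, U_one, Geo.U, Geo.Ar, sumW, Mov.Dw, G.ρι] using this

theorem all (hC : G.ComS) (h2 : G.E2S) (h0 : G.E0S) (k : ℕ) :
    Dom (fun u => ∑ j ∈ Finset.range (k + 3), G.U j u)
      fun u => ∑ j ∈ Finset.range (k + 1), G.Ar j (G.ρ * G.S.LL u) + G.gR u := by
  have key : ∀ k : ℕ, Dom (fun u => ∑ j ∈ Finset.range (k + 2), G.U j u)
      (fun u => ∑ j ∈ Finset.range (k + 1), G.Ar j (G.ρ * G.S.LL u) + G.gR u) →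
      Dom (fun u => ∑ j ∈ Finset.range (k + 3), G.U j u)
      fun u => ∑ j ∈ Finset.range (k + 1), G.Ar j (G.ρ * G.S.LL u) + G.gR u := by
    intro k hk
    obtain ⟨E, hE, h⟩ := step hC h2 k
    simp only [Finset.sum_range_succ _ (k + 2)]
    refine hk.add (Dom.trans (Dom.of_le fun u => le_self_add.trans (h u)) (Dom.add ?_ ?_))
    · refine Dom.cmul 100 (Dom.of_le fun u => ?_)
      rw [Finset.sum_range_succ]
      exact le_add_self.trans le_self_add
    · refine hE.trans (Dom.add (Dom.of_le fun u => ?_) hk)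
      rw [Finset.sum_range_succ]
      exact le_self_add.trans le_self_add
  induction k with
  | zero => exact key 0 (by simpa using base h0)
  | succ k ih =>
    refine key (k + 1) (ih.trans (Dom.of_le fun u => ?_))
    rw [Finset.sum_range_succ _ (k + 1)]
    exact add_le_add le_self_add le_rfl

end Lev

open Lev in
theorem Geo.levS_of {X : Type} [TopologicalSpace X] [MeasurableSpace X] [BorelSpace X] (G : Geo X)
    (hC : G.ComS) (h2 : G.E2S) (h0 : G.E0S) : G.LevS := by
  have hU : ∀ (k : ℕ) (u : G.R), G.U 1 u + G.U 0 u ≤ ∑ j ∈ Finset.range (k + 2), G.U j u := by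
    intro k u
    refine le_trans (le_of_eq ?_) (Finset.sum_le_sum_of_subset (s := Finset.range 2)
      (Finset.range_subset_range.2 (by omega)))
    simp [Finset.sum_range_succ, add_comm]
  obtain ⟨E₀, hE₀, h₀⟩ := step hC h2 0
  obtain ⟨C₀, hC₀⟩ : Dom (fun u => E₀ u + (G.U 1 u + G.U 0 u))
      fun u => G.Ar 0 (G.ρ * G.S.LL u) + G.gR u :=
    Dom.add (hE₀.trans (by simpa using base h0)) (Dom.trans (Dom.of_le (hU 0)) (base h0))
  refine ⟨100 + C₀, fun k => ?_⟩
  rcases k with _ | k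
  · refine ⟨C₀, fun u => ?_⟩
    rw [add_assoc]
    refine (add_le_add (h₀ u) le_rfl).trans ?_
    rw [add_assoc]
    refine (add_le_add le_rfl (hC₀ u)).trans (le_of_eq ?_)
    simp only [ENNReal.coe_add, ENNReal.coe_ofNat, Finset.range_zero, Finset.sum_empty, zero_add]
    ring
  · obtain ⟨E, hE, h⟩ := step hC h2 (k + 1)
    obtain ⟨C, hC'⟩ : Dom (fun u => E u + (G.U 1 u + G.U 0 u))
        fun u => ∑ j ∈ Finset.range (k + 1), G.Ar j (G.ρ * G.S.LL u) + G.gR u :=
      Dom.add (hE.trans (Dom.add (Dom.of_le fun u => le_self_add) (all hC h2 h0 k)))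
        (Dom.trans (Dom.of_le (hU (k + 1))) (all hC h2 h0 k))
    refine ⟨C, fun u => ?_⟩
    rw [add_assoc]
    refine (add_le_add (h u) le_rfl).trans ?_
    rw [add_assoc]
    refine add_le_add ?_ (hC' u)
    gcongr
    rw [ENNReal.coe_add, ENNReal.coe_ofNat]
    exact le_self_add

end Crest.Agent.N250.WS

end
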