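import Crest.Agent.N250.Wt.Main0
import Crest.Agent.N250.Wt.Cx

/-!
# Row 250, weighted theory (helper44): the main estimate
-/

set_option autoImplicit false
set_option linter.unusedSectionVars false
open MeasureTheory Set Filter Topology
open scoped ContDiff ENNReal NNReal

noncomputable section

namespace Crest.Agent.N250

open Crest.Agent.N222

namespace WS

namespace Geo

variable {X : Type} [TopologicalSpace X] [MeasurableSpace X] [BorelSpace X] {G : Geo X}

theorem mn_lvA (j : ℕ) : G.Lv (G.Ar j) (G.Ac j) := by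
  have := G.nm_n.lv (G.ρ ^ j) j
  rw [map_pow] at this
  exact this

theorem mn_lvS (j : ℕ) : G.Lv (G.Sr j) (G.Sc j) := by
  have := G.nm_sup.lv (G.ρ ^ j) j
  rw [map_pow] at this
  exact this

theorem mn_jets_le {A' : G.R → ℝ≥0∞} {A : G.SmC → ℝ≥0∞} (h : G.Lv A' A) (u : G.SmC) :
    G.jets A u ≤ G.jR A' (G.re u) + G.jR A' (G.im u) := by
  unfold jets jR
  have h0 := h.le_re_im (G.oR (G.ζ * G.ι) * u)
  rw [re_oR_mul, im_oR_mul] at h0
  have h1 : ∑ a, A (G.oR G.ζ * G.SC.D a u) ≤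
      ∑ a, A' (G.ζ * G.S.D a (G.re u)) + ∑ a, A' (G.ζ * G.S.D a (G.im u)) := by
    rw [← Finset.sum_add_distrib]
    refine Finset.sum_le_sum fun a _ => ?_
    have := h.le_re_im (G.oR G.ζ * G.SC.D a u)
    rwa [re_oR_mul, im_oR_mul, re_D, im_D] at this
  have h2 : ∑ a, ∑ b, A (G.oR (G.ζ * G.ρ) * G.SC.D a (G.SC.D b u)) ≤
      ∑ a, ∑ b, A' (G.ζ * G.ρ * G.S.D a (G.S.D b (G.re u))) +
        ∑ a, ∑ b, A' (G.ζ * G.ρ * G.S.D a (G.S.D b (G.im u))) := by
    rw [← Finset.sum_add_distrib]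
    refine Finset.sum_le_sum fun a _ => ?_
    rw [← Finset.sum_add_distrib]
    refine Finset.sum_le_sum fun b _ => ?_
    have := h.le_re_im (G.oR (G.ζ * G.ρ) * G.SC.D a (G.SC.D b u))
    rwa [re_oR_mul, im_oR_mul, re_D, im_D, re_D, im_D] at this
  refine (add_le_add (add_le_add h0 h1) h2).trans (le_of_eq ?_)
  ring

theorem mn_jets_lev (k : ℕ) (u : G.SmC) : G.jets (G.lev k) u =
    G.jets (G.Ac k) u + if 5 ≤ k then G.jets (G.Sc (k - 5)) u else 0 := by
  unfold jets lev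
  split_ifs
  · simp only [Finset.sum_add_distrib]; ring
  · simp

theorem Bk_re (k : ℕ) (u : G.SmC) :
    G.Bk k (G.re u) ≤ G.low k (G.oR G.ρ * G.SC.LL u) + G.gC u := by
  refine add_le_add (Finset.sum_le_sum fun j _ => le_add_right ?_) (G.nm_g.re_le u)
  rw [← re_LL, ← re_oR_mul]
  exact (mn_lvA j).re_le _

theorem Bk_im (k : ℕ) (u : G.SmC) :
    G.Bk k (G.im u) ≤ G.low k (G.oR G.ρ * G.SC.LL u) + G.gC u := by
  refine add_le_add (Finset.sum_le_sum fun j _ => le_add_right ?_) (G.nm_g.im_le u)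
  rw [← im_LL, ← im_oR_mul]
  exact (mn_lvA j).im_le _

/-- the main estimate -/
theorem mainS_of (hL : G.LevS) (hS : G.SupS) : G.MainS := by
  obtain ⟨C₀, h⟩ := main_real hL hS
  refine ⟨2 * C₀, fun k => ?_⟩
  obtain ⟨C, hC⟩ := h k
  refine ⟨2 * C, fun u => ?_⟩
  have a1 : G.Ar k (G.ρ * G.S.LL (G.re u)) ≤ G.lev k (G.oR G.ρ * G.SC.LL u) := by
    rw [← re_LL, ← re_oR_mul]
    exact le_add_right ((mn_lvA k).re_le _)
  have a2 : G.Ar k (G.ρ * G.S.LL (G.im u)) ≤ G.lev k (G.oR G.ρ * G.SC.LL u) := by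
    rw [← im_LL, ← im_oR_mul]
    exact le_add_right ((mn_lvA k).im_le _)
  have b1 := (hC (G.re u)).trans
    (add_le_add (mul_le_mul_right a1 _) (mul_le_mul_right (Bk_re k u) _))
  have b2 := (hC (G.im u)).trans
    (add_le_add (mul_le_mul_right a2 _) (mul_le_mul_right (Bk_im k u) _))
  refine le_trans ?_ ((add_le_add b1 b2).trans (le_of_eq (by push_cast; ring)))
  rw [mn_jets_lev]
  have c1 := mn_jets_le (mn_lvA (G := G) k) u
  have c2 := mn_jets_le (mn_lvS (G := G) (k - 5)) u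
  split_ifs
  · exact (add_le_add c1 c2).trans (le_of_eq (by ring))
  · simpa using c1

end Geo

end WS

end Crest.Agent.N250

end
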