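import Crest.Agent.N250.Wt.Sup
import Crest.Agent.N250.Wt.Main
import Crest.Agent.N250.Wt.E0
import Crest.Agent.N250.Wt.E2
import Crest.Agent.N250.Wt.Com
import Crest.Agent.N250.Wt.Lev

/-!
# Row 250 (helper84): the weighted estimates, closed
-/

set_option autoImplicit false

namespace Crest.Agent.N250.WS.Geo

variable {X : Type} [TopologicalSpace X] [MeasurableSpace X] [BorelSpace X] [T2Space X]
  [SecondCountableTopology X] (G : Geo X)

theorem levS : G.LevS := G.levS_of G.comS G.e2S G.e0S

theorem mainS : G.MainS := G.mainS_of G.levS G.supS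

end Crest.Agent.N250.WS.Geo
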