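import Crest.Agent.N250.Wt.Base
import Crest.Agent.N250.FV.Hu2

/-!
# Row 250, weighted theory (helper23): cut-offs, `L²(dm)` as a lower integral, integrated inequalities
-/

set_option autoImplicit false
open MeasureTheory Set Filter Topology
open scoped ContDiff ENNReal NNReal

noncomputable section

namespace Crest.Agent.N250.WS.Geo

open Crest.Agent.N222

variable {X : Type} [TopologicalSpace X] [MeasurableSpace X] (G : Geo X)

theorem nn_pt (p : X) : ∑ a, (G.n a).1 p * (G.n a).1 p = 1 := by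
  have := congrArg (G.ev p) G.hyp.nn
  rwa [map_sum, map_one] at this

theorem x2_pt (p : X) : G.S.x2.1 p = ∑ a, (G.S.x a).1 p * (G.S.x a).1 p := by
  rw [← ev_apply, Mov.x2, map_sum]; rfl

theorem xn_pt (p : X) : G.S.xn.1 p = ∑ a, (G.S.x a).1 p * (G.n a).1 p := by
  rw [← ev_apply, Mov.xn, map_sum]; rfl

theorem dr_pt (f : G.R) (p : X) : (G.S.dr f).1 p = ∑ a, (G.S.x a).1 p * (G.S.D a f).1 p := by
  rw [← ev_apply, Mov.dr, map_sum]; rfl

theorem D_x2_pt (a : Fin 3) (p : X) :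
    (G.S.D a G.S.x2).1 p = 2 * ((G.S.x a).1 p - G.S.xn.1 p * (G.n a).1 p) :=
  congrArg (G.ev p) (G.hyp.D_x2 a)

theorem sum_D_x2_sq (p : X) :
    ∑ a, (G.S.D a G.S.x2).1 p ^ 2 = 4 * (G.S.x2.1 p - G.S.xn.1 p ^ 2) := by
  have h1 := G.nn_pt p
  have h2 := G.xn_pt p
  simp only [D_x2_pt, x2_pt, Fin.sum_univ_three] at h1 h2 ⊢
  linear_combination 4 * G.S.xn.1 p ^ 2 * h1 + 8 * G.S.xn.1 p * h2

theorem xn_sq_le' (p : X) : G.S.xn.1 p ^ 2 ≤ G.S.x2.1 p := by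
  have h := G.sum_D_x2_sq p
  have : 0 ≤ ∑ a, (G.S.D a G.S.x2).1 p ^ 2 := Finset.sum_nonneg fun _ _ => sq_nonneg _
  linarith

theorem D_x2_sq_le (a : Fin 3) (p : X) : (G.S.D a G.S.x2).1 p ^ 2 ≤ 4 * G.S.x2.1 p := by
  have h := G.sum_D_x2_sq p
  have := Finset.single_le_sum (f := fun a => (G.S.D a G.S.x2).1 p ^ 2)
    (fun _ _ => sq_nonneg _) (Finset.mem_univ a)
  nlinarith [sq_nonneg (G.S.xn.1 p)]

theorem dr_x2_pt (p : X) : (G.S.dr G.S.x2).1 p = 2 * (G.S.x2.1 p - G.S.xn.1 p ^ 2) := by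
  have h2 := G.xn_pt p
  simp only [dr_pt, D_x2_pt, x2_pt, Fin.sum_univ_three] at h2 ⊢
  linear_combination 2 * G.S.xn.1 p * h2

/-- the cut-off `η (|x|² / (k + 1))` -/
def chi (k : ℕ) : G.R :=
  ⟨fun p => Hu.eta (1 / ((k : ℝ) + 1) * G.S.x2.1 p),
    Imm.Sm.comp (M := G.M) G.S.x2.2 (Hu.eta_sm.comp (contDiff_const.mul contDiff_id))⟩

theorem chi_nonneg (k : ℕ) (p : X) : 0 ≤ (G.chi k).1 p := Hu.eta_nonneg _

theorem chi_le (k : ℕ) (p : X) : (G.chi k).1 p ≤ 1 := Hu.eta_le _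

theorem chi_mono (p : X) : Monotone fun k => (G.chi k).1 p := fun _ _ h =>
  Hu.eta_anti (mul_le_mul_of_nonneg_right (Nat.one_div_le_one_div h) (G.x2_nonneg p))

theorem chi_ev (p : X) : ∀ᶠ k in atTop, (G.chi k).1 p = 1 := by
  have h : Tendsto (fun k : ℕ => 1 / ((k : ℝ) + 1) * G.S.x2.1 p) atTop (𝓝 (0 * _)) :=
    tendsto_one_div_add_atTop_nhds_zero_nat.mul_const _
  filter_upwards [h.eventually (ge_mem_nhds (show 0 * G.S.x2.1 p < 1 by simp))] with k hk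
  exact Hu.eta_one hk

theorem chi_cs [T2Space X] (k : ℕ) : HasCompactSupport (G.chi k).1 := by
  refine HasCompactSupport.intro (G.prop (2 * ((k : ℝ) + 1))) fun p hp => Hu.eta_zero ?_
  have h : 2 * ((k : ℝ) + 1) < G.S.x2.1 p := not_le.1 hp
  rw [one_div_mul_eq_div, le_div_iff₀ (by positivity)]
  exact h.le

theorem D_chi (k : ℕ) (a : Fin 3) (p : X) : (G.S.D a (G.chi k)).1 p =
    deriv Hu.eta (1 / ((k : ℝ) + 1) * G.S.x2.1 p) * (1 / ((k : ℝ) + 1)) *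
      (G.S.D a G.S.x2).1 p := by
  have h := ((Hu.eta_sm.differentiable (by simp) _).hasDerivAt).comp (G.S.x2.1 p)
    ((hasDerivAt_id (G.S.x2.1 p)).const_mul (1 / ((k : ℝ) + 1)))
  rw [mul_one] at h
  exact Imm.D_comp (Imm.Sm.diffAt (M := G.M) G.S.x2.2 p) h a

theorem dr_chi (k : ℕ) (p : X) : (G.S.dr (G.chi k)).1 p ≤ 0 := by
  have h : (G.S.dr (G.chi k)).1 p = deriv Hu.eta (1 / ((k : ℝ) + 1) * G.S.x2.1 p) *
      (1 / ((k : ℝ) + 1) * (G.S.dr G.S.x2).1 p) := by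
    simp only [dr_pt, D_chi, Fin.sum_univ_three]; ring
  rw [h, dr_x2_pt]
  exact mul_nonpos_of_nonpos_of_nonneg Hu.eta_anti.deriv_nonpos
    (mul_nonneg (by positivity) (by linarith [G.xn_sq_le' p]))

theorem D_chi_le : ∃ C : ℝ, 0 ≤ C ∧ ∀ k a p, |(G.S.D a (G.chi k)).1 p| ≤ C * G.ι.1 p := by
  obtain ⟨C, hC, h⟩ := Hu.eta_bd
  refine ⟨5 * C, by positivity, fun k a p => ?_⟩
  have hι := G.ι_pos p
  have ht := G.x2_nonneg p
  have he : 0 < 1 / ((k : ℝ) + 1) := Nat.one_div_pos_of_nat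
  have he1 : 1 / ((k : ℝ) + 1) ≤ 1 := by
    rw [div_le_one (by positivity)]; linarith [Nat.cast_nonneg (α := ℝ) k]
  rw [D_chi]
  generalize 1 / ((k : ℝ) + 1) = e at he he1
  rcases le_or_gt (e * G.S.x2.1 p) 2 with h2 | h2
  · have b1 := (h _ (mul_nonneg he.le ht)).1
    have b2 : |e * (G.S.D a G.S.x2).1 p| ≤ 5 * G.ι.1 p := by
      refine abs_le_of_sq_le_sq ?_ (by positivity)
      have c1 := G.D_x2_sq_le a p
      have c2 := G.ρ_le p
      have c3 := G.ρι_ev p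
      have c4 : e ^ 2 * (4 * G.S.x2.1 p) * G.ρ.1 p ^ 2 ≤ 25 := by
        have : e ^ 2 * (4 * G.S.x2.1 p) * G.ρ.1 p ^ 2 ≤
            e ^ 2 * (4 * G.S.x2.1 p) * (1 + G.S.x2.1 p) :=
          mul_le_mul_of_nonneg_left c2 (by positivity)
        nlinarith [mul_nonneg he.le ht, mul_le_mul h2 he1 he.le zero_le_two,
          mul_le_mul h2 h2 (mul_nonneg he.le ht) zero_le_two]
      calc (e * (G.S.D a G.S.x2).1 p) ^ 2 ≤ e ^ 2 * (4 * G.S.x2.1 p) := by
            rw [mul_pow]; exact mul_le_mul_of_nonneg_left c1 (sq_nonneg _)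
        _ = e ^ 2 * (4 * G.S.x2.1 p) * G.ρ.1 p ^ 2 * G.ι.1 p ^ 2 := by
            rw [mul_assoc _ (G.ρ.1 p ^ 2), ← mul_pow, c3]; ring
        _ ≤ _ := by rw [mul_pow]; exact mul_le_mul_of_nonneg_right (by linarith) (sq_nonneg _)
    rw [mul_assoc, abs_mul]
    calc _ ≤ C * (5 * G.ι.1 p) := mul_le_mul b1 b2 (abs_nonneg _) hC
      _ = _ := by ring
  · have e0 : Hu.eta =ᶠ[𝓝 (e * G.S.x2.1 p)] fun _ => 0 := by
      filter_upwards [Ioi_mem_nhds h2] with v hv using Hu.eta_zero (le_of_lt hv)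
    rw [e0.deriv_eq]
    simp only [deriv_const', zero_mul, abs_zero]
    positivity

variable [BorelSpace X]

theorem meas_R (f : G.R) : Measurable f.1 := (Imm.Sm.continuous (M := G.M) f.2).measurable

theorem nR_sq (f : G.R) :
    G.nR f ^ 2 = ∫⁻ p, ENNReal.ofReal (f.1 p ^ 2 * G.m.1 p) ∂G.M.mu := by
  have h := eLpNorm_nnreal_pow_eq_lintegral (f := f.1) (μ := G.dm) (p := 2) two_ne_zero
  simp only [ENNReal.coe_ofNat, NNReal.coe_ofNat, ENNReal.rpow_ofNat] at h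
  rw [nR, h, dm, lintegral_withDensity_eq_lintegral_mul _ (G.meas_R _).ennreal_ofReal
    ((G.meas_R f).enorm.pow_const 2)]
  refine lintegral_congr fun p => ?_
  rw [Pi.mul_apply, ENNReal.ofReal_mul (sq_nonneg _), mul_comm, ← ofReal_norm,
    ← ENNReal.ofReal_pow (norm_nonneg _), Real.norm_eq_abs, sq_abs]

theorem le_of_sq_le {a b : ℝ≥0∞} (h : a ^ 2 ≤ b ^ 2) : a ≤ b :=
  (ENNReal.pow_le_pow_left_iff two_ne_zero).1 h

/-- bounds for all cut-offs give the bound -/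
theorem nR_sq_le_of_chi (f : G.R) {B : ℝ≥0∞} (h : ∀ k, G.nR (G.chi k * f) ^ 2 ≤ B) :
    G.nR f ^ 2 ≤ B := by
  simp only [nR_sq] at h ⊢
  refine le_of_tendsto' (lintegral_tendsto_of_tendsto_of_monotone (fun k => ?_)
    (Eventually.of_forall fun p k l hkl => ?_)
    (Eventually.of_forall fun p => tendsto_const_nhds.congr' ?_)) h
  · exact (((G.meas_R _).pow_const 2).mul (G.meas_R _)).ennreal_ofReal.aemeasurable
  · refine ENNReal.ofReal_le_ofReal (mul_le_mul_of_nonneg_right ?_ (G.m_pos p).le)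
    show ((G.chi k).1 p * f.1 p) ^ 2 ≤ ((G.chi l).1 p * f.1 p) ^ 2
    rw [mul_pow, mul_pow]
    exact mul_le_mul_of_nonneg_right
      (pow_le_pow_left₀ (G.chi_nonneg k p) (G.chi_mono p hkl) 2) (sq_nonneg _)
  · filter_upwards [G.chi_ev p] with k hk
    show _ = ENNReal.ofReal (((G.chi k).1 p * f.1 p) ^ 2 * _)
    rw [hk, one_mul]

variable [T2Space X] [SecondCountableTopology X]

theorem int_dv {Y : Fin 3 → G.R} (hc : ∀ a, HasCompactSupport (Y a).1) (hT : G.S.Tan Y) :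
    Integrable (G.S.dv Y).1 G.M.mu ∧ ∫ p, (G.S.dv Y).1 p ∂G.M.mu = 0 := by
  have e : (G.S.dv Y).1 = G.M.pre.dv fun a => (Y a).1 := G.M.hom.dv Y
  have c1 : ∀ a, G.M.C1 (Y a).1 := fun a => Imm.Sm.c1 (Y a).2
  rw [e]
  refine ⟨?_, Imm.integral_dv_tan c1 hc fun a => ?_⟩
  · have := integrable_finsetSum Finset.univ fun a _ => (c1 a).integrable_D (hc a) a
    refine this.congr (Eventually.of_forall fun p => ?_)
    simp only [Pre.dv, Finset.sum_apply]
  · have := congrArg G.M.val (hT a)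
    rw [map_sum] at this
    exact this

/-- integrating a pointwise inequality with a divergence term -/
theorem lint_le {a b : X → ℝ} (ha : Integrable a G.M.mu) (ha0 : ∀ p, 0 ≤ a p) (hb : Measurable b)
    (hb0 : ∀ p, 0 ≤ b p) {Y : Fin 3 → G.R} (hc : ∀ a, HasCompactSupport (Y a).1) (hT : G.S.Tan Y)
    {c : ℝ} (h : ∀ p, a p ≤ b p + c * (G.S.dv Y).1 p) :
    ∫⁻ p, ENNReal.ofReal (a p) ∂G.M.mu ≤ ∫⁻ p, ENNReal.ofReal (b p) ∂G.M.mu := by
  rcases eq_or_ne (∫⁻ p, ENNReal.ofReal (b p) ∂G.M.mu) ⊤ with h' | h'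
  · rw [h']; exact le_top
  have ib : Integrable b G.M.mu :=
    (lintegral_ofReal_ne_top_iff_integrable hb.aestronglyMeasurable
      (Eventually.of_forall hb0)).1 h'
  obtain ⟨i1, i2⟩ := G.int_dv hc hT
  rw [← ofReal_integral_eq_lintegral_ofReal ha (Eventually.of_forall ha0),
    ← ofReal_integral_eq_lintegral_ofReal ib (Eventually.of_forall hb0)]
  refine ENNReal.ofReal_le_ofReal ((integral_mono ha (ib.add (i1.const_mul c)) h).trans_eq ?_)
  rw [integral_add' ib (i1.const_mul c), integral_const_mul, i2, mul_zero, add_zero]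

omit [T2Space X] in
theorem intg_cs {f : G.R} (hc : HasCompactSupport f.1) : Integrable f.1 G.M.mu :=
  (Imm.Sm.continuous (M := G.M) f.2).integrable_of_hasCompactSupport hc

end Crest.Agent.N250.WS.Geo

end
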