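import Crest.Agent.N250.Wt.Defs
import Crest.Agent.N222.F.Basic

/-!
# Row 250, weighted theory: products in tame form (helper3)
-/

set_option autoImplicit false
open MeasureTheory Set Filter Topology Finset
open scoped ContDiff ENNReal NNReal

noncomputable section

namespace Crest.Agent.N250.WS

open Crest.Agent.N222

namespace MulP

section abstract

variable {ι : Type} [Fintype ι]

theorem sumW_mono (k : ℕ) {F F' : List ι → ℝ≥0∞} (h : ∀ w, F w ≤ F' w) : sumW k F ≤ sumW k F' := by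
  induction k generalizing F F' with
  | zero => exact h []
  | succ k ih => exact Finset.sum_le_sum fun a _ => ih fun w => h _

theorem sumW_prod (i j : ℕ) (A B : List ι → ℝ≥0∞) :
    (sumW i fun l => sumW j fun l' => A l * B l') = sumW i A * sumW j B := by
  have h : ∀ l, (sumW j fun l' => A l * B l') = A l * sumW j B := fun l =>
    (map_sumW (AddMonoidHom.mulLeft (A l)) j B).symm
  simp only [h]
  exact (map_sumW (AddMonoidHom.mulRight (sumW j B)) i A).symm

/-- the Leibniz rule, summed over all words -/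
theorem leib {R : Type} [CommRing R] (S : Mov R ι) (ha : ∀ a f g, S.D a (f + g) = S.D a f + S.D a g)
    (hm : ∀ a f g, S.D a (f * g) = f * S.D a g + S.D a f * g) (f g : R) (k : ℕ) :
    ∀ Φ : R → ℝ≥0∞, (∀ x y, Φ (x + y) ≤ Φ x + Φ y) → (sumW k fun l => Φ (S.Dw l (f * g))) ≤
      ∑ ij ∈ antidiagonal k, (k.choose ij.1 : ℝ≥0∞) *
        sumW ij.1 fun l => sumW ij.2 fun l' => Φ (S.Dw l f * S.Dw l' g) := by
  induction k with
  | zero => intro Φ _; simp [sumW, Mov.Dw]
  | succ k ih =>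
    intro Φ hΦ
    rw [sum_antidiagonal_choose_succ_mul
      (fun i j => sumW i fun l => sumW j fun l' => Φ (S.Dw l f * S.Dw l' g)), ← sum_add_distrib]
    refine (Finset.sum_le_sum fun a _ => ih (fun x => Φ (S.D a x)) fun x y => by
      rw [ha]; exact hΦ _ _).trans ?_
    rw [Finset.sum_comm]
    refine Finset.sum_le_sum fun ij hij => ?_
    rw [← Nat.choose_symm_of_eq_add (mem_antidiagonal.1 hij).symm, ← mul_add, ← Finset.mul_sum]
    gcongr
    simp only [sumW, sumW_sum, ← sum_add_distrib, ← sumW_add]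
    refine Finset.sum_le_sum fun a _ => sumW_mono _ fun l => sumW_mono _ fun l' => ?_
    rw [hm]
    exact hΦ _ _

/-- the sum of the binomial coefficients -/
def cb (k : ℕ) : ℕ := ∑ ij ∈ antidiagonal k, k.choose ij.1

theorem all_le {k : ℕ} {P : ℕ → ℕ → ℝ≥0∞} {B : ℝ≥0∞} (h : ∀ i j, i + j = k → P i j ≤ B) :
    ∑ ij ∈ antidiagonal k, (k.choose ij.1 : ℝ≥0∞) * P ij.1 ij.2 ≤ cb k * B := by
  rw [cb, Nat.cast_sum, Finset.sum_mul]
  exact Finset.sum_le_sum fun ij hij => mul_le_mul_right (h _ _ (mem_antidiagonal.1 hij)) _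

theorem ends_le {k : ℕ} {P : ℕ → ℕ → ℝ≥0∞} {B : ℝ≥0∞}
    (h : ∀ i j, i + j = k → 0 < i → 0 < j → P i j ≤ B) :
    ∑ ij ∈ antidiagonal k, (k.choose ij.1 : ℝ≥0∞) * P ij.1 ij.2 ≤ P k 0 + P 0 k + cb k * B := by
  have e : ∀ (x : ℕ × ℕ) (c : ℝ≥0∞), ∑ ij ∈ antidiagonal k, (if ij = x then c else 0) ≤ c :=
    fun x c => by rw [Finset.sum_ite_eq']; split_ifs <;> simp
  refine le_trans ?_ (add_le_add (add_le_add (e (k, 0) _) (e (0, k) _))
    (all_le (P := fun _ _ => B) fun _ _ _ => le_rfl))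
  rw [← sum_add_distrib, ← sum_add_distrib]
  refine Finset.sum_le_sum fun ⟨i, j⟩ hij => ?_
  have hk : i + j = k := mem_antidiagonal.1 hij
  rcases Nat.eq_zero_or_pos j with rfl | hj
  · obtain rfl : i = k := hk
    simp only [Nat.choose_self, Nat.cast_one, one_mul, if_true, add_assoc]
    exact le_self_add
  rcases Nat.eq_zero_or_pos i with rfl | hi
  · obtain rfl : j = k := by omega
    simp only [Nat.choose_zero_right, Nat.cast_one, one_mul, if_true]
    exact le_add_self.trans le_self_add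
  exact (mul_le_mul_right (h i j hk hi hj) _).trans le_add_self

end abstract

variable {X : Type} [TopologicalSpace X] [MeasurableSpace X] (G : Geo X)

open Geo

theorem re_add (f g : G.SmC) : G.re (f + g) = G.re f + G.re g :=
  Subtype.ext (funext fun _ => Complex.add_re _ _)

theorem im_add (f g : G.SmC) : G.im (f + g) = G.im f + G.im g :=
  Subtype.ext (funext fun _ => Complex.add_im _ _)

theorem re_mul (f g : G.SmC) : G.re (f * g) = G.re f * G.re g + -1 * (G.im f * G.im g) :=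
  Subtype.ext (funext fun p => by
    change (f.1 p * g.1 p).re = (f.1 p).re * (g.1 p).re + -1 * ((f.1 p).im * (g.1 p).im)
    rw [Complex.mul_re]; ring)

theorem im_mul (f g : G.SmC) : G.im (f * g) = G.re f * G.im g + G.im f * G.re g :=
  Subtype.ext (funext fun _ => Complex.mul_im _ _)

theorem re_im (f : G.SmC) : G.oR (G.re f) + Complex.I • G.oR (G.im f) = f :=
  Subtype.ext (funext fun p => by
    change ((f.1 p).re : ℂ) + Complex.I * (f.1 p).im = f.1 p
    rw [mul_comm, Complex.re_add_im])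

theorem SC_add (a : Fin 3) (f g : G.SmC) : G.SC.D a (f + g) = G.SC.D a f + G.SC.D a g := by
  simp only [SC, re_add, im_add, G.hyp.add, map_add, smul_add]
  abel

theorem SC_mul (a : Fin 3) (f g : G.SmC) :
    G.SC.D a (f * g) = f * G.SC.D a g + G.SC.D a f * g := by
  have h1 : G.S.D a (-1) = 0 := by simpa using G.hyp.const a (-1)
  have hI : (algebraMap ℂ G.SmC Complex.I) ^ 2 = -1 := by rw [← map_pow, Complex.I_sq]; simp
  have hf := re_im G f
  have hg := re_im G g
  simp only [SC, re_mul, im_mul, G.hyp.add, G.hyp.mul, h1, map_add, map_mul, map_neg, map_one,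
    zero_mul, add_zero, Algebra.smul_def] at hf hg ⊢
  generalize algebraMap ℂ G.SmC Complex.I = I at *
  generalize G.oR (G.re f) = f1 at *
  generalize G.oR (G.im f) = f2 at *
  generalize G.oR (G.re g) = g1 at *
  generalize G.oR (G.im g) = g2 at *
  subst hf hg
  linear_combination (-(f2 * G.oR (G.S.D a (G.im (g1 + I * g2)))) -
    G.oR (G.S.D a (G.im (f1 + I * f2))) * g2) * hI

theorem le_sC (f : G.SmC) (p : X) : ‖f.1 p‖ₑ ≤ G.sC f := le_iSup (fun p => ‖f.1 p‖ₑ) p

theorem sC_add (f g : G.SmC) : G.sC (f + g) ≤ G.sC f + G.sC g :=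
  iSup_le fun p => (enorm_add_le _ _).trans (add_le_add (le_sC G f p) (le_sC G g p))

theorem sC_mul (f g : G.SmC) : G.sC (f * g) ≤ G.sC f * G.sC g :=
  iSup_le fun p => (enorm_mul (f.1 p) (g.1 p)).trans_le (mul_le_mul' (le_sC G f p) (le_sC G g p))

theorem Ac_le (j : ℕ) (f : G.SmC) : G.Ac j f ≤ G.lev j f := le_self_add

theorem Sc_le (j : ℕ) (f : G.SmC) : G.Sc j f ≤ G.lev (j + 5) f := by
  rw [lev, if_pos (by omega), Nat.add_sub_cancel]
  exact le_add_self

theorem lev_le {j n : ℕ} (h : j < n) (f : G.SmC) : G.lev j f ≤ G.low n f :=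
  Finset.single_le_sum (f := fun j => G.lev j f) (fun _ _ => zero_le) (mem_range.2 h)

/-- Leibniz for a subadditive functional, with the weights distributed -/
theorem leibG (N : G.SmC → ℝ≥0∞) (hN : ∀ x y, N (x + y) ≤ N x + N y) (k : ℕ) (f g : G.SmC) :
    (sumW k fun l => N (G.oR G.ρ ^ k * G.SC.Dw l (f * g))) ≤
      ∑ ij ∈ antidiagonal k, (k.choose ij.1 : ℝ≥0∞) * sumW ij.1 fun l => sumW ij.2 fun l' =>
        N (G.oR G.ρ ^ ij.1 * G.SC.Dw l f * (G.oR G.ρ ^ ij.2 * G.SC.Dw l' g)) := by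
  refine (leib G.SC (SC_add G) (SC_mul G) f g k (fun x => N (G.oR G.ρ ^ k * x)) fun x y => by
    rw [mul_add]; exact hN _ _).trans_eq (Finset.sum_congr rfl fun ij hij => ?_)
  simp only [← mem_antidiagonal.1 hij, pow_add, mul_mul_mul_comm]

variable [BorelSpace X]

theorem aesm (f : G.SmC) (μ : Measure X) : AEStronglyMeasurable f.1 μ :=
  (Imm.Sm.continuous f.2).measurable.aestronglyMeasurable

theorem nC_add (f g : G.SmC) : G.nC (f + g) ≤ G.nC f + G.nC g :=
  eLpNorm_add_le (aesm G f _) (aesm G g _) one_le_two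

theorem nC_mul (f g : G.SmC) : G.nC (f * g) ≤ G.sC f * G.nC g :=
  eLpNorm_le_mul_eLpNorm_of_ae_le_mul'' 2 (aesm G g _) (.of_forall fun p =>
    (enorm_mul (f.1 p) (g.1 p)).trans_le (mul_le_mul_left (le_sC G f p) _))

theorem nC_mul' (f g : G.SmC) : G.nC (f * g) ≤ G.nC f * G.sC g := by
  rw [mul_comm f, mul_comm (G.nC f)]; exact nC_mul G g f

end MulP

variable {X : Type} [TopologicalSpace X] [MeasurableSpace X] [BorelSpace X]

open MulP Geo in
theorem Geo.mulS (G : Geo X) : G.MulS := by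
  intro k
  refine ⟨cb k + cb (k - 5), fun f g => ?_⟩
  let P (N : G.SmC → ℝ≥0∞) (i j : ℕ) : ℝ≥0∞ := sumW i fun l => sumW j fun l' =>
    N (G.oR G.ρ ^ i * G.SC.Dw l f * (G.oR G.ρ ^ j * G.SC.Dw l' g))
  have p1 : ∀ i j, P G.nC i j ≤ G.Ac i f * G.Sc j g := fun i j =>
    (sumW_mono _ fun _ => sumW_mono _ fun _ => nC_mul' G _ _).trans_eq (sumW_prod _ _ _ _)
  have p2 : ∀ i j, P G.nC i j ≤ G.Sc i f * G.Ac j g := fun i j =>
    (sumW_mono _ fun _ => sumW_mono _ fun _ => nC_mul G _ _).trans_eq (sumW_prod _ _ _ _)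
  have p3 : ∀ i j, P G.sC i j ≤ G.Sc i f * G.Sc j g := fun i j =>
    (sumW_mono _ fun _ => sumW_mono _ fun _ => sC_mul G _ _).trans_eq (sumW_prod _ _ _ _)
  have A : ∀ {j n} (f : G.SmC), j < n → G.Ac j f ≤ G.low n f := fun f h =>
    (Ac_le G _ f).trans (lev_le G h f)
  have B : ∀ {j n} (f : G.SmC), j + 5 < n → G.Sc j f ≤ G.low n f := fun f h =>
    (Sc_le G _ f).trans (lev_le G h f)
  have q : ∀ {i j n}, i < n ∧ j + 5 < n ∨ i + 5 < n ∧ j < n →
      P G.nC i j ≤ G.low n f * G.low n g := fun h => h.elim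
    (fun h => (p1 _ _).trans (mul_le_mul' (A f h.1) (B g h.2)))
    fun h => (p2 _ _).trans (mul_le_mul' (B f h.1) (A g h.2))
  have q' : ∀ {i j n}, i + 5 < n → j + 5 < n → P G.sC i j ≤ G.low n f * G.low n g := fun h h' =>
    (p3 _ _).trans (mul_le_mul' (B f h) (B g h'))
  have l1 := leibG G G.nC (nC_add G) k f g
  have l2 := leibG G G.sC (sC_add G) (k - 5) f g
  have l3 : G.lev k (f * g) ≤ G.Ac k (f * g) + G.Sc (k - 5) (f * g) := by
    rw [lev]; split_ifs <;> simp
  push_cast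
  rw [add_mul, add_mul]
  refine ⟨fun hk => l3.trans (add_le_add
    (l1.trans (all_le (P := P G.nC) fun i j h => q (by omega)))
    (l2.trans (all_le (P := P G.sC) fun i j h => q' (by omega) (by omega)))), fun hk => ?_⟩
  have e : ∀ f : G.SmC, G.lev k f = G.Ac k f + G.Sc (k - 5) f := fun f => by
    rw [lev, if_pos (by omega)]
  have s0 : ∀ f : G.SmC, G.Sc 0 f ≤ G.lev 5 f := Sc_le G 0
  refine (l3.trans (add_le_add
    (l1.trans (ends_le (P := P G.nC) (B := G.low k f * G.low k g) fun i j h _ _ => q (by omega)))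
    (l2.trans (ends_le (P := P G.sC) (B := G.low k f * G.low k g) fun i j h _ _ =>
      q' (by omega) (by omega))))).trans ?_
  rw [e f, e g, add_mul, mul_add, add_add_add_comm, add_add_add_comm (P G.nC k 0)]
  gcongr
  exacts [(p1 _ _).trans (mul_le_mul_right (s0 g) _), (p3 _ _).trans (mul_le_mul_right (s0 g) _),
    (p2 _ _).trans (mul_le_mul_left (s0 f) _), (p3 _ _).trans (mul_le_mul_left (s0 f) _)]

end Crest.Agent.N250.WS
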