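import Crest.Agent.N250.Wt.Grn
import Crest.Agent.N250.Lin.Green

/-!
# Row 250 (helper86): `GrnS` from the linear Gaussian theory
-/

set_option autoImplicit false
set_option linter.unusedSectionVars false
open MeasureTheory Set Filter Topology
open scoped ContDiff ENNReal NNReal

noncomputable section

namespace Crest.Agent.N250.WS.Geo

open Crest.Agent.N222

variable {X : Type} [TopologicalSpace X] [MeasurableSpace X] [BorelSpace X] {κ : Type} [Fintype κ]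
  {G : Geo X} {ψ : κ → G.R}

theorem sum_smul_val (g : G.R) (c : κ → ℝ) (p : X) :
    (g + ∑ k, c k • ψ k).1 p = g.1 p + ∑ k, c k * (ψ k).1 p := by
  rw [← ev_apply, map_add, map_sum]
  simp only [map_smul, smul_eq_mul, ev_apply]

theorem sq_norm_le_sum (c : κ → ℝ) : ‖c‖ ^ 2 ≤ ∑ k, c k ^ 2 := by
  have h0 : 0 ≤ ∑ k, c k ^ 2 := Finset.sum_nonneg fun _ _ => sq_nonneg _
  rw [← Real.le_sqrt (norm_nonneg _) h0, pi_norm_le_iff_of_nonneg (Real.sqrt_nonneg _)]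
  exact fun k => Real.abs_le_sqrt
    (Finset.single_le_sum (f := fun k => c k ^ 2) (fun _ _ => sq_nonneg _) (Finset.mem_univ k))

theorem sum_le_sq_norm (c : κ → ℝ) : ∑ k, c k ^ 2 ≤ Fintype.card κ * ‖c‖ ^ 2 := by
  rw [← nsmul_eq_mul, ← Finset.card_univ]
  refine Finset.sum_le_card_nsmul _ _ _ fun k _ => ?_
  rw [← sq_abs]
  exact pow_le_pow_left₀ (abs_nonneg _) (norm_le_pi_norm c k) 2

theorem grnS_of (hc : ∀ k, HasCompactSupport (ψ k).1)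
    (green : ∀ (g : X → ℝ) (y : κ → ℝ), G.gd.S2 g → ∃ (u : X → ℝ) (c : κ → ℝ), G.gd.S2 u ∧
      (∀ p, G.gd.L u p = g p + ∑ k, c k * (ψ k).1 p) ∧ ∀ k, G.gd.ip (ψ k).1 u = y k)
    (est : ∃ C : ℝ, ∀ (u g : X → ℝ) (c : κ → ℝ), G.gd.S2 u → G.gd.S2 g →
      (∀ p, G.gd.L u p = g p + ∑ k, c k * (ψ k).1 p) →
      G.gd.n0 u + ∑ k, c k ^ 2 ≤ C * (G.gd.n0 g + ∑ k, G.gd.ip (ψ k).1 u ^ 2)) : G.GrnS ψ where
  cs := hc
  ex g y hg := by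
    obtain ⟨u, c, h1, h2, h3⟩ := green g.1 y (G.gd_s2.2 hg)
    refine ⟨⟨u, h1.sm⟩, c, G.gd_s2.1 h1, G.extR fun p => ?_, h3⟩
    rw [← gd_L, sum_smul_val]
    exact h2 p
  est := by
    obtain ⟨C, hC⟩ := est
    set K : ℝ := |C| * (Fintype.card κ + 1) with hK
    have hK0 : 0 ≤ K := by positivity
    refine ⟨(2 * √K + 1).toNNReal, fun u g c hu he => ?_⟩
    have hp : 0 < 2 * √K + 1 := by positivity
    by_cases hg : G.gR g = ⊤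
    · rw [hg, top_add, ENNReal.mul_top (by simp)]; exact le_top
    have h := hC u.1 g.1 c (G.gd_s2.2 hu) (G.gd_s2.2 hg) fun p => by
      rw [gd_L, he, sum_smul_val]
    rw [G.gd_n0' hu, G.gd_n0' hg] at h
    set y : κ → ℝ := fun k => G.ipR (ψ k) u with hy
    have h1 := sq_norm_le_sum c
    have h2 : ∑ k, G.gd.ip (ψ k).1 u.1 ^ 2 ≤ _ := sum_le_sq_norm y
    rw [← ENNReal.ofReal_toReal hu, ← ENNReal.ofReal_toReal hg, ← ofReal_norm, ← ofReal_norm,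
      ← ENNReal.ofReal_add ENNReal.toReal_nonneg (norm_nonneg _),
      ← ENNReal.ofReal_add ENNReal.toReal_nonneg (norm_nonneg _), ENNReal.coe_nnreal_eq,
      Real.coe_toNNReal _ hp.le, ← ENNReal.ofReal_mul hp.le]
    refine ENNReal.ofReal_le_ofReal ?_
    set a := (G.gR u).toReal
    set b := (G.gR g).toReal
    have ha : 0 ≤ a := ENNReal.toReal_nonneg
    have hb : 0 ≤ b := ENNReal.toReal_nonneg
    have hy0 := norm_nonneg y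
    have hs : 0 ≤ ∑ k, G.gd.ip (ψ k).1 u.1 ^ 2 := Finset.sum_nonneg fun _ _ => sq_nonneg _
    have hn : (0 : ℝ) ≤ Fintype.card κ := Nat.cast_nonneg _
    have h3 : a ^ 2 + ‖c‖ ^ 2 ≤ K * (b + ‖y‖) ^ 2 := by
      have e1 : C * (b ^ 2 + ∑ k, G.gd.ip (ψ k).1 u.1 ^ 2) ≤
          |C| * (b ^ 2 + ∑ k, G.gd.ip (ψ k).1 u.1 ^ 2) :=
        mul_le_mul_of_nonneg_right (le_abs_self C) (by positivity)
      have e2 : b ^ 2 + ∑ k, G.gd.ip (ψ k).1 u.1 ^ 2 ≤ (Fintype.card κ + 1) * (b + ‖y‖) ^ 2 := by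
        nlinarith [mul_nonneg hb hy0, mul_nonneg hn (mul_nonneg hb hy0), mul_nonneg hn (sq_nonneg b),
          sq_nonneg ‖y‖]
      have e3 := mul_le_mul_of_nonneg_left e2 (abs_nonneg C)
      rw [hK, mul_assoc]
      linarith
    have h4 : K * (b + ‖y‖) ^ 2 = (√K * (b + ‖y‖)) ^ 2 := by rw [mul_pow, Real.sq_sqrt hK0]
    have h5 : 0 ≤ √K * (b + ‖y‖) := by positivity
    have h6 : a ≤ √K * (b + ‖y‖) := abs_le_of_sq_le_sq' (by nlinarith [sq_nonneg ‖c‖]) h5 |>.2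
    have h7 : ‖c‖ ≤ √K * (b + ‖y‖) := abs_le_of_sq_le_sq' (by nlinarith [sq_nonneg a]) h5 |>.2
    nlinarith

/-- coercive families have a Green operator -/
theorem Fam.grnS [T2Space X] [SecondCountableTopology X] (h : G.Fam ψ) : G.GrnS ψ := by
  refine grnS_of (fun k => (h.tst k).cs) (fun g y hg => ?_) ?_
  · obtain ⟨u, c, h1, h2, h3⟩ := Lin.Gd.Fam.green h g y hg
    exact ⟨u, c, h1.toS2, h2, h3⟩
  · obtain ⟨C, -, hC⟩ := Lin.Gd.Fam.est h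
    refine ⟨C, fun u g c hu hg he => le_trans ?_ (hC u g c hu hg he).2.2⟩
    linarith [Lin.Gd.n1_nonneg (G := G.gd) u, Lin.Gd.n2_nonneg (G := G.gd) u]

theorem exists_fam (G : Geo X) [T2Space X] [SecondCountableTopology X] :
    ∃ (n : ℕ) (ψ : Fin n → G.R), G.Fam ψ := by
  obtain ⟨n, ψ, h⟩ := G.gd.exists_fam
  exact ⟨n, fun k => ⟨ψ k, (h.tst k).sm⟩, h⟩

section H1

variable [T2Space X] [SecondCountableTopology X]

theorem h1_of_LL {u : G.R} (hu : G.gR u ≠ ⊤) (hL : G.gR (G.S.LL u) ≠ ⊤) : G.gd.H1 u.1 :=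
  (G.gd_s2.2 hu).h1 (by rw [gd_L]; exact G.gd_s2.2 hL)

theorem gR_D_ne {u : G.R} (hu : G.gR u ≠ ⊤) (hL : G.gR (G.S.LL u) ≠ ⊤) (a : Fin 3) :
    G.gR (G.S.D a u) ≠ ⊤ := G.gd_s2.1 ((h1_of_LL hu hL).D a)

theorem gC_ne_of_ri {u : G.SmC} (h1 : G.gR (G.re u) ≠ ⊤) (h2 : G.gR (G.im u) ≠ ⊤) : G.gC u ≠ ⊤ :=
  ne_top_of_le_ne_top (ENNReal.add_ne_top.2 ⟨h1, h2⟩) (G.nm_g.le_re_im u)

/-- Gaussian `H¹` bound for solutions -/
theorem gC_D_ne {u : G.SmC} (hu : G.gC u ≠ ⊤) (hL : G.gC (G.SC.LL u) ≠ ⊤) (a : Fin 3) :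
    G.gC (G.SC.D a u) ≠ ⊤ :=
  gC_ne_of_ri (by rw [re_D]; exact gR_D_ne (G.gR_re_ne hu) (by rw [← re_LL]; exact G.gR_re_ne hL) a)
    (by rw [im_D]; exact gR_D_ne (G.gR_im_ne hu) (by rw [← im_LL]; exact G.gR_im_ne hL) a)

theorem gC_sum_ne {ι : Type} (s : Finset ι) {u : ι → G.SmC} (h : ∀ i ∈ s, G.gC (u i) ≠ ⊤) :
    G.gC (∑ i ∈ s, u i) ≠ ⊤ :=
  ne_top_of_le_ne_top (ENNReal.sum_ne_top.2 h) (G.nm_g.sum s u)

theorem IsG.gC_LL_ne {g u : G.SmC} {η c : κ → ℂ} (hψ : G.GrnS ψ) (hg : G.gC g ≠ ⊤)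
    (h : G.IsG ψ g η u c) : G.gC (G.SC.LL u) ≠ ⊤ := by
  rw [h.eq]
  exact G.gC_add_ne hg (gC_sum_ne _ fun k _ => G.gC_smul_ne _ (G.gC_ne_of_cs
    ((hψ.cs k).comp_left (g := fun r : ℝ => (r : ℂ)) Complex.ofReal_zero)))

theorem _root_.Crest.Agent.N250.WS.Scale.gC_wG_ne (σ : Scale G) (hψ : G.GrnS ψ)
    (ξ : σ.AA × (κ → ℂ)) : G.gC (σ.wG ψ ξ) ≠ ⊤ := (σ.isG hψ ξ).l2

theorem _root_.Crest.Agent.N250.WS.Scale.gC_D_wG_ne (σ : Scale G) (hψ : G.GrnS ψ)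
    (ξ : σ.AA × (κ → ℂ)) (a : Fin 3) : G.gC (G.SC.D a (σ.wG ψ ξ)) ≠ ⊤ :=
  gC_D_ne (σ.isG hψ ξ).l2 ((σ.isG hψ ξ).gC_LL_ne hψ (σ.gC_ne _)) a

theorem ipR_LL {s : G.R} (hs : HasCompactSupport s.1) (u : G.R) :
    G.ipR s (G.S.LL u) = G.ipR (G.S.LL s) u := by
  rw [ipR_eq, ipR_eq, ← gd_L, ← gd_L]
  exact Lin.Gd.ip_L_symm (G := G.gd) ⟨s.2, hs⟩ u.2

theorem cs_LL {s : G.R} (hs : HasCompactSupport s.1) : HasCompactSupport (G.S.LL s).1 := by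
  rw [← gd_L]; exact (Lin.Gd.tstL (G := G.gd) ⟨s.2, hs⟩).cs

/-- `L` is symmetric -/
theorem ipC_LL {s : G.R} (hs : HasCompactSupport s.1) (u : G.SmC) :
    G.ipC s (G.SC.LL u) = G.ipC (G.S.LL s) u := by
  rw [G.ipC_eq hs, G.ipC_eq (cs_LL hs), re_LL, im_LL, ipR_LL hs, ipR_LL hs]

end H1

end Crest.Agent.N250.WS.Geo

end
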