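import Crest.Agent.N250.Wt.Defs

/-!
# Row 250, Floer norms (helper76), part 0: admissible weights, the filter `admF`, tame sums
-/

set_option autoImplicit false
open Set Filter Topology
open scoped ENNReal NNReal

noncomputable section

namespace Crest.Agent.N250.WS

/-- a recursively defined admissible weight -/
def admSeq (c : ℕ → ℝ≥0) : ℕ → ℝ≥0
  | 0 => 1
  | k + 1 => if k < 11 then 1 else admSeq c k ^ 2 / ((c (k + 1) + 1) * 2 ^ k)

theorem exists_adm (c : ℕ → ℝ≥0) : ∃ ε, Adm c ε := by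
  have one : ∀ k ≤ 11, admSeq c k = 1 := fun k hk => by
    cases k with
    | zero => rfl
    | succ k => rw [admSeq, if_pos (by omega)]
  have h : ∀ k, 0 < admSeq c k ∧ admSeq c k ≤ 1 := fun k => by
    induction k with
    | zero => exact ⟨one_pos, le_rfl⟩
    | succ k ih =>
      rw [admSeq]
      split_ifs
      · exact ⟨one_pos, le_rfl⟩
      · have := ih.1
        refine ⟨by positivity, div_le_one_of_le₀ ((pow_le_one₀ zero_le ih.2).trans ?_) zero_le⟩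
        exact one_le_mul_of_one_le_of_one_le le_add_self (one_le_pow₀ one_le_two)
  refine ⟨admSeq c, fun k => (h k).1, one, fun k => ?_, fun k hk => ?_⟩
  · rcases Nat.lt_or_ge k 11 with hk | hk
    · rw [one k hk.le, one (k + 1) hk]
    · rw [admSeq, if_neg (by omega)]
      refine (div_le_self zero_le
        (one_le_mul_of_one_le_of_one_le le_add_self (one_le_pow₀ one_le_two))).trans ?_
      rw [sq]; exact mul_le_of_le_one_left zero_le (h k).2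
  · rw [admSeq, if_neg (by omega), mul_assoc, div_mul_eq_mul_div, div_le_iff₀ (by positivity)]
    gcongr
    exact le_self_add

namespace Adm

variable {c c' ε : ℕ → ℝ≥0}

theorem mono (h : Adm c ε) (hc : ∀ k, c' k ≤ c k) : Adm c' ε :=
  ⟨h.pos, h.one, h.anti, fun k hk => le_trans (by gcongr; exact hc _) (h.le k hk)⟩

theorem antitone (h : Adm c ε) : Antitone ε := antitone_nat_of_succ_le h.anti

theorem le_one (h : Adm c ε) (k : ℕ) : ε k ≤ 1 := h.one 0 (by omega) ▸ h.antitone (Nat.zero_le k)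

end Adm

/-- "for all sufficiently fast decaying weights" -/
def admF : Filter (ℕ → ℝ≥0) where
  sets := {s | ∃ c, ∀ ε, Adm c ε → ε ∈ s}
  univ_sets := ⟨0, fun _ _ => trivial⟩
  sets_of_superset := fun ⟨c, h⟩ hs => ⟨c, fun ε hε => hs (h ε hε)⟩
  inter_sets := fun ⟨c, h⟩ ⟨c', h'⟩ => ⟨c ⊔ c', fun ε hε =>
    ⟨h ε (hε.mono fun _ => le_sup_left), h' ε (hε.mono fun _ => le_sup_right)⟩⟩

theorem eventually_admF {P : (ℕ → ℝ≥0) → Prop} :
    (∀ᶠ ε in admF, P ε) ↔ ∃ c, ∀ ε, Adm c ε → P ε := Iff.rfl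

theorem adm_ev (c : ℕ → ℝ≥0) : ∀ᶠ ε in admF, Adm c ε := ⟨c, fun _ h => h⟩

instance admF_neBot : admF.NeBot := by
  refine forall_mem_nonempty_iff_neBot.1 fun s ⟨c, h⟩ => ?_
  obtain ⟨ε, hε⟩ := exists_adm c
  exact ⟨ε, h ε hε⟩

section Sums

variable {c ε : ℕ → ℝ≥0}

theorem term_le (ε : ℕ → ℝ≥0) (a : ℕ → ℝ≥0∞) (k : ℕ) :
    (ε k : ℝ≥0∞) * a k ≤ ∑' j, (ε j : ℝ≥0∞) * a j :=
  ENNReal.le_tsum (f := fun j => (ε j : ℝ≥0∞) * a j) k

theorem Adm.low_le (h : Adm c ε) (a : ℕ → ℝ≥0∞) (k : ℕ) :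
    (ε k : ℝ≥0∞) * ∑ j ∈ Finset.range (k + 1), a j ≤ ∑' j, (ε j : ℝ≥0∞) * a j := by
  rw [Finset.mul_sum]
  refine le_trans (Finset.sum_le_sum fun j hj => ?_) (ENNReal.sum_le_tsum _)
  have : ε k ≤ ε j := h.antitone (Nat.lt_succ_iff.1 (Finset.mem_range.1 hj))
  gcongr

theorem Adm.low12 (h : Adm c ε) (a : ℕ → ℝ≥0∞) {k : ℕ} (hk : k ≤ 12) :
    ∑ j ∈ Finset.range k, a j ≤ ∑' j, (ε j : ℝ≥0∞) * a j := by
  have := h.low_le a 11
  rw [h.one 11 le_rfl, ENNReal.coe_one, one_mul] at this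
  exact (Finset.sum_le_sum_of_subset (Finset.range_mono hk)).trans this

theorem Adm.le' (h : Adm c ε) {k : ℕ} (hk : 11 ≤ k) :
    (ε (k + 1) : ℝ≥0∞) * c (k + 1) ≤ 2⁻¹ ^ k * (ε k * ε k) := by
  have h1 : (ε (k + 1) : ℝ≥0∞) * c (k + 1) * 2 ^ k ≤ ε k * ε k := by
    have := h.le k hk
    rw [sq] at this
    exact_mod_cast this
  have h2 : (2 : ℝ≥0∞) ^ k * 2⁻¹ ^ k = 1 := by
    rw [← mul_pow, ENNReal.mul_inv_cancel (by norm_num) (by norm_num), one_pow]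
  calc (ε (k + 1) : ℝ≥0∞) * c (k + 1) = ε (k + 1) * c (k + 1) * 2 ^ k * 2⁻¹ ^ k := by
        rw [mul_assoc _ (2 ^ k), h2, mul_one]
    _ ≤ ε k * ε k * 2⁻¹ ^ k := by gcongr
    _ = _ := mul_comm _ _

/-- summation of error terms -/
theorem sum_err (c : ℕ → ℝ≥0) (t : ℕ → ℝ≥0∞) (A : ℝ≥0∞) (h1 : ∀ k ≤ 11, t k ≤ c k * A)
    (h2 : ∀ k, 11 ≤ k → t (k + 1) ≤ 2⁻¹ ^ k * A) :
    ∑' k, t k ≤ ((∑ k ∈ Finset.range 12, c k + 2 : ℝ≥0) : ℝ≥0∞) * A := by
  rw [← ENNReal.summable.sum_add_tsum_nat_add' (k := 12)]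
  push_cast
  rw [add_mul, Finset.sum_mul]
  refine add_le_add (Finset.sum_le_sum fun k hk => h1 k (by simpa [Nat.lt_succ_iff] using hk)) ?_
  calc ∑' k, t (k + 12) ≤ ∑' k : ℕ, 2⁻¹ ^ k * A := by
        refine ENNReal.tsum_le_tsum fun k => (h2 (k + 11) (by omega)).trans ?_
        gcongr ?_ * _
        exact pow_le_pow_right_of_le_one' (by norm_num) (by omega)
    _ = 2 * A := by rw [ENNReal.tsum_mul_right, ENNReal.tsum_geometric]; norm_num

/-- **tame sums** -/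
theorem Adm.tame (h : Adm c ε) (C₀ : ℝ≥0) (a b : ℕ → ℝ≥0∞) (B : ℝ≥0∞)
    (hb : ∀ k, b k ≤ C₀ * a k + c k * (∑ j ∈ Finset.range k, a j + B)) :
    ∑' k, (ε k : ℝ≥0∞) * b k ≤ ((C₀ + (∑ k ∈ Finset.range 12, c k + 2) : ℝ≥0) : ℝ≥0∞) *
      (∑' k, (ε k : ℝ≥0∞) * a k + B) := by
  set A := ∑' k, (ε k : ℝ≥0∞) * a k with hA
  have e1 : ∑' k, (ε k : ℝ≥0∞) * b k ≤
      C₀ * A + ∑' k, (ε k : ℝ≥0∞) * (c k * (∑ j ∈ Finset.range k, a j + B)) := by
    rw [hA, ← ENNReal.tsum_mul_left, ← ENNReal.tsum_add]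
    refine ENNReal.tsum_le_tsum fun k => ?_
    rw [mul_left_comm, ← mul_add]
    gcongr
    exact hb k
  refine e1.trans ?_
  rw [ENNReal.coe_add, add_mul]
  refine add_le_add (by gcongr; exact le_self_add) (sum_err c _ _ (fun k hk => ?_) fun k hk => ?_)
  · rw [h.one k hk, ENNReal.coe_one, one_mul]
    gcongr
    exact h.low12 a (by omega)
  · rw [← mul_assoc]
    refine (mul_le_mul_left (h.le' hk) _).trans ?_
    have e : (ε k : ℝ≥0∞) ≤ 1 := by exact_mod_cast h.le_one k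
    rw [mul_assoc, mul_assoc]
    gcongr
    refine (mul_le_of_le_one_left' e).trans ?_
    rw [mul_add]
    exact add_le_add (h.low_le a k) (mul_le_of_le_one_left' e)

/-- tame sums, filter form -/
theorem tame (C₀ : ℝ≥0) (c : ℕ → ℝ≥0) : ∃ K : ℝ≥0, ∀ᶠ ε in admF, ∀ (a b : ℕ → ℝ≥0∞) (B : ℝ≥0∞),
    (∀ k, b k ≤ C₀ * a k + c k * (∑ j ∈ Finset.range k, a j + B)) →
    ∑' k, (ε k : ℝ≥0∞) * b k ≤ K * (∑' k, (ε k : ℝ≥0∞) * a k + B) :=
  ⟨_, (adm_ev c).mono fun _ h a b B hb => h.tame C₀ a b B hb⟩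

/-- products -/
theorem Adm.prod (h : Adm c ε) (a b p : ℕ → ℝ≥0∞)
    (h1 : ∀ k ≤ 11, p k ≤ c k * ((∑ j ∈ Finset.range 12, a j) * ∑ j ∈ Finset.range 12, b j))
    (h2 : ∀ k, 12 ≤ k → p k ≤ a k * b 5 + a 5 * b k
      + c k * ((∑ j ∈ Finset.range k, a j) * ∑ j ∈ Finset.range k, b j)) :
    ∑' k, (ε k : ℝ≥0∞) * p k ≤ ((2 + (∑ k ∈ Finset.range 12, c k + 2) : ℝ≥0) : ℝ≥0∞) *
      (∑' k, (ε k : ℝ≥0∞) * a k) * ∑' k, (ε k : ℝ≥0∞) * b k := by
  set A := ∑' k, (ε k : ℝ≥0∞) * a k with hA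
  set B := ∑' k, (ε k : ℝ≥0∞) * b k with hB
  let t : ℕ → ℝ≥0∞ := fun k => (ε k : ℝ≥0∞) *
    (c k * ((∑ j ∈ Finset.range (max k 12), a j) * ∑ j ∈ Finset.range (max k 12), b j))
  have a5 : a 5 ≤ A := by simpa [h.one 5 (by omega)] using term_le ε a 5
  have b5 : b 5 ≤ B := by simpa [h.one 5 (by omega)] using term_le ε b 5
  have e1 : ∑' k, (ε k : ℝ≥0∞) * p k ≤ A * B + A * B + ∑' k, t k := by
    have x1 : A * B = ∑' k, (ε k : ℝ≥0∞) * a k * B := by rw [ENNReal.tsum_mul_right]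
    have x2 : A * B = ∑' k, A * ((ε k : ℝ≥0∞) * b k) := by rw [ENNReal.tsum_mul_left]
    rw [show A * B + A * B = (∑' k, (ε k : ℝ≥0∞) * a k * B) + ∑' k, A * ((ε k : ℝ≥0∞) * b k) from
      congrArg₂ _ x1 x2, ← ENNReal.tsum_add, ← ENNReal.tsum_add]
    refine ENNReal.tsum_le_tsum fun k => ?_
    rcases Nat.lt_or_ge k 12 with hk | hk
    · refine le_trans ?_ le_add_self
      simp only [t, max_eq_right hk.le]
      gcongr
      exact h1 k (by omega)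
    · simp only [t, max_eq_left hk]
      rw [mul_assoc, mul_left_comm A, ← mul_add, ← mul_add]
      gcongr
      refine (h2 k hk).trans ?_
      gcongr
  refine e1.trans ?_
  rw [ENNReal.coe_add, mul_assoc, add_mul, ← two_mul]
  refine add_le_add le_rfl (sum_err c _ _ (fun k hk => ?_) fun k hk => ?_)
  · simp only [t, max_eq_right (show k ≤ 12 by omega)]
    rw [h.one k hk, ENNReal.coe_one, one_mul]
    gcongr
    exacts [h.low12 a le_rfl, h.low12 b le_rfl]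
  · simp only [t, max_eq_left (show 12 ≤ k + 1 by omega)]
    rw [← mul_assoc]
    refine (mul_le_mul_left (h.le' hk) _).trans ?_
    rw [mul_assoc, mul_mul_mul_comm]
    gcongr
    exacts [h.low_le a k, h.low_le b k]

end Sums

end Crest.Agent.N250.WS

end
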