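import Crest.Agent.N250.Wt.Boch
import Crest.Agent.N250.Re.Pt
import Crest.Agent.N250.FV.Main

/-!
# Row 250: the weighted energy and Bochner identities integrated on a slice (helper86)

`sI t u = ∫ u dμ_t` for `u` in the ring `F.SmR`, `CSR t u`: compact support in the slice `t`.
-/

set_option autoImplicit false
open MeasureTheory Set Filter Topology Function
open scoped ContDiff InnerProductSpace
open Crest.GeometryTopology.MCF

noncomputable section

namespace Crest.Agent.N250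

namespace Mv

variable {F : Mv} {t : ℝ}

/-- the integral over a slice of a smooth function on the track -/
def sI (t : ℝ) (u : F.SmR) : ℝ := ∫ x, F.ext0 u.1 (x, t) ∂F.mu t

/-- compact support in the slice `t` -/
def CSR (t : ℝ) (u : F.SmR) : Prop := F.CS (F.ext0 u.1) {t}

theorem ext0_ev (u : F.SmR) {p : ST} (hp : p ∈ F.M) : F.ext0 u.1 p = ev hp u := ext0_apply _ hp

theorem CS.congr {f g : ST → ℝ} {J : Set ℝ} (h : F.CS f J) (e : ∀ p ∈ F.M, f p = 0 → g p = 0) :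
    F.CS g J := by
  obtain ⟨K, h1, h2, h3⟩ := h
  exact ⟨K, h1, h2, fun p hp hJ hK => e p hp (h3 p hp hJ hK)⟩

theorem CS.two {f g k : ST → ℝ} {J : Set ℝ} (h : F.CS f J) (h' : F.CS g J)
    (e : ∀ p ∈ F.M, f p = 0 → g p = 0 → k p = 0) : F.CS k J := by
  obtain ⟨K, h1, h2, h3⟩ := h
  obtain ⟨K', h1', h2', h3'⟩ := h'
  exact ⟨K ∪ K', h1.union h1', union_subset h2 h2', fun p hp hJ hK =>
    e p hp (h3 p hp hJ fun h => hK (Or.inl h)) (h3' p hp hJ fun h => hK (Or.inr h))⟩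

theorem csr_mk {f : ST → ℝ} (hf : F.Sm f) : CSR t (mk' f hf) ↔ F.CS f {t} :=
  ⟨fun h => h.congr fun p hp e => by rwa [ext0_ev _ hp] at e,
    fun h => h.congr fun p hp e => by rwa [ext0_ev _ hp]⟩

theorem CSR.of {u v : F.SmR} (h : CSR t u) (e : ∀ p (hp : p ∈ F.M), ev hp u = 0 → ev hp v = 0) :
    CSR t v := CS.congr h fun p hp h0 => by rw [ext0_ev _ hp] at h0 ⊢; exact e p hp h0

theorem CSR.add {u v : F.SmR} (h : CSR t u) (h' : CSR t v) : CSR t (u + v) :=
  CS.two h h' fun p hp a b => by rw [ext0_ev _ hp] at a b ⊢; rw [map_add, a, b, add_zero]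

theorem CSR.sub {u v : F.SmR} (h : CSR t u) (h' : CSR t v) : CSR t (u - v) :=
  CS.two h h' fun p hp a b => by rw [ext0_ev _ hp] at a b ⊢; rw [map_sub, a, b, sub_zero]

theorem CSR.neg {u : F.SmR} (h : CSR t u) : CSR t (-u) :=
  h.of fun p hp a => by rw [map_neg, a, neg_zero]

theorem CSR.mul_left {u : F.SmR} (h : CSR t u) (v : F.SmR) : CSR t (v * u) :=
  h.of fun p hp a => by rw [map_mul, a, mul_zero]

theorem CSR.mul_right {u : F.SmR} (h : CSR t u) (v : F.SmR) : CSR t (u * v) :=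
  h.of fun p hp a => by rw [map_mul, a, zero_mul]

theorem csr_zero : CSR t (0 : F.SmR) :=
  ⟨∅, isCompact_empty, empty_subset _, fun p hp _ _ => by rw [ext0_ev _ hp, map_zero]⟩

theorem CSR.sum {κ : Type} (s : Finset κ) {u : κ → F.SmR} (h : ∀ i ∈ s, CSR t (u i)) :
    CSR t (∑ i ∈ s, u i) :=
  Finset.sum_induction u (CSR t) (fun _ _ => CSR.add) csr_zero h

namespace Reg

variable (h : F.Reg)
include h

theorem sI_congr {u : F.SmR} {g : E → ℝ} (e : ∀ x (hx : (x, t) ∈ F.M), ev hx u = g x) :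
    sI t u = ∫ x, g x ∂F.mu t :=
  integral_congr_ae ((FV.ae_sl h t).mono fun x hx => (ext0_ev u hx).trans (e x hx))

theorem sI_mk {f : ST → ℝ} (hf : F.Sm f) : sI t (mk' f hf) = ∫ x, f (x, t) ∂F.mu t :=
  h.sI_congr fun _ _ => rfl

theorem intg_csr {u : F.SmR} (hu : CSR t u) : Integrable (fun x => F.ext0 u.1 (x, t)) (F.mu t) :=
  FV.intg' h (ContDiffOn.continuousOn u.2) hu

theorem sI_add {u v : F.SmR} (hu : CSR t u) (hv : CSR t v) : sI t (u + v) = sI t u + sI t v := by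
  rw [sI, sI, sI, ← integral_add (h.intg_csr hu) (h.intg_csr hv)]
  exact h.sI_congr fun x hx => by rw [ext0_ev _ hx, ext0_ev _ hx, map_add]

theorem sI_sub {u v : F.SmR} (hu : CSR t u) (hv : CSR t v) : sI t (u - v) = sI t u - sI t v := by
  rw [sI, sI, sI, ← integral_sub (h.intg_csr hu) (h.intg_csr hv)]
  exact h.sI_congr fun x hx => by rw [ext0_ev _ hx, ext0_ev _ hx, map_sub]

theorem sI_smul (c : ℝ) (u : F.SmR) : sI t (algebraMap ℝ _ c * u) = c * sI t u := by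
  rw [sI, sI, ← integral_const_mul]
  exact h.sI_congr fun x hx => by rw [ext0_ev _ hx, map_mul, AlgHom.commutes]; rfl

theorem sI_two_mul (u : F.SmR) : sI t (2 * u) = 2 * sI t u := by
  rw [← h.sI_smul]; congr 2

theorem sI_zero : sI t (0 : F.SmR) = 0 := by
  rw [h.sI_congr (g := fun _ => 0) fun _ _ => map_zero _, integral_zero]

theorem sI_sum {κ : Type} (s : Finset κ) {u : κ → F.SmR} (hu : ∀ i ∈ s, CSR t (u i)) :
    sI t (∑ i ∈ s, u i) = ∑ i ∈ s, sI t (u i) := by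
  simp only [sI]
  rw [← integral_finsetSum s fun i hi => h.intg_csr (hu i hi)]
  exact h.sI_congr fun x hx => by simp only [ext0_ev _ hx, map_sum]

theorem sI_mono {u v : F.SmR} (hu : CSR t u) (hv : CSR t v)
    (e : ∀ x (hx : (x, t) ∈ F.M), ev hx u ≤ ev hx v) : sI t u ≤ sI t v :=
  integral_mono_ae (h.intg_csr hu) (h.intg_csr hv) ((FV.ae_sl h t).mono fun x hx => by
    simpa only [ext0_ev _ hx] using e x hx)

theorem sI_nonneg {u : F.SmR} (e : ∀ x (hx : (x, t) ∈ F.M), 0 ≤ ev hx u) : 0 ≤ sI t u :=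
  integral_nonneg_of_ae ((FV.ae_sl h t).mono fun x hx => by
    simpa only [ext0_ev _ hx, Pi.zero_apply] using e x hx)

theorem cs_D {f : ST → ℝ} (hf : F.Sm f) (hc : F.CS f {t}) (a : Fin 3) : F.CS (F.D a f) {t} := by
  obtain ⟨K, h1, h2, h3⟩ := hc
  refine ⟨K, h1, h2, fun p hp ht hK => ?_⟩
  rw [← h.D_const hp 0 a]
  refine FV.D_slice h hp (hf.diffW hp) (differentiableWithinAt_const _) ?_ a
  have : ∀ᶠ y in 𝓝 p.1, (y, p.2) ∉ K :=
    (Continuous.prodMk_left p.2).continuousAt.eventually (h1.isClosed.isOpen_compl.mem_nhds hK)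
  exact this.mono fun y hy hM => h3 _ hM ht hy

theorem csr_D {u : F.SmR} (hu : CSR t u) (a : Fin 3) : CSR t (h.mov.D a u) :=
  (csr_mk (h.sm_D u.2 a)).2 (h.cs_D u.2 hu a)

theorem csr_gam {u : F.SmR} (hu : CSR t u) (v : F.SmR) : CSR t (h.mov.gam u v) :=
  CSR.sum _ fun a _ => (h.csr_D hu a).mul_right _

theorem csr_gam' (v : F.SmR) {u : F.SmR} (hu : CSR t u) : CSR t (h.mov.gam v u) :=
  CSR.sum _ fun a _ => (h.csr_D hu a).mul_left _

theorem csr_lap {u : F.SmR} (hu : CSR t u) : CSR t (h.mov.lap u) :=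
  CSR.sum _ fun a _ => h.csr_D (h.csr_D hu a) a

theorem csr_dir (V : Fin 3 → F.SmR) {u : F.SmR} (hu : CSR t u) : CSR t (h.mov.dir V u) :=
  CSR.sum _ fun a _ => (h.csr_D hu a).mul_left _

theorem csr_dv {Y : Fin 3 → F.SmR} (hY : ∀ a, CSR t (Y a)) : CSR t (h.mov.dv Y) :=
  CSR.sum _ fun a _ => h.csr_D (hY a) a

theorem csr_hess {u : F.SmR} (hu : CSR t u) (a b : Fin 3) : CSR t (h.mov.hess u a b) :=
  CSR.sum _ fun c _ => (h.csr_D (h.csr_D hu c) a).mul_left _

theorem csr_hs2 {u : F.SmR} (hu : CSR t u) : CSR t (h.mov.hs2 u) :=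
  CSR.sum _ fun a _ => CSR.sum _ fun b _ => (h.csr_hess hu a b).mul_left _

theorem csr_dd2 {u : F.SmR} (hu : CSR t u) : CSR t (h.mov.dd2 u) :=
  CSR.sum _ fun a _ => CSR.sum _ fun b _ => (h.csr_D (h.csr_D hu b) a).mul_left _

theorem csr_qf (T : Fin 3 → Fin 3 → F.SmR) {u : F.SmR} (hu : CSR t u) : CSR t (h.mov.qf T u) :=
  CSR.sum _ fun _ _ => CSR.sum _ fun b _ => ((h.csr_D hu b).mul_left _).mul_left _

theorem csr_L0 (ψ : F.SmR) {u : F.SmR} (hu : CSR t u) : CSR t (h.mov.L0 ψ u) :=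
  (h.csr_lap hu).sub (h.csr_gam' ψ hu)

theorem csr_LV (β : F.SmR) (V : Fin 3 → F.SmR) {u : F.SmR} (hu : CSR t u) :
    CSR t (h.mov.LV β V u) := (h.csr_L0 β hu).sub (h.csr_dir V hu)

/-- integration by parts -/
theorem sI_D {u : F.SmR} (hu : CSR t u) (a : Fin 3) :
    sI t (h.mov.D a u) = sI t (u * h.mov.h * h.mov.n a) := by
  obtain ⟨f, hf, rfl⟩ := exists_mk u
  rw [h.mov_D, h.mov_h, h.mov_n, mk_mul, mk_mul, h.sI_mk, h.sI_mk]
  exact FV.ibp' h (FV.Sm.le hf 1) ((csr_mk hf).1 hu) a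

/-- divergence theorem for tangential fields -/
theorem sI_dv {Y : Fin 3 → F.SmR} (hY : ∀ a, CSR t (Y a)) (hT : h.mov.Tan Y) :
    sI t (h.mov.dv Y) = 0 := by
  rw [N222.Pre.dv, h.sI_sum _ fun a _ => h.csr_D (hY a) a]
  simp only [h.sI_D (hY _)]
  rw [← h.sI_sum _ fun a _ => ((hY a).mul_right _).mul_right _]
  have : ∑ a, Y a * h.mov.h * h.mov.n a = h.mov.h * ∑ a, h.mov.n a * Y a := by
    rw [Finset.mul_sum]; exact Finset.sum_congr rfl fun a _ => by ring
  rw [this, h.isHyp.n_tan hT, mul_zero, h.sI_zero]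

theorem sI_eq_of_dv {u v : F.SmR} {Y : Fin 3 → F.SmR} (hv : CSR t v) (hY : ∀ a, CSR t (Y a))
    (hT : h.mov.Tan Y) (e : u = v + h.mov.dv Y) : sI t u = sI t v := by
  rw [e, h.sI_add hv (h.csr_dv hY), h.sI_dv hY hT, add_zero]

section Weight

variable {E β : F.SmR} (hE : ∀ a, h.mov.D a E = -(E * h.mov.D a β))
include hE

/-- weighted Green formula -/
theorem sI_green {f g : F.SmR} (hc : CSR t f ∨ CSR t g) :
    sI t (E * (g * h.mov.L0 β f)) = -sI t (E * h.mov.gam f g) := by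
  have e := h.isHyp.dv_weight hE fun a => g * h.mov.D a f
  have e2 : E * (g * h.mov.L0 β f) = -(E * h.mov.gam f g)
      + h.mov.dv fun a => E * (g * h.mov.D a f) := by
    rw [e, h.isHyp.toIsDS.dv_mul]
    simp only [Mov.L0, N222.Pre.dv, N222.Pre.dir, N222.Pre.lap, N222.Pre.gam, mul_assoc g,
      ← Finset.mul_sum, mul_comm (h.mov.D _ β)]
    ring
  have c1 : CSR t (E * h.mov.gam f g) :=
    (hc.elim (fun c => h.csr_gam c g) fun c => h.csr_gam' f c).mul_left _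
  rw [h.sI_eq_of_dv c1.neg (fun a => (hc.elim (fun c => (h.csr_D c a).mul_left _)
    fun c => c.mul_right _).mul_left _) (N222.Pre.IsDS.tan_mul _ (N222.Pre.IsDS.tan_mul _
      (h.isHyp.tan f))) e2, ← zero_sub, h.sI_sub csr_zero c1, h.sI_zero, zero_sub]

/-- **weighted energy identity** -/
theorem sI_energy {V : Fin 3 → F.SmR} (hV : h.mov.Tan V) {f : F.SmR} (hf : CSR t f) :
    2 * sI t (E * (-h.mov.LV β V f * f)) = 2 * sI t (E * h.mov.gam f f)
      + sI t (E * (f * f) * (h.mov.dir V β - h.mov.dv V)) := by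
  have c1 := ((h.csr_gam hf f).mul_left E).mul_left 2
  have c2 := ((hf.mul_left f).mul_left E).mul_right (h.mov.dir V β - h.mov.dv V)
  rw [← h.sI_two_mul, ← h.sI_two_mul, ← h.sI_add c1 c2]
  refine h.sI_eq_of_dv (c1.add c2) (fun a => ?_) (h.isHyp.tan_enY E hV f) ?_
  · exact (((hf.mul_left f).mul_right _).sub ((h.csr_D hf a).mul_left _)).mul_left E
  · rw [← mul_assoc, h.isHyp.energy hE V f, mul_assoc]

/-- **weighted Bochner identity** -/
theorem sI_bochner {V : Fin 3 → F.SmR} (hV : h.mov.Tan V) {f : F.SmR} (hf : CSR t f) :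
    sI t (E * (h.mov.LV β V f * h.mov.LV β V f)) =
      sI t (E * (h.mov.hs2 f + h.mov.dir V f * h.mov.dir V f
        + (h.mov.h * h.mov.qf h.mov.B f - h.mov.qf h.mov.B2 f) + h.mov.qf (h.mov.hess β) f
        + 2 * h.mov.qf (fun a b => h.mov.D a (V b)) f
        + (h.mov.dir V β - h.mov.dv V) * h.mov.gam f f)) := by
  refine mul_left_cancel₀ (two_ne_zero (α := ℝ)) ?_
  rw [← h.sI_two_mul, ← h.sI_two_mul]
  refine h.sI_eq_of_dv (CSR.mul_left (CSR.mul_left ?_ _) _) (fun a => ?_)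
    (h.isHyp.tan_boY E β hV f) ?_
  · exact (((((h.csr_hs2 hf).add ((h.csr_dir V hf).mul_left _)).add
      (((h.csr_qf _ hf).mul_left _).sub (h.csr_qf _ hf))).add (h.csr_qf _ hf)).add
      ((h.csr_qf _ hf).mul_left _)).add ((h.csr_gam hf f).mul_left _)
  · exact (((((h.csr_D hf a).mul_left _).sub (h.csr_D (h.csr_gam hf f) a)).sub
      ((h.csr_D hf a).mul_left _)).add (((h.csr_gam hf f).mul_left _).mul_right _)).mul_left E
  · rw [← mul_assoc, h.isHyp.bochner_w hE hV f, mul_assoc]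

end Weight

end Reg

/-- on a shrinker `⟨x, n⟩ = 2 H` -/
theorem IsShr.mov_xn (h : F.IsShr) : h.reg.mov.xn = 2 * h.reg.mov.h := by
  rw [h.reg.mov_xn, h.reg.mov_h]
  refine SmR_ext fun p hp => ?_
  have := h.eq p hp
  rw [shr] at this
  rw [map_mul, ev_mk, ev_mk, map_ofNat]; linarith

/-- the potential `|x|² / 4` -/
def psi (F : Mv) : F.SmR :=
  mk' (fun p => ‖p.1‖ ^ 2 / 4) (((contDiff_norm_sq ℝ).comp contDiff_fst).div_const 4).contDiffOn

theorem Reg.four_psi (h : F.Reg) : 4 * F.psi = h.mov.x2 := SmR_ext fun p hp => by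
  simp only [psi, Mov.x2, map_mul, map_sum, map_ofNat, ev_mk, h.mov_x]
  rw [← real_inner_self_eq_norm_sq, inner_eq_sum, mul_div_cancel₀ _ (by norm_num)]; rfl

end Mv

end Crest.Agent.N250

end
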