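import Crest.Agent.N250.Wt.Defs

/-!
# Row 250, weighted theory (helper49): lower density of an immersed surface (`DenS`)
-/

set_option autoImplicit false
open MeasureTheory Set Filter Topology Function
open scoped ContDiff ENNReal NNReal

noncomputable section

namespace Crest.Agent.N250

open Crest.Agent.N222 hiding E

namespace WS

namespace Den

theorem exists_iso' {J : N222.E (Fin 2) →L[ℝ] N222.E (Fin 3)} (hJ : Injective J) :
    ∃ (U : N222.E (Fin 2) →L[ℝ] N222.E (Fin 3)) (J' : N222.E (Fin 2) →L[ℝ] N222.E (Fin 2)),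
      (∀ x, ‖U x‖ = ‖x‖) ∧ J = U ∘L J' := by
  set R : Submodule ℝ (N222.E (Fin 3)) :=
    LinearMap.range (J : N222.E (Fin 2) →ₗ[ℝ] N222.E (Fin 3)) with hR
  have hr : Module.finrank ℝ R = 2 := by
    rw [hR, LinearMap.finrank_range_of_inj hJ]
    simp
  let φ : R ≃ₗᵢ[ℝ] N222.E (Fin 2) := ((stdOrthonormalBasis ℝ R).reindex (finCongr hr)).repr
  refine ⟨R.subtypeL ∘L (φ.symm : N222.E (Fin 2) →L[ℝ] R),
    (φ : R →L[ℝ] N222.E (Fin 2)) ∘L J.codRestrict R (fun x => ⟨x, rfl⟩), fun x => ?_, ?_⟩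
  · exact φ.symm.norm_map x
  · ext1 x
    exact (congrArg Subtype.val (φ.symm_apply_apply (J.codRestrict R (fun x => ⟨x, rfl⟩) x))).symm

theorem exists_iso {J : N222.E (Fin 2) →L[ℝ] N222.E (Fin 3)} (hJ : Injective J) :
    ∃ T : N222.E (Fin 2) →L[ℝ] N222.E (Fin 2), (∀ x, ‖T x‖ = ‖J x‖) ∧ jac J = |T.det| := by
  obtain ⟨U, T, hU, rfl⟩ := exists_iso' hJ
  refine ⟨T, fun x => (hU _).symm, ?_⟩
  rw [jac_comp, jac, U.norm_map_iff_adjoint_comp_self.1 hU]
  simp [ContinuousLinearMap.det]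

/-- area of an ellipse -/
theorem vol_ell {J : N222.E (Fin 2) →L[ℝ] N222.E (Fin 3)} (hJ : Injective J) (z₀ : N222.E (Fin 2))
    {s : ℝ} (hs : 0 ≤ s) : ENNReal.ofReal (jac J) * volume {z | ‖J (z - z₀)‖ < s} =
      ENNReal.ofReal (s ^ 2 * Real.pi) := by
  obtain ⟨T, h1, h2⟩ := exists_iso hJ
  have hp := jac_pos hJ
  have hd : T.det ≠ 0 := fun h => by rw [h2, h, abs_zero] at hp; exact lt_irrefl _ hp
  have e : {z | ‖J (z - z₀)‖ < s} = (fun z => z + -z₀) ⁻¹' (T ⁻¹' Metric.ball 0 s) := by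
    ext z; simp only [mem_ofPred_eq, mem_preimage, mem_ball_zero_iff, h1, sub_eq_add_neg]
  rw [e, measure_preimage_add_right, Measure.addHaar_preimage_continuousLinearMap volume hd,
    EuclideanSpace.volume_ball_fin_two, ← mul_assoc, ← ENNReal.ofReal_mul hp.le, abs_inv]
  have : jac J * |LinearMap.det (T : N222.E (Fin 2) →ₗ[ℝ] N222.E (Fin 2))|⁻¹ = 1 := by
    rw [h2]; exact mul_inv_cancel₀ (abs_ne_zero.2 hd)
  rw [this, ENNReal.ofReal_one, one_mul, ENNReal.ofReal_mul (sq_nonneg s), ENNReal.ofReal_pow hs]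

variable {X : Type} [TopologicalSpace X] [MeasurableSpace X] [BorelSpace X] [T2Space X]
  [SecondCountableTopology X]

theorem dens (M : Imm 2 (Fin 3) X) (p : X) {V : Set X} (hV : V ∈ 𝓝 p) : ∀ᶠ r : ℝ in 𝓝[>] 0,
    ENNReal.ofReal (r ^ 2) ≤ M.mu (V ∩ {q | dist (M.x q) (M.x p) < r}) := by
  have he := M.isChart p
  have hp := M.mem p
  have hJ := M.J_inj p
  have hjp := jac_pos hJ
  have hz : M.ch p p ∈ (M.ch p).target := (M.ch p).map_source hp
  have ht := (M.ch p).open_target.mem_nhds hz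
  obtain ⟨K, hK, hKJ⟩ := LinearMap.exists_antilipschitzWith
    (M.J p : N222.E (Fin 2) →ₗ[ℝ] N222.E (Fin 3)) (LinearMap.ker_eq_bot.2 hJ)
  have hK' : (0 : ℝ) < K := hK
  have hKv : ∀ v, ‖v‖ ≤ K * ‖M.J p v‖ := fun v => by
    simpa using hKJ.le_mul_dist v 0
  have hd : HasFDerivAt (M.x ∘ (M.ch p).symm) (M.J p) (M.ch p p) :=
    ((he.sm.contDiffAt ht).differentiableAt (by simp)).hasFDerivAt
  have e1 := hd.isLittleO.def (show (0 : ℝ) < 1 / (4 * K) by positivity)
  have e2 : ∀ᶠ z in 𝓝 (M.ch p p),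
      3 / 4 * jac (M.J p) < jac (fderiv ℝ (M.x ∘ (M.ch p).symm) z) :=
    ((Imm.continuousOn_jac he).continuousAt ht).eventually
      (lt_mem_nhds (show 3 / 4 * jac (M.J p) < jac (M.J p) by linarith))
  have e3 : ∀ᶠ z in 𝓝 (M.ch p p), (M.ch p).symm z ∈ V :=
    ((M.ch p).continuousAt_symm hz).eventually (by rw [(M.ch p).left_inv hp]; exact hV)
  obtain ⟨δ, hδ, H⟩ := Metric.eventually_nhds_iff_ball.1 (e1.and (e2.and (e3.and ht)))
  filter_upwards [Ioo_mem_nhdsGT (show 0 < δ / K by positivity)] with r ⟨hr, hrδ⟩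
  set A := {z | ‖M.J p (z - M.ch p p)‖ < 3 / 4 * r} with hA
  have hAo : IsOpen A := isOpen_lt (by fun_prop) continuous_const
  have hAb : A ⊆ Metric.ball (M.ch p p) δ := fun z hz => by
    rw [Metric.mem_ball, dist_eq_norm]
    have h1 := hKv (z - M.ch p p)
    have h2 : ‖M.J p (z - M.ch p p)‖ < 3 / 4 * r := hz
    rw [lt_div_iff₀ hK'] at hrδ
    nlinarith
  have hs : IsOpen ((M.ch p).source ∩ M.ch p ⁻¹' A) := (M.ch p).isOpen_inter_preimage hAo
  have him : M.ch p '' ((M.ch p).source ∩ M.ch p ⁻¹' A) = A := by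
    rw [image_inter_preimage, (M.ch p).image_source_eq_target]
    exact inter_eq_right.2 fun z hz => (H z (hAb hz)).2.2.2
  have hsub : (M.ch p).source ∩ M.ch p ⁻¹' A ⊆ V ∩ {q | dist (M.x q) (M.x p) < r} := by
    rintro q ⟨hq, hqA⟩
    obtain ⟨a1, -, a3, -⟩ := H _ (hAb hqA)
    simp only [comp_apply, (M.ch p).left_inv hq, (M.ch p).left_inv hp] at a1 a3
    refine ⟨a3, ?_⟩
    have h1 := hKv (M.ch p q - M.ch p p)
    have h2 : ‖M.J p (M.ch p q - M.ch p p)‖ < 3 / 4 * r := hqA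
    have h3 : 1 / (4 * K) * ‖M.ch p q - M.ch p p‖ ≤ ‖M.J p (M.ch p q - M.ch p p)‖ / 4 := by
      rw [div_mul_eq_mul_div, one_mul, div_le_div_iff₀ (by positivity) (by positivity)]
      nlinarith
    have h4 := norm_le_norm_sub_add (M.x q - M.x p) (M.J p (M.ch p q - M.ch p p))
    rw [mem_ofPred_eq, dist_eq_norm]
    linarith
  refine le_trans ?_ (measure_mono hsub)
  rw [Imm.mu_chart he inter_subset_left hs.measurableSet, him]
  calc ENNReal.ofReal (r ^ 2)
      ≤ ENNReal.ofReal (3 / 4) * ENNReal.ofReal ((3 / 4 * r) ^ 2 * Real.pi) := by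
        rw [← ENNReal.ofReal_mul (by norm_num)]
        refine ENNReal.ofReal_le_ofReal ?_
        nlinarith [Real.pi_gt_three, sq_nonneg r]
    _ = ∫⁻ _ in A, ENNReal.ofReal (3 / 4 * jac (M.J p)) := by
        rw [← vol_ell hJ (M.ch p p) (by positivity), setLIntegral_const,
          ENNReal.ofReal_mul (by norm_num), mul_assoc]
    _ ≤ _ := setLIntegral_mono' hAo.measurableSet fun z hz =>
        ENNReal.ofReal_le_ofReal (H z (hAb hz)).2.1.le

end Den

theorem Geo.denS {X : Type} [TopologicalSpace X] [MeasurableSpace X] [BorelSpace X] [T2Space X]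
    [SecondCountableTopology X] (G : Geo X) : G.DenS := fun p _ hV => Den.dens G.M p hV

end WS

end Crest.Agent.N250

end
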