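import Crest.Agent.N250.Wt.Cx
import Crest.Agent.N250.Lin.Est

/-!
# Row 250 (helper86): every `Geo` is a Gaussian datum `Lin.Gd`
-/

set_option autoImplicit false
set_option linter.unusedSectionVars false
open MeasureTheory Set Filter Topology
open scoped ContDiff ENNReal NNReal

noncomputable section

namespace Crest.Agent.N250

open Crest.Agent.N222

namespace WS.Geo

variable {X : Type} [TopologicalSpace X] [MeasurableSpace X] (G : Geo X)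

theorem Sy.bdd {G : Geo X} {k : ℤ} {f : G.R} (h : G.Sy k f) (hk : k ≤ 0) :
    ∃ C : ℝ, 0 ≤ C ∧ ∀ p, |f.1 p| ≤ C := by
  obtain ⟨C, h0, hC⟩ := (h.mono hk).bd
  exact ⟨C, h0, fun p => by simpa using hC p⟩

/-- the exponent `-|x|²/4` -/
def Fr : G.R := algebraMap ℝ G.R (-1 / 4) * G.S.x2

theorem Fr_val : G.Fr.1 = fun p => -G.S.x2.1 p / 4 := funext fun p => by
  show -1 / 4 * G.S.x2.1 p = _
  ring

theorem D_Fr (a : Fin 3) :
    G.S.D a G.Fr = algebraMap ℝ G.R (-1 / 2) * G.S.x a + G.S.h * G.S.n a := by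
  have e : algebraMap ℝ G.R (-1 / 2) = 2 * algebraMap ℝ G.R (-1 / 4) := by
    rw [← map_ofNat (algebraMap ℝ G.R) 2, ← map_mul]; norm_num
  have e' : 4 * algebraMap ℝ G.R (-1 / 4) = -1 := by
    rw [← map_ofNat (algebraMap ℝ G.R) 4, ← map_mul]; norm_num
  rw [Fr, Mov.D_cmul G.ds (fun a => G.ds.const a _), G.hyp.D_x2, G.shr, e]
  linear_combination (-(G.S.h * G.S.n a)) * e'

theorem gam_Fr (u : G.R) : G.S.gam G.Fr u = algebraMap ℝ G.R (-1 / 2) * G.S.dr u := by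
  have := G.hyp.n_D u
  simp only [Pre.gam, D_Fr, Mov.dr, Fin.sum_univ_three] at this ⊢
  linear_combination G.S.h * this

theorem lapF_Fr (u : G.R) :
    G.S.lapF G.Fr u + (G.S.a2 + algebraMap ℝ G.R (1 / 2)) * u = G.S.LL u := by
  have e : algebraMap ℝ G.R (-1 / 2) = -algebraMap ℝ G.R (1 / 2) := by
    rw [← map_neg]; norm_num
  simp only [Pre.lapF, gam_Fr, Mov.LL, Mov.Mi, Mov.Pi, e]
  push_cast
  ring

theorem dr_x2' : G.S.dr G.S.x2 = 2 * (G.S.x2 - G.S.xn * G.S.xn) := by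
  simp only [Mov.dr, G.hyp.D_x2]
  simp only [Mov.x2, Mov.xn, Fin.sum_univ_three]
  ring

theorem lapF_x2 : G.S.lapF G.Fr G.S.x2 = 4 - G.S.x2 := by
  have e : 2 * algebraMap ℝ G.R (-1 / 2) = -1 := by
    rw [← map_ofNat (algebraMap ℝ G.R) 2, ← map_mul]; norm_num
  rw [Pre.lapF, gam_Fr, G.hyp.lap_x2, dr_x2', G.shr]
  simp only [Fintype.card_fin]
  push_cast
  linear_combination (G.S.x2 - 4 * G.S.h * G.S.h) * e

theorem gam_x2' : G.S.gam G.S.x2 G.S.x2 = 4 * (G.S.x2 - G.S.xn * G.S.xn) := by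
  have := G.hyp.nn
  simp only [Pre.gam, G.hyp.D_x2]
  simp only [Mov.x2, Mov.xn, Fin.sum_univ_three] at this ⊢
  linear_combination 4 * (G.S.x 0 * G.S.n 0 + G.S.x 1 * G.S.n 1 + G.S.x 2 * G.S.n 2) ^ 2 * this

theorem H_add_D_Fr (e : Fin 3) : G.S.H e + G.S.D e G.Fr = algebraMap ℝ G.R (-1 / 2) * G.S.x e := by
  rw [G.hyp.H_eq, D_Fr]; ring

theorem exists_gdB : ∃ B : ℝ, 4 ≤ B ∧ (∀ p, |G.S.a2.1 p + 1 / 2| ≤ B) ∧
    (∀ a b e p, |(G.S.II a b e).1 p| ≤ B) ∧ ∀ a e p, |(G.S.P a e).1 p| ≤ B := by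
  obtain ⟨C1, h1, hC1⟩ := G.sy_a2.bdd (by norm_num)
  have h2 : ∀ q : Fin 3 × Fin 3 × Fin 3, ∃ C : ℝ, 0 ≤ C ∧ ∀ p, |(G.S.II q.1 q.2.1 q.2.2).1 p| ≤ C :=
    fun q => by
      rw [G.hyp.II_eq]
      exact ((G.sy_B _ _).mul (G.sy_n _)).neg.bdd (by norm_num)
  have h3 : ∀ q : Fin 3 × Fin 3, ∃ C : ℝ, 0 ≤ C ∧ ∀ p, |(G.S.P q.1 q.2).1 p| ≤ C :=
    fun q => (G.sy_P _ _).bdd le_rfl
  choose C2 h2 hC2 using h2
  choose C3 h3 hC3 using h3
  have s2 := Finset.sum_nonneg (s := Finset.univ) fun q _ => h2 q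
  have s3 := Finset.sum_nonneg (s := Finset.univ) fun q _ => h3 q
  refine ⟨4 + C1 + ∑ q, C2 q + ∑ q, C3 q, by linarith, fun p => ?_, fun a b e p => ?_,
    fun a e p => ?_⟩
  · have := abs_add_le (G.S.a2.1 p) (1 / 2)
    rw [abs_of_pos (one_half_pos (α := ℝ))] at this
    linarith [hC1 p]
  · have := Finset.single_le_sum (fun q _ => h2 q) (Finset.mem_univ (a, b, e))
    linarith [hC2 (a, b, e) p]
  · have := Finset.single_le_sum (fun q _ => h3 q) (Finset.mem_univ (a, e))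
    linarith [hC3 (a, e) p]

theorem val_hom : G.S.toPre.Hom G.M.pre G.M.val := G.M.hom

/-- the Gaussian datum of a `Geo` -/
def gd : Lin.Gd 2 (Fin 3) X where
  M := G.M
  F p := -G.S.x2.1 p / 4
  ρ := G.S.x2.1
  c p := G.S.a2.1 p + 1 / 2
  B := G.exists_gdB.choose
  smF := by rw [← Fr_val]; exact G.Fr.2
  smρ := G.S.x2.2
  smc := (G.S.a2 + algebraMap ℝ G.R (1 / 2)).2
  one := le_trans (by norm_num) G.exists_gdB.choose_spec.1
  ρ0 := G.x2_nonneg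
  prop := G.prop
  gamρ p := by
    have h := congrFun (G.val_hom.gam G.S.x2 G.S.x2) p
    rw [gam_x2'] at h
    have : 4 * (G.S.x2.1 p - G.S.xn.1 p * G.S.xn.1 p) = _ := h
    nlinarith [mul_self_nonneg (G.S.xn.1 p), this, show G.M.pre.gam (G.M.val G.S.x2)
      (G.M.val G.S.x2) p = G.M.pre.gam G.S.x2.1 G.S.x2.1 p from rfl]
  lapρ p := by
    have h := congrFun (G.val_hom.lapF G.Fr G.S.x2) p
    rw [lapF_x2] at h
    have h' : 4 - G.S.x2.1 p = G.M.pre.lapF G.Fr.1 G.S.x2.1 p := h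
    rw [← Fr_val, ← h']
    linarith [G.exists_gdB.choose_spec.1]
  cle := G.exists_gdB.choose_spec.2.1
  IIle a b e p := by
    rw [← G.val_hom.II]
    exact G.exists_gdB.choose_spec.2.2.1 a b e p
  Dble a e p := by
    have h1 : (fun q => G.M.pre.H e q + G.M.pre.D e (fun p => -G.S.x2.1 p / 4) q) =
        (G.S.H e + G.S.D e G.Fr).1 := by
      rw [← Fr_val, ← G.val_hom.H]; rfl
    rw [h1, H_add_D_Fr]
    have h2 := congrArg (fun f : G.R => f.1 p)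
      (Mov.D_cmul G.ds (fun a => G.ds.const a (-1 / 2)) a (G.S.x e))
    have h3 : G.M.pre.D a (algebraMap ℝ G.R (-1 / 2) * G.S.x e).1 p = -1 / 2 * (G.S.P a e).1 p := h2
    rw [h3, abs_mul]
    have := G.exists_gdB.choose_spec.2.2.2 a e p
    have h4 : |(-1 / 2 : ℝ)| = 1 / 2 := by norm_num [abs_of_neg]
    rw [h4]
    linarith [abs_nonneg ((G.S.P a e).1 p)]

@[simp] theorem gd_M : G.gd.M = G.M := rfl
theorem gd_nu : G.gd.nu = G.ga := rfl
theorem gd_D (a : Fin 3) (u : G.R) : G.gd.D a u.1 = (G.S.D a u).1 := rfl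
theorem gd_g1 (u : G.R) : G.gd.g1 u.1 = (G.S.gam u u).1 := (G.val_hom.gam u u).symm
theorem gd_gam (u v : G.R) : G.M.pre.gam u.1 v.1 = (G.S.gam u v).1 := (G.val_hom.gam u v).symm

theorem gd_L (u : G.R) : G.gd.L u.1 = (G.S.LL u).1 := funext fun p => by
  have h := congrFun (G.val_hom.lapF G.Fr u) p
  have h' : (G.S.lapF G.Fr u).1 p = G.M.pre.lapF G.Fr.1 u.1 p := h
  rw [← lapF_Fr]
  show G.M.pre.lapF (fun p => -G.S.x2.1 p / 4) u.1 p + (G.S.a2.1 p + 1 / 2) * u.1 p =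
    (G.S.lapF G.Fr u).1 p + (G.S.a2.1 p + 1 / 2) * u.1 p
  rw [h', Fr_val]

theorem gd_s2 {u : G.R} [BorelSpace X] : G.gd.S2 u.1 ↔ G.gR u ≠ ⊤ :=
  ⟨fun h => h.l2.2.ne, fun h => ⟨u.2, (G.contR u).aestronglyMeasurable, h.lt_top⟩⟩

theorem gd_n0 [BorelSpace X] {u : G.R} (h : G.gR u ≠ ⊤) :
    G.gR u = ENNReal.ofReal √(G.gd.n0 u.1) := by
  have hm : MemLp u.1 2 G.ga := ⟨(G.contR u).aestronglyMeasurable, h.lt_top⟩
  rw [gR, hm.eLpNorm_eq_integral_rpow_norm two_ne_zero ENNReal.ofNat_ne_top, Real.sqrt_eq_rpow]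
  simp [Lin.Gd.n0, gd_nu]

theorem gd_n0' [BorelSpace X] {u : G.R} (h : G.gR u ≠ ⊤) :
    G.gd.n0 u.1 = (G.gR u).toReal ^ 2 := by
  rw [G.gd_n0 h, ENNReal.toReal_ofReal (Real.sqrt_nonneg _),
    Real.sq_sqrt (show 0 ≤ G.gd.n0 u.1 from integral_nonneg fun _ => sq_nonneg _)]

/-- the Gaussian norm is controlled by the polynomial norm -/
theorem ga_le_dm : ∃ C : ℝ≥0, G.ga ≤ C • G.dm := by
  obtain ⟨c, b, hc, h⟩ := G.m_ge
  have h1 : ∀ t : ℝ, 0 ≤ t → (1 + t) ^ b * Real.exp (-t / 4) ≤ 4 ^ b * b.factorial * Real.exp 1 := by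
    intro t ht
    have h2 := Real.pow_div_factorial_le_exp ((1 + t) / 4) (by positivity) b
    have h3 : Real.exp ((1 + t) / 4) * Real.exp (-t / 4) ≤ Real.exp 1 := by
      rw [← Real.exp_add]; exact Real.exp_le_exp.2 (by linarith)
    rw [div_le_iff₀ (by positivity), div_pow, div_le_iff₀ (by positivity)] at h2
    calc _ ≤ Real.exp ((1 + t) / 4) * b.factorial * 4 ^ b * Real.exp (-t / 4) := by gcongr
      _ = 4 ^ b * b.factorial * (Real.exp ((1 + t) / 4) * Real.exp (-t / 4)) := by ring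
      _ ≤ _ := by gcongr
  set K : ℝ := 4 ^ b * b.factorial * Real.exp 1 / c with hK
  have hK0 : 0 ≤ K := by positivity
  refine ⟨K.toNNReal, ?_⟩
  rw [ga, dm, ENNReal.smul_def, ← withDensity_smul' _ _ ENNReal.coe_ne_top]
  refine withDensity_mono (Eventually.of_forall fun p => ?_)
  simp only [Pi.smul_apply, smul_eq_mul]
  rw [ENNReal.coe_nnreal_eq, Real.coe_toNNReal _ hK0, ← ENNReal.ofReal_mul hK0]
  refine ENNReal.ofReal_le_ofReal ?_
  rw [hK, div_mul_eq_mul_div, le_div_iff₀ hc]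
  calc _ ≤ Real.exp (-G.S.x2.1 p / 4) * (G.m.1 p * (1 + G.S.x2.1 p) ^ b) := by gcongr; exact h p
    _ = (1 + G.S.x2.1 p) ^ b * Real.exp (-G.S.x2.1 p / 4) * G.m.1 p := by ring
    _ ≤ _ := mul_le_mul_of_nonneg_right (h1 _ (G.x2_nonneg p)) (G.m_pos p).le

theorem gC_le_nC : ∃ C : ℝ≥0, ∀ f, G.gC f ≤ C * G.nC f := by
  obtain ⟨C, h⟩ := G.ga_le_dm
  refine ⟨C ^ (1 / 2 : ℝ), fun f => (eLpNorm_mono_measure _ h).trans ?_⟩
  rw [ENNReal.smul_def, eLpNorm_smul_measure_of_ne_top ENNReal.ofNat_ne_top]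
  simp [nC, ENNReal.coe_rpow_of_nonneg]

theorem ga_finite : IsFiniteMeasure G.ga := by
  obtain ⟨C, h⟩ := G.ga_le_dm
  have : IsFiniteMeasure G.dm := isFiniteMeasure_withDensity_ofReal G.m_int.2
  exact isFiniteMeasure_of_le _ h

end WS.Geo

end Crest.Agent.N250

end
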