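import Crest.Agent.N250.H.Hol

/-!
# Row 250 (helper43): holomorphy from a dominating family of linear functionals

No continuity of the functionals is needed: only that a bound `t * w i` for all of them gives the
bound `t * K` for the norm.
-/

set_option autoImplicit false
set_option linter.unusedSectionVars false

open Metric Set Filter Topology

noncomputable section

namespace Crest.Agent.N250.WS.Hol

open Crest.Agent.N250.H

variable {E X : Type*} [NormedAddCommGroup E] [NormedSpace ℂ E] [NormedAddCommGroup X]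
  [NormedSpace ℂ X] {ι : Type*}

/-- `d` is a limit of vectors whose components converge to `g` -/
def App (Φ : ι → X →ₗ[ℂ] ℂ) (w : ι → ℝ) (g : ι → ℂ) (d : X) : Prop :=
  ∀ δ : ℝ, 0 < δ → ∃ v, ‖d - v‖ ≤ δ ∧ ∀ i, ‖Φ i v - g i‖ ≤ δ * w i

variable {Φ : ι → X →ₗ[ℂ] ℂ} {w : ι → ℝ} {K : ℝ}

lemma App.key (hn : ∀ v t, 0 ≤ t → (∀ i, ‖Φ i v‖ ≤ t * w i) → ‖v‖ ≤ t * K) (hK : 0 ≤ K)
    {g : ι → ℂ} {d u : X} (h : App Φ w g d) {t : ℝ} (ht : 0 ≤ t)
    (hu : ∀ i, ‖Φ i u - g i‖ ≤ t * w i) : ‖u - d‖ ≤ t * K := by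
  refine le_of_forall_pos_le_add fun ε hε => ?_
  obtain ⟨v, h1, h2⟩ := h (ε / (K + 1)) (by positivity)
  have h3 : ‖u - v‖ ≤ (t + ε / (K + 1)) * K := by
    refine hn _ _ (by positivity) fun i => ?_
    have e : Φ i (u - v) = (Φ i u - g i) - (Φ i v - g i) := by rw [map_sub]; abel
    rw [e, add_mul]
    exact (norm_sub_le _ _).trans (add_le_add (hu i) (h2 i))
  have e : u - d = (u - v) - (d - v) := by abel
  have e2 : ε / (K + 1) * K + ε / (K + 1) = ε := by field_simp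
  rw [e]
  refine (norm_sub_le _ _).trans ?_
  rw [add_mul] at h3
  linarith

lemma App.uniq (hn : ∀ v t, 0 ≤ t → (∀ i, ‖Φ i v‖ ≤ t * w i) → ‖v‖ ≤ t * K) (hK : 0 ≤ K)
    {g : ι → ℂ} {d d' : X} (h : App Φ w g d) (h' : App Φ w g d') : d = d' := by
  refine sub_eq_zero.1 (norm_le_zero_iff.1 (le_of_forall_pos_le_add fun ε hε => ?_))
  obtain ⟨v, h1, h2⟩ := h (ε / (K + 1)) (by positivity)
  have h3 := h'.key hn hK (by positivity) h2
  have e : d - d' = (d - v) + (v - d') := by abel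
  have e2 : ε / (K + 1) * K + ε / (K + 1) = ε := by field_simp
  rw [e]
  refine (norm_add_le _ _).trans ?_
  linarith

lemma App.add {g g' : ι → ℂ} {d d' : X} (h : App Φ w g d) (h' : App Φ w g' d') :
    App Φ w (fun i => g i + g' i) (d + d') := by
  intro δ hδ
  obtain ⟨v, h1, h2⟩ := h (δ / 2) (by positivity)
  obtain ⟨v', h1', h2'⟩ := h' (δ / 2) (by positivity)
  refine ⟨v + v', ?_, fun i => ?_⟩
  · have e : d + d' - (v + v') = (d - v) + (d' - v') := by abel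
    rw [e]
    linarith [norm_add_le (d - v) (d' - v')]
  · have e : Φ i (v + v') - (g i + g' i) = (Φ i v - g i) + (Φ i v' - g' i) := by
      rw [map_add]; abel
    rw [e]
    linarith [norm_add_le (Φ i v - g i) (Φ i v' - g' i), h2 i, h2' i]

lemma App.smul (hw : ∀ i, 0 ≤ w i) {g : ι → ℂ} {d : X} (h : App Φ w g d) (a : ℂ) :
    App Φ w (fun i => a • g i) (a • d) := by
  intro δ hδ
  have h0 : 0 < ‖a‖ + 1 := by positivity
  obtain ⟨v, h1, h2⟩ := h (δ / (‖a‖ + 1)) (by positivity)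
  have e : ‖a‖ * (δ / (‖a‖ + 1)) ≤ δ := by
    rw [← mul_div_assoc, div_le_iff₀ h0]; nlinarith
  refine ⟨a • v, ?_, fun i => ?_⟩
  · rw [← smul_sub, norm_smul]
    exact (mul_le_mul_of_nonneg_left h1 (norm_nonneg _)).trans e
  · rw [map_smul, ← smul_sub, norm_smul]
    refine (mul_le_mul_of_nonneg_left (h2 i) (norm_nonneg _)).trans ?_
    rw [← mul_assoc]
    exact mul_le_mul_of_nonneg_right e (hw i)

lemma exists_app [CompleteSpace X]
    (hn : ∀ v t, 0 ≤ t → (∀ i, ‖Φ i v‖ ≤ t * w i) → ‖v‖ ≤ t * K) (hw : ∀ i, 0 ≤ w i)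
    {g : ι → ℂ} (h : ∀ δ : ℝ, 0 < δ → ∃ v, ∀ i, ‖Φ i v - g i‖ ≤ δ * w i) :
    ∃ d, App Φ w g d := by
  choose q hq using fun n : ℕ => h (1 / ((n : ℝ) + 1)) (by positivity)
  have tl : Tendsto (fun n : ℕ => 1 / ((n : ℝ) + 1)) atTop (𝓝 0) :=
    tendsto_one_div_add_atTop_nhds_zero_nat
  have hc : CauchySeq q := by
    refine cauchySeq_of_le_tendsto_0' (fun n : ℕ => 2 * (1 / ((n : ℝ) + 1)) * K) ?_
      (by simpa using (tl.const_mul 2).mul_const K)
    intro n m hnm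
    rw [dist_eq_norm]
    have tm : 1 / ((m : ℝ) + 1) ≤ 1 / ((n : ℝ) + 1) := by gcongr
    refine hn _ _ (by positivity) fun i => ?_
    have e : Φ i (q n - q m) = (Φ i (q n) - g i) - (Φ i (q m) - g i) := by rw [map_sub]; abel
    rw [e]
    refine (norm_sub_le _ _).trans ?_
    have := mul_le_mul_of_nonneg_right tm (hw i)
    linarith [hq n i, hq m i]
  obtain ⟨d, hd⟩ := cauchySeq_tendsto_of_complete hc
  refine ⟨d, fun δ hδ => ?_⟩
  have a1 : ∀ᶠ n in atTop, q n ∈ ball d δ := hd (ball_mem_nhds d hδ)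
  have a2 : ∀ᶠ n : ℕ in atTop, 1 / ((n : ℝ) + 1) < δ := tl.eventually (gt_mem_nhds hδ)
  obtain ⟨n, h1, h2⟩ := (a1.and a2).exists
  refine ⟨q n, ?_, fun i => (hq n i).trans (mul_le_mul_of_nonneg_right h2.le (hw i))⟩
  rw [mem_ball', dist_eq_norm] at h1
  exact h1.le

/-- **dominating families**, with the Taylor estimate -/
theorem hasFD_of_dom [CompleteSpace X]
    (hn : ∀ v t, 0 ≤ t → (∀ i, ‖Φ i v‖ ≤ t * w i) → ‖v‖ ≤ t * K)
    {f : E → X} {c : E} {r : ℝ} (hr : 0 < r) (hM : ∀ i, ∀ z ∈ ball c r, ‖Φ i (f z)‖ ≤ w i)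
    (hd : ∀ i, DifferentiableOn ℂ (fun z => Φ i (f z)) (ball c r)) :
    ∃ D : E →L[ℂ] X, ∀ z ∈ ball c r,
      ‖f z - f c - D (z - c)‖ ≤ 4 * K / r ^ 2 * ‖z - c‖ ^ 2 := by
  have hw : ∀ i, 0 ≤ w i := fun i => (norm_nonneg _).trans (hM i c (mem_ball_self hr))
  have hK : 0 ≤ K := by simpa using hn 0 1 zero_le_one fun i => by simpa using hw i
  set G : ι → E →L[ℂ] ℂ := fun i => fderiv ℂ (fun z => Φ i (f z)) c with hG
  have ht : ∀ i, ∀ z ∈ ball c r,
      ‖Φ i (f z - f c) - G i (z - c)‖ ≤ 4 * (‖z - c‖ / r) ^ 2 * w i := by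
    intro i z hz
    rw [map_sub]
    exact (tay2 (hd i) (hM i) hz).trans (le_of_eq (by ring))
  have hex : ∀ h : E, ∃ d, App Φ w (fun i => G i h) d := by
    intro h
    refine exists_app hn hw fun δ hδ => ?_
    obtain ⟨t, t0, t1, t2⟩ : ∃ t : ℝ, 0 < t ∧ t * ‖h‖ < r ∧ 4 * (‖h‖ / r) ^ 2 * t ≤ δ := by
      have c1 : Tendsto (fun t : ℝ => t * ‖h‖) (𝓝[>] 0) (𝓝 0) := by
        have : Tendsto (fun t : ℝ => t * ‖h‖) (𝓝 0) (𝓝 (0 * ‖h‖)) :=
          tendsto_id.mul_const _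
        simpa using this.mono_left nhdsWithin_le_nhds
      have c2 : Tendsto (fun t : ℝ => 4 * (‖h‖ / r) ^ 2 * t) (𝓝[>] 0) (𝓝 0) := by
        have : Tendsto (fun t : ℝ => 4 * (‖h‖ / r) ^ 2 * t) (𝓝 0) (𝓝 (4 * (‖h‖ / r) ^ 2 * 0)) :=
          tendsto_id.const_mul _
        simpa using this.mono_left nhdsWithin_le_nhds
      obtain ⟨t, ⟨a1, a2⟩, a3⟩ := (((c1.eventually (gt_mem_nhds hr)).and
        (c2.eventually (gt_mem_nhds hδ))).and self_mem_nhdsWithin).exists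
      exact ⟨t, a3, a1, a2.le⟩
    refine ⟨((t : ℂ))⁻¹ • (f (c + (t : ℂ) • h) - f c), fun i => ?_⟩
    have hnn : ‖(t : ℂ) • h‖ = t * ‖h‖ := by
      rw [norm_smul, Complex.norm_real, Real.norm_of_nonneg t0.le]
    have hz : c + (t : ℂ) • h ∈ ball c r := by
      rw [mem_ball, dist_eq_norm, add_sub_cancel_left, hnn]; exact t1
    have h2 := ht i _ hz
    rw [add_sub_cancel_left, hnn, map_smul] at h2
    have hne : (t : ℂ) ≠ 0 := by exact_mod_cast t0.ne'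
    have e : Φ i (((t : ℂ))⁻¹ • (f (c + (t : ℂ) • h) - f c)) - G i h =
        ((t : ℂ))⁻¹ • (Φ i (f (c + (t : ℂ) • h) - f c) - (t : ℂ) • G i h) := by
      rw [smul_sub ((t : ℂ))⁻¹ (Φ i _), smul_smul, inv_mul_cancel₀ hne, one_smul, map_smul]
    rw [e, norm_smul, norm_inv, Complex.norm_real, Real.norm_of_nonneg t0.le,
      inv_mul_le_iff₀ t0]
    refine h2.trans ?_
    calc 4 * (t * ‖h‖ / r) ^ 2 * w i = t * (4 * (‖h‖ / r) ^ 2 * t * w i) := by ring
      _ ≤ t * (δ * w i) := by gcongr; exact hw i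
  choose D0 hD0 using hex
  let D1 : E →ₗ[ℂ] X :=
    { toFun := D0
      map_add' := fun h h' => (hD0 (h + h')).uniq hn hK (by
        simpa only [map_add] using (hD0 h).add (hD0 h'))
      map_smul' := fun a h => (hD0 (a • h)).uniq hn hK (by
        simpa only [map_smul, RingHom.id_apply] using (hD0 h).smul hw a) }
  have hb : ∀ h, ‖D1 h‖ ≤ 2 / r * K * ‖h‖ := by
    intro h
    have := (hD0 h).key hn hK (u := 0) (t := 2 / r * ‖h‖) (by positivity) fun i => by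
      rw [map_zero, zero_sub, norm_neg]
      refine ((G i).le_opNorm h).trans ?_
      have := fd_le hr (hd i) (hM i)
      calc ‖G i‖ * ‖h‖ ≤ 2 * w i / r * ‖h‖ := by gcongr
        _ = _ := by ring
    rw [zero_sub, norm_neg] at this
    exact this.trans (le_of_eq (by ring))
  refine ⟨D1.mkContinuous _ hb, fun z hz => ?_⟩
  have := (hD0 (z - c)).key hn hK (by positivity) (ht · z hz)
  exact this.trans (le_of_eq (by ring))

theorem diffAt_of_dom [CompleteSpace X]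
    (hn : ∀ v t, 0 ≤ t → (∀ i, ‖Φ i v‖ ≤ t * w i) → ‖v‖ ≤ t * K)
    {f : E → X} {c : E} {r : ℝ} (hr : 0 < r) (hM : ∀ i, ∀ z ∈ ball c r, ‖Φ i (f z)‖ ≤ w i)
    (hd : ∀ i, DifferentiableOn ℂ (fun z => Φ i (f z)) (ball c r)) : DifferentiableAt ℂ f c := by
  obtain ⟨D, hD⟩ := hasFD_of_dom hn hr hM hd
  exact (hasFD_of_sq hr D hD).differentiableAt

theorem diffOn_of_dom [CompleteSpace X]
    (hn : ∀ v t, 0 ≤ t → (∀ i, ‖Φ i v‖ ≤ t * w i) → ‖v‖ ≤ t * K)
    {f : E → X} {U : Set E} (hU : IsOpen U) (hM : ∀ i, ∀ z ∈ U, ‖Φ i (f z)‖ ≤ w i)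
    (hd : ∀ i, DifferentiableOn ℂ (fun z => Φ i (f z)) U) : DifferentiableOn ℂ f U := by
  intro c hc
  obtain ⟨r, hr, hs⟩ := Metric.isOpen_iff.1 hU c hc
  exact (diffAt_of_dom hn hr (fun i z hz => hM i z (hs hz))
    fun i => (hd i).mono hs).differentiableWithinAt

end Crest.Agent.N250.WS.Hol

end
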