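import Crest.Agent.N250.Wt.Base

/-!
# Row 250, weighted theory (helper44): the main estimate for real functions
-/

set_option autoImplicit false
set_option linter.unusedSectionVars false
open MeasureTheory Set Filter Topology
open scoped ContDiff ENNReal NNReal

noncomputable section

namespace Crest.Agent.N250

open Crest.Agent.N222

namespace WS

namespace Geo

variable {X : Type} [TopologicalSpace X] [MeasurableSpace X] [BorelSpace X] {G : Geo X}

/-- `A ≤ C B` uniformly -/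
def MLt {α : Type} (A B : α → ℝ≥0∞) : Prop := ∃ C : ℝ≥0, ∀ u, A u ≤ C * B u

section MLt

variable {α : Type} {A A' B B' : α → ℝ≥0∞}

theorem MLt.of_le (h : ∀ u, A u ≤ B u) : MLt A B := ⟨1, fun u => by simpa using h u⟩

theorem MLt.trans {D : α → ℝ≥0∞} (h : MLt A B) (h' : MLt B D) : MLt A D := by
  obtain ⟨C, h⟩ := h
  obtain ⟨C', h'⟩ := h'
  refine ⟨C * C', fun u => (h u).trans ?_⟩
  rw [ENNReal.coe_mul, mul_assoc]
  exact mul_le_mul_right (h' u) _

theorem MLt.add (h : MLt A B) (h' : MLt A' B) : MLt (fun u => A u + A' u) B := by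
  obtain ⟨C, h⟩ := h
  obtain ⟨C', h'⟩ := h'
  refine ⟨C + C', fun u => ?_⟩
  rw [ENNReal.coe_add, add_mul]
  exact add_le_add (h u) (h' u)

theorem MLt.left (h : MLt A B) (h' : ∀ u, A' u ≤ A u) : MLt A' B := (MLt.of_le h').trans h

theorem MLt.right (h : MLt A B) (h' : ∀ u, B u ≤ B' u) : MLt A B' := h.trans (MLt.of_le h')

theorem MLt.cmul (h : MLt A B) (c : ℝ≥0) : MLt (fun u => c * A u) B :=
  MLt.trans ⟨c, fun _ => le_rfl⟩ h

theorem MLt.sum {κ : Type} (s : Finset κ) {A : κ → α → ℝ≥0∞} (h : ∀ i ∈ s, MLt (A i) B) :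
    MLt (fun u => ∑ i ∈ s, A i u) B := by
  classical
  induction s using Finset.induction_on with
  | empty => exact MLt.of_le fun u => by simp
  | insert a s ha ih =>
    simp only [Finset.sum_insert ha]
    exact (h a (Finset.mem_insert_self _ _)).add
      (ih fun i hi => h i (Finset.mem_insert_of_mem hi))

end MLt

theorem mn_ι_pow (i : ℕ) : G.ι ^ i * G.ρ ^ i = 1 := by
  rw [← mul_pow, mul_comm, G.ρι, one_pow]

theorem mn_norm {τ σ : G.R} {n m : ℤ} (hτ : G.Bd n τ) (hσ : G.Sy m σ) (j : ℕ)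
    (h : n + m = j - 1) : G.Bd 0 (τ * σ * G.ι ^ j * G.ρ) :=
  (((hτ.mul hσ.bd).mul (G.sy_ι.pow j).bd).mul G.sy_ρ.bd).mono (by omega)

theorem mn_eq (τ σ s f : G.R) (j : ℕ) :
    τ * (s * σ * f) = τ * σ * G.ι ^ j * G.ρ * (s * G.ρ ^ j * G.ι * f) := by
  have h1 := mn_ι_pow (G := G) j
  have h2 := G.ρι
  linear_combination (-(τ * s * σ * f)) * h1 - τ * s * σ * f * (G.ι ^ j * G.ρ ^ j) * h2

theorem mn_base {τ σ : G.R} {n m : ℤ} (hτ : G.Bd n τ) (hσ : G.Sy m σ) (w : List (Fin 3))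
    (h : n + m = w.length - 1) :
    MLt (fun u => G.nR (τ * (σ * G.S.Dw w u))) (G.U w.length) := by
  obtain ⟨C, hC⟩ := (mn_norm hτ hσ w.length h).nR_mul
  refine ⟨C, fun u => ?_⟩
  have e := mn_eq τ σ 1 (G.S.Dw w u) w.length
  rw [one_mul, one_mul] at e
  beta_reduce
  rw [e]
  exact (hC _).trans (mul_le_mul_right
    (le_sumW' (fun l => G.nR (G.ρ ^ w.length * G.ι * G.S.Dw l u)) w) _)

/-- partial sums of the `U j` -/
def mSU (G : Geo X) (k : ℕ) (u : G.R) : ℝ≥0∞ := ∑ j ∈ Finset.range k, G.U j u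

theorem mSU_mono {k k' : ℕ} (h : k ≤ k') (u : G.R) : G.mSU k u ≤ G.mSU k' u :=
  Finset.sum_le_sum_of_subset (Finset.range_mono h)

theorem U_le_mSU {j k : ℕ} (h : j < k) (u : G.R) : G.U j u ≤ G.mSU k u :=
  Finset.single_le_sum (f := fun j => G.U j u) (fun _ _ => zero_le) (Finset.mem_range.2 h)

/-- commutator of a word of derivatives and a symbol -/
theorem mn_comm (l : List (Fin 3)) : ∀ {τ σ : G.R} {n m : ℤ} (w : List (Fin 3)), G.Bd n τ →
    G.Sy m σ → n + m = l.length + w.length - 1 →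
    MLt (fun u => G.nR (τ * (G.S.Dw l (σ * G.S.Dw w u) - σ * G.S.Dw (l ++ w) u)))
      (G.mSU (l.length + w.length)) := by
  induction l using List.reverseRecOn with
  | nil =>
    intro τ σ n m w _ _ _
    exact MLt.of_le fun u => by simp [Mov.Dw, nR_zero]
  | append_singleton l a ih =>
    intro τ σ n m w hτ hσ h
    rw [List.length_append, List.length_singleton] at h ⊢
    have h1 := ih w hτ (hσ.D a) (by push_cast at h; omega)
    have h2 := ih (a :: w) hτ hσ (by rw [List.length_cons]; push_cast at h ⊢; omega)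
    have h3 := mn_base hτ (hσ.D a) (l ++ w) (by rw [List.length_append]; push_cast at h ⊢; omega)
    refine (((h1.right (mSU_mono (by omega))).add
      (h2.right (mSU_mono (by rw [List.length_cons]; omega)))).add
      (h3.right (U_le_mSU (by rw [List.length_append]; omega)))).left fun u => ?_
    refine le_trans (le_of_eq ?_) ((nR_add _ _).trans (add_le_add (nR_add _ _) le_rfl))
    congr 1
    rw [Mov.Dw_snoc, G.hyp.mul, G.hyp.Dw_add, List.append_assoc, List.singleton_append]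
    simp only [Mov.Dw]
    ring

theorem mn_all (l w : List (Fin 3)) {τ σ : G.R} {n m : ℤ} (hτ : G.Bd n τ) (hσ : G.Sy m σ)
    (h : n + m = l.length + w.length - 1) :
    MLt (fun u => G.nR (τ * G.S.Dw l (σ * G.S.Dw w u))) (G.mSU (l.length + w.length + 1)) := by
  have h1 := mn_comm l w hτ hσ h
  have h3 := mn_base hτ hσ (l ++ w) (by rw [List.length_append]; push_cast; omega)
  refine ((h1.right (mSU_mono (by omega))).add
    (h3.right (U_le_mSU (by rw [List.length_append]; omega)))).left fun u => ?_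
  refine le_trans (le_of_eq ?_) (nR_add _ _)
  congr 1; ring

theorem mn_Ar (k : ℕ) (w : List (Fin 3)) {σ : G.R} (hσ : G.Sy (w.length - 1) σ) :
    MLt (fun u => G.Ar k (σ * G.S.Dw w u)) (G.mSU (k + w.length + 1)) :=
  sumW_bound k fun l hl => hl ▸ mn_all l w (G.sy_ρ_pow l.length).bd hσ (by ring)

/-- the top order terms -/
theorem mn_top (k : ℕ) : ∃ C : ℝ≥0, ∀ u,
    ∑ a, ∑ b, G.Ar k (G.ζ * G.ρ * G.S.D a (G.S.D b u)) ≤ G.U (k + 2) u + C * G.mSU (k + 2) u := by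
  have h1 : MLt (fun u => ∑ a, ∑ b, sumW k fun l => G.nR (G.ρ ^ k *
      (G.S.Dw l (G.ζ * G.ρ * G.S.Dw [a, b] u) - G.ζ * G.ρ * G.S.Dw (l ++ [a, b]) u)))
      (G.mSU (k + 2)) :=
    MLt.sum _ fun a _ => MLt.sum _ fun b _ => sumW_bound k fun l hl =>
      hl ▸ mn_comm l [a, b] (G.sy_ρ_pow l.length).bd (G.sy_ζ.mul G.sy_ρ) (by simp; ring)
  obtain ⟨C, hC⟩ := h1
  refine ⟨C, fun u => le_trans ?_ (add_le_add le_rfl (hC u))⟩
  have e : G.U (k + 2) u = ∑ a, ∑ b, sumW k fun l =>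
      G.nR (G.ρ ^ (k + 2) * G.ι * G.S.Dw (l ++ [a, b]) u) := by
    rw [U, sumW_snoc, sumW_snoc]
    simp only [sumW_sum, List.append_assoc, List.singleton_append]
  rw [e, ← Finset.sum_add_distrib]
  refine Finset.sum_le_sum fun a _ => ?_
  rw [← Finset.sum_add_distrib]
  refine Finset.sum_le_sum fun b _ => ?_
  rw [← sumW_add, Ar]
  refine sumW_le' k fun l _ => ?_
  have e2 : G.ρ ^ k * G.S.Dw l (G.ζ * G.ρ * G.S.D a (G.S.D b u)) =
      G.ζ * (G.ρ ^ (k + 2) * G.ι * G.S.Dw (l ++ [a, b]) u) + G.ρ ^ k *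
        (G.S.Dw l (G.ζ * G.ρ * G.S.Dw [a, b] u) - G.ζ * G.ρ * G.S.Dw (l ++ [a, b]) u) := by
    have h2 := G.ρι
    simp only [Mov.Dw]
    linear_combination (-(G.ζ * G.ρ ^ (k + 1) * G.S.Dw (l ++ [a, b]) u)) * h2
  rw [e2]
  refine (nR_add _ _).trans (add_le_add ?_ le_rfl)
  have := nR_le (C := 1) (f := G.ζ * (G.ρ ^ (k + 2) * G.ι * G.S.Dw (l ++ [a, b]) u))
    (g := G.ρ ^ (k + 2) * G.ι * G.S.Dw (l ++ [a, b]) u) fun p =>
      (abs_mul _ _).trans_le (mul_le_mul_of_nonneg_right (G.ζ_le p) (abs_nonneg _))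
  simpa using this

/-! ### sup norms -/

/-- admissible cut-offs -/
structure MZc (G : Geo X) (s : G.R) : Prop where
  sy : G.Sy 0 s
  sd : ∀ a, G.Sy (-3) (G.S.D a s)
  su : tsupport s.1 ⊆ tsupport G.ζ.1

theorem mzc_ζ : G.MZc G.ζ := ⟨G.sy_ζ, G.symDζ, subset_rfl⟩

theorem mn_supp_D (s : G.R) (a : Fin 3) : tsupport (G.ρ * G.S.D a s).1 ⊆ tsupport s.1 := by
  refine closure_minimal (fun p hp => ?_) (isClosed_tsupport _)
  by_contra h
  refine hp ?_
  have h1 : s.1 =ᶠ[𝓝 p] fun _ => 0 := notMem_tsupport_iff_eventuallyEq.1 h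
  have h2 : (G.S.D a s).1 p = 0 := by
    have := Imm.D_congr (M := G.M) h1 a
    exact this.trans (Imm.D_const _ _ _)
  change G.ρ.1 p * (G.S.D a s).1 p = 0
  rw [h2, mul_zero]

theorem MZc.D {s : G.R} (h : G.MZc s) (a : Fin 3) : G.MZc (G.ρ * G.S.D a s) :=
  ⟨(G.sy_ρ.mul (h.sd a)).mono (by omega),
    fun b => ((G.sy_ρ.mul (h.sd a)).D b).mono (by omega), (mn_supp_D s a).trans h.su⟩

/-- partial sums of `U j + T j` -/
def mSV (G : Geo X) (k : ℕ) (u : G.R) : ℝ≥0∞ := ∑ j ∈ Finset.range k, (G.U j u + G.T j u)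

theorem mSV_mono {k k' : ℕ} (h : k ≤ k') (u : G.R) : G.mSV k u ≤ G.mSV k' u :=
  Finset.sum_le_sum_of_subset (Finset.range_mono h)

theorem mn_sup (hS : G.SupS) (l : List (Fin 3)) : ∀ {τ σ s : G.R} {n m : ℤ} (w : List (Fin 3)),
    G.Bd n τ → G.Sy m σ → G.MZc s → n + m = l.length + w.length - 1 →
    MLt (fun u => G.sR (τ * G.S.Dw l (s * σ * G.S.Dw w u))) (G.mSV (l.length + w.length + 3)) := by
  induction l using List.reverseRecOn with
  | nil =>
    intro τ σ s n m w hτ hσ hs h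
    obtain ⟨C, hC⟩ := (mn_norm hτ hσ w.length (by simpa using h)).sR_mul
    refine MLt.trans ⟨C, fun u => ?_⟩
      (MLt.right (hS s hs.sy hs.sd hs.su w) fun u => le_of_eq (by simp [mSV]))
    simp only [Mov.Dw]
    rw [mn_eq τ σ s _ w.length]
    exact hC _
  | append_singleton l a ih =>
    intro τ σ s n m w hτ hσ hs h
    rw [List.length_append, List.length_singleton] at h ⊢
    have h1 := ih w hτ (G.sy_ι.mul hσ) (hs.D a) (by push_cast at h; omega)
    have h2 := ih w hτ (hσ.D a) hs (by push_cast at h; omega)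
    have h3 := ih (a :: w) hτ hσ hs (by rw [List.length_cons]; push_cast at h ⊢; omega)
    refine (((h1.right (mSV_mono (by omega))).add (h2.right (mSV_mono (by omega)))).add
      (h3.right (mSV_mono (by rw [List.length_cons]; omega)))).left fun u => ?_
    refine le_trans (le_of_eq ?_) ((sR_add _ _).trans (add_le_add (sR_add _ _) le_rfl))
    congr 1
    rw [← mul_add, ← mul_add, ← G.hyp.Dw_add, ← G.hyp.Dw_add, Mov.Dw_snoc, G.hyp.mul, G.hyp.mul]
    congr 2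
    have h2 := G.ρι
    simp only [Mov.Dw]
    linear_combination (-(G.S.D a s * σ * G.S.Dw w u)) * h2

theorem mn_Sr (hS : G.SupS) (k : ℕ) (w : List (Fin 3)) {σ : G.R} (hσ : G.Sy (w.length - 1) σ) :
    MLt (fun u => G.Sr k (G.ζ * σ * G.S.Dw w u)) (G.mSV (k + w.length + 3)) :=
  sumW_bound k fun l hl => hl ▸ mn_sup hS l w (G.sy_ρ_pow l.length).bd hσ mzc_ζ (by ring)

/-! ### the levels -/

/-- the lower order terms -/
def Bk (G : Geo X) (k : ℕ) (u : G.R) : ℝ≥0∞ :=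
  ∑ j ∈ Finset.range k, G.Ar j (G.ρ * G.S.LL u) + G.gR u

theorem Bk_mono {k k' : ℕ} (h : k ≤ k') (u : G.R) : G.Bk k u ≤ G.Bk k' u :=
  add_le_add (Finset.sum_le_sum_of_subset (Finset.range_mono h)) le_rfl

theorem lev_Bk (hL : G.LevS) {j k : ℕ} (h : j < k) :
    MLt (fun u => G.U (j + 2) u + G.T j u + G.U 1 u + G.U 0 u) (G.Bk k) := by
  obtain ⟨C₀, hL⟩ := hL
  obtain ⟨C, hC⟩ := hL j
  refine MLt.left (MLt.add (MLt.cmul (MLt.of_le fun u => ?_) C₀)
    (MLt.cmul (MLt.of_le (Bk_mono h.le)) C)) hC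
  exact le_add_right (Finset.single_le_sum (f := fun j => G.Ar j (G.ρ * G.S.LL u))
    (fun _ _ => zero_le) (Finset.mem_range.2 h))

theorem U_Bk (hL : G.LevS) {j k : ℕ} (hk : 0 < k) (h : j < k + 2) : MLt (G.U j) (G.Bk k) := by
  match j, h with
  | 0, _ => exact (lev_Bk hL hk).left fun u => le_add_self
  | 1, _ => exact (lev_Bk hL hk).left fun u => le_add_right le_add_self
  | j + 2, h =>
    exact (lev_Bk hL (j := j) (by omega)).left fun u =>
      le_add_right (le_add_right le_self_add)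

theorem mSU_Bk (hL : G.LevS) {k : ℕ} (hk : 0 < k) : MLt (G.mSU (k + 2)) (G.Bk k) :=
  MLt.sum _ fun _ hj => U_Bk hL hk (Finset.mem_range.1 hj)

theorem mSV_Bk (hL : G.LevS) (k : ℕ) : MLt (G.mSV k) (G.Bk k) :=
  MLt.sum _ fun j hj => (U_Bk hL (by have := Finset.mem_range.1 hj; omega)
    (by have := Finset.mem_range.1 hj; omega)).add
    ((lev_Bk hL (Finset.mem_range.1 hj)).left fun u => le_add_right (le_add_right le_add_self))

/-- real jets -/
def jR (G : Geo X) (N : G.R → ℝ≥0∞) (u : G.R) : ℝ≥0∞ :=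
  N (G.ζ * G.ι * u) + ∑ a, N (G.ζ * G.S.D a u) + ∑ a, ∑ b, N (G.ζ * G.ρ * G.S.D a (G.S.D b u))

theorem jR_Ar (k : ℕ) : ∃ C : ℝ≥0, ∀ u,
    G.jR (G.Ar k) u ≤ G.U (k + 2) u + C * G.mSU (k + 2) u := by
  obtain ⟨C, hC⟩ := mn_top (G := G) k
  have h0 := (mn_Ar k [] (σ := G.ζ * G.ι) ((G.sy_ζ.mul G.sy_ι).cast (by simp))).right
    (mSU_mono (k' := k + 2) (by simp))
  have h1 : MLt (fun u => ∑ a, G.Ar k (G.ζ * G.S.D a u)) (G.mSU (k + 2)) :=
    MLt.sum _ fun a _ => mn_Ar k [a] (G.sy_ζ.cast (by simp))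
  obtain ⟨C', hC'⟩ := h0.add h1
  refine ⟨C' + C, fun u => (add_le_add (hC' u) (hC u)).trans (le_of_eq ?_)⟩
  push_cast; ring

theorem jR_Sr (hS : G.SupS) (i : ℕ) : MLt (G.jR (G.Sr i)) (G.mSV (i + 5)) := by
  have h0 := (mn_Sr hS i [] (σ := G.ι) (G.sy_ι.cast (by simp))).right
    (mSV_mono (k' := i + 5) (by simp))
  have h1 : MLt (fun u => ∑ a, G.Sr i (G.ζ * G.S.D a u)) (G.mSV (i + 5)) :=
    MLt.sum _ fun a _ => ((mn_Sr hS i [a] (σ := 1) (sy_one.cast (by simp))).right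
      (mSV_mono (k' := i + 5) (by simp))).left fun u => le_of_eq (by rw [mul_one]; rfl)
  have h2 : MLt (fun u => ∑ a, ∑ b, G.Sr i (G.ζ * G.ρ * G.S.D a (G.S.D b u))) (G.mSV (i + 5)) :=
    MLt.sum _ fun a _ => MLt.sum _ fun b _ => mn_Sr hS i [a, b] (G.sy_ρ.cast (by simp))
  exact (h0.add h1).add h2

/-- the main estimate for real functions -/
theorem main_real (hL : G.LevS) (hS : G.SupS) : ∃ C₀ : ℝ≥0, ∀ k, ∃ C : ℝ≥0, ∀ u,
    G.jR (G.Ar k) u + (if 5 ≤ k then G.jR (G.Sr (k - 5)) u else 0) ≤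
      C₀ * G.Ar k (G.ρ * G.S.LL u) + C * G.Bk k u := by
  obtain ⟨C₀, hL'⟩ := id hL
  obtain ⟨A₀, hA₀⟩ := jR_Ar (G := G) 0
  refine ⟨(1 + A₀) * C₀, fun k => ?_⟩
  obtain ⟨C, hC⟩ := hL' k
  rcases Nat.eq_zero_or_pos k with rfl | hk
  · refine ⟨(1 + A₀) * C, fun u => ?_⟩
    rw [if_neg (by omega), add_zero]
    have h1 : G.mSU (0 + 2) u ≤ G.U (0 + 2) u + G.T 0 u + G.U 1 u + G.U 0 u := by
      simp only [mSU, zero_add, Finset.sum_range_succ, Finset.range_zero, Finset.sum_empty]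
      rw [add_comm (G.U 0 u), add_assoc _ (G.U 1 u)]
      exact le_add_self
    have h2 : G.U (0 + 2) u ≤ G.U (0 + 2) u + G.T 0 u + G.U 1 u + G.U 0 u :=
      le_add_right (le_add_right le_self_add)
    refine (hA₀ u).trans ((add_le_add (h2.trans (hC u))
      (mul_le_mul_right (h1.trans (hC u)) _)).trans (le_of_eq ?_))
    unfold Bk; push_cast; ring
  · obtain ⟨A, hA⟩ := jR_Ar (G := G) k
    have h3 : MLt (fun u => if 5 ≤ k then G.jR (G.Sr (k - 5)) u else 0) (G.Bk k) := by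
      split_ifs with h5
      · have := jR_Sr hS (k - 5)
        rw [Nat.sub_add_cancel h5] at this
        exact this.trans (mSV_Bk hL k)
      · exact MLt.of_le fun _ => zero_le
    obtain ⟨B, hB⟩ := ((mSU_Bk hL hk).cmul A).add h3
    refine ⟨C + B, fun u => ?_⟩
    have h2 : G.U (k + 2) u ≤ G.U (k + 2) u + G.T k u + G.U 1 u + G.U 0 u :=
      le_add_right (le_add_right le_self_add)
    refine (add_le_add (hA u) le_rfl).trans ?_
    rw [add_assoc]
    refine (add_le_add (h2.trans (hC u)) (hB u)).trans ?_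
    have h4 : (C₀ : ℝ≥0∞) ≤ ((1 + A₀) * C₀ : ℝ≥0) := by
      rw [ENNReal.coe_le_coe, add_mul, one_mul]; exact le_self_add
    rw [add_assoc]
    refine add_le_add (mul_le_mul_left h4 _) (le_of_eq ?_)
    unfold Bk; push_cast; ring

end Geo

end WS

end Crest.Agent.N250

end
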