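import Crest.Agent.N250.Wt.Sup3

/-!
# Row 250 (helper84): the sup bounds `SupS`
-/

set_option autoImplicit false
open MeasureTheory Set Filter Topology
open scoped ContDiff ENNReal NNReal

noncomputable section

namespace Crest.Agent.N250.WS.Geo

open Crest.Agent.N222

variable {X : Type} [TopologicalSpace X] [MeasurableSpace X] (G : Geo X)

namespace SupP

/-- `ρ^(j-1) D^l u` -/
def W (l : List (Fin 3)) (u : G.R) : G.R := G.ρ ^ l.length * G.ι * G.S.Dw l u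

/-- the right hand side -/
def N (k : ℕ) (u : G.R) : ℝ≥0∞ := ∑ j ∈ Finset.range k, (G.U j u + G.T j u)

/-- growth at most `r` on the balls of radius `2 r` -/
def Good (k : ℕ) (F : G.R → G.R) : Prop := ∃ C : ℝ≥0, ∀ u r, 1 ≤ r →
  G.nS {p | G.S.x2.1 p ≤ 4 * r ^ 2} (F u) ≤ C * ENNReal.ofReal r * N G k u

/-- supported in the zone -/
def Zo (c : G.R) : Prop := ∀ p, c.1 p ≠ 0 → p ∈ tsupport G.ζ.1

theorem D_e (j : ℕ) (a : Fin 3) : G.ρ * G.S.D a (G.ρ ^ j * G.ι) =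
    ((j : G.R) - 1) * G.S.D a G.ρ * (G.ρ ^ j * G.ι) := by
  have e := G.ρι
  induction j with
  | zero =>
    have h := G.hyp.mul a G.ρ G.ι
    rw [e, G.hyp.toIsDS.D_one] at h
    rw [pow_zero, one_mul]
    push_cast
    linear_combination -h
  | succ j ih =>
    rw [pow_succ', mul_assoc, G.hyp.mul]
    push_cast
    linear_combination G.ρ * ih

theorem dW (l : List (Fin 3)) (u : G.R) (a : Fin 3) : G.ρ * G.S.D a (W G l u) =
    W G (a :: l) u + ((l.length : G.R) - 1) * G.S.D a G.ρ * W G l u := by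
  have := D_e G l.length a
  simp only [W, G.hyp.mul _ (G.ρ ^ l.length * G.ι), List.length_cons, Mov.Dw]
  linear_combination G.S.Dw l u * this

theorem drW (l : List (Fin 3)) (u : G.R) : G.ρ ^ 2 * G.S.dr (W G l u) =
    G.ρ ^ (l.length + 1) * G.S.Pi l.length (G.S.Dw l u) +
      ((l.length : G.R) - 1) * (G.ρ * (G.S.dr G.ρ - G.ρ)) * W G l u := by
  have a := D_e G l.length 0
  have b := D_e G l.length 1
  have c := D_e G l.length 2
  have e := G.ρι
  simp only [W, Mov.Pi, Mov.dr, G.hyp.mul _ (G.ρ ^ l.length * G.ι), Fin.sum_univ_three]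
  linear_combination G.ρ * G.S.Dw l u * (G.S.x 0 * a + G.S.x 1 * b + G.S.x 2 * c) +
    G.ρ ^ (l.length + 1) * (G.S.x 0 * G.S.D 0 (G.S.Dw l u) + G.S.x 1 * G.S.D 1 (G.S.Dw l u) +
      G.S.x 2 * G.S.D 2 (G.S.Dw l u) + ((l.length : G.R) - 1) * G.S.Dw l u) * e

variable {G} {k : ℕ} {l : List (Fin 3)} {F F' : G.R → G.R} {c s : G.R}

theorem W_le (h : l.length < k) (u : G.R) : G.nR (W G l u) ≤ N G k u :=
  ((le_sumW' (fun w => G.nR (G.ρ ^ l.length * G.ι * G.S.Dw w u)) l).trans le_self_add).trans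
    (Finset.single_le_sum (f := fun j => G.U j u + G.T j u) (fun _ _ => zero_le)
      (Finset.mem_range.2 h))

theorem T_le (h : l.length < k) (u : G.R) :
    G.nR (G.ρ ^ (l.length + 1) * G.S.Pi l.length (G.S.Dw l u)) ≤ N G k u :=
  ((le_sumW' (fun w => G.nR (G.ρ ^ (l.length + 1) * G.S.Pi l.length (G.S.Dw w u))) l).trans
    le_add_self).trans (Finset.single_le_sum (f := fun j => G.U j u + G.T j u) (fun _ _ => zero_le)
      (Finset.mem_range.2 h))

theorem zo_D (h : tsupport s.1 ⊆ tsupport G.ζ.1) (a : Fin 3) : Zo G (G.S.D a s) := fun _ hp =>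
  h (by_contra fun h' => hp (Imm.D_eq_zero_of_notMem h' a))

theorem Zo.mul (h : Zo G c) (f : G.R) : Zo G (f * c) := fun p hp =>
  h p fun h' => hp (mul_eq_zero_of_right _ h')

theorem bd_x {m : ℤ} (hc : G.Bd m c) (hz : Zo G c) (a : Fin 3) : G.Bd (1 + m) (G.S.x a * c) := by
  obtain ⟨Z, hZ⟩ := G.zone
  obtain ⟨C, C0, hC⟩ := hc
  refine ⟨√Z * C, by positivity, fun p => ?_⟩
  have ρ0 := G.ρ_pos p
  show |(G.S.x a).1 p * c.1 p| ≤ _
  rcases eq_or_ne (c.1 p) 0 with h | h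
  · rw [h, mul_zero, abs_zero]; positivity
  have h1 := (hZ p (hz p h)).1
  have h2 : (G.S.x a).1 p * (G.S.x a).1 p ≤ G.S.x2.1 p := by
    rw [x2_pt]
    exact Finset.single_le_sum (f := fun a => (G.S.x a).1 p * (G.S.x a).1 p)
      (fun _ _ => mul_self_nonneg _) (Finset.mem_univ a)
  have h3 : |(G.S.x a).1 p| ≤ √Z * G.ρ.1 p := by
    refine abs_le_of_sq_le_sq ?_ (by positivity)
    have : Z * G.ρ.1 p ^ 2 ≤ √Z ^ 2 * G.ρ.1 p ^ 2 :=
      mul_le_mul_of_nonneg_right (Real.sq_sqrt' ▸ le_max_left _ _) (sq_nonneg _)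
    have h4 : 1 + G.S.x2.1 p ≤ Z * G.ρ.1 p ^ 2 := h1
    nlinarith
  rw [abs_mul, zpow_add₀ ρ0.ne', zpow_one]
  calc _ ≤ √Z * G.ρ.1 p * (C * G.ρ.1 p ^ m) := mul_le_mul h3 (hC p) (abs_nonneg _) (by positivity)
    _ = _ := by ring

variable [BorelSpace X]

theorem Good.add (h : Good G k F) (h' : Good G k F') : Good G k fun u => F u + F' u := by
  obtain ⟨C, h⟩ := h
  obtain ⟨C', h'⟩ := h'
  refine ⟨C + C', fun u r hr => (nS_add _ _ _).trans ((add_le_add (h u r hr) (h' u r hr)).trans_eq ?_)⟩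
  rw [ENNReal.coe_add]; ring

theorem Good.mul (hc : G.Bd 0 c) (h : Good G k F) : Good G k fun u => c * F u := by
  obtain ⟨C, h⟩ := h
  obtain ⟨C', h'⟩ := hc.abs_mul
  refine ⟨C' * C, fun u r hr => (nS_le (isClosed_le (cont _) continuous_const).measurableSet
    subset_rfl fun p _ => h' (F u) p).trans ((mul_le_mul_right (h u r hr) _).trans_eq ?_)⟩
  rw [ENNReal.coe_mul, ENNReal.ofReal_coe_nnreal]; ring

theorem good_z (hc : G.Bd (-2) c) (hz : Zo G c) (h : l.length < k) :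
    Good G k fun u => c * W G l u := by
  obtain ⟨Z, hZ⟩ := G.zone
  obtain ⟨C, C0, hC⟩ := hc
  refine ⟨(C * √Z).toNNReal, fun u r hr => (nS_le_nR (g := W G l u) (c := C * √Z) _
    (by positivity) fun p => ?_).trans ?_⟩
  · have m0 := (G.m_pos p).le
    show (c.1 p * (W G l u).1 p) ^ 2 ≤ _
    rcases eq_or_ne (c.1 p) 0 with h0 | h0
    · rw [h0, zero_mul, sq, zero_mul]; positivity
    have h1 := (hZ p (hz p h0)).2
    have h2 : c.1 p ^ 2 ≤ C ^ 2 * G.ι.1 p ^ 4 := by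
      rw [← sq_abs]
      refine (pow_le_pow_left₀ (abs_nonneg _) (hC p) 2).trans_eq ?_
      rw [ι_eq, zpow_neg, zpow_ofNat]; ring
    have h3 : Z * G.m.1 p ≤ √Z ^ 2 * G.m.1 p :=
      mul_le_mul_of_nonneg_right (Real.sq_sqrt' ▸ le_max_left _ _) m0
    calc _ = c.1 p ^ 2 * (W G l u).1 p ^ 2 := mul_pow _ _ _
      _ ≤ C ^ 2 * (√Z ^ 2 * G.m.1 p) * (W G l u).1 p ^ 2 := by
          gcongr; exact h2.trans (mul_le_mul_of_nonneg_left (h1.trans h3) (sq_nonneg _))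
      _ = _ := by ring
  · refine mul_le_mul' ?_ (W_le h u)
    exact le_mul_of_one_le_right' (ENNReal.one_le_ofReal.2 hr)

variable [T2Space X] [SecondCountableTopology X] (hs : G.Sy 0 s) (hD : ∀ a, G.Sy (-3) (G.S.D a s))
  (hz : tsupport s.1 ⊆ tsupport G.ζ.1)
include hs hD hz

theorem good_s (h : l.length < k) : Good G k fun u => s * W G l u := by
  obtain ⟨C, hC⟩ := G.rad_le
  obtain ⟨C₁, h₁⟩ := hs.bd.nR_mul
  have b1 : G.Bd (-1) (G.S.dr G.ρ - G.ρ) := by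
    obtain ⟨C, hC⟩ := G.drρ
    exact bd_of ⟨C, fun p => by rw [zpow_neg_one, ← ι_eq]; exact hC p⟩
  have b2 : ∀ a, G.Bd (-2) (G.S.x a * G.S.D a s) := fun a => bd_x (hD a).bd (zo_D hz a) a
  have b3 : G.Bd 0 (G.ρ ^ 2 * G.S.dr s + s * (((l.length : G.R) - 1) *
      (G.ρ * (G.S.dr G.ρ - G.ρ)))) := by
    refine Bd.add ?_ (hs.bd.mul (((sy_natCast _).sub sy_one).bd.mul (G.sy_ρ.bd.mul b1)))
    rw [Mov.dr, Fin.sum_univ_three]
    exact (G.sy_ρ_pow 2).bd.mul (((b2 0).add (b2 1)).add (b2 2))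
  obtain ⟨C₂, h₂⟩ := b3.nR_mul
  refine ⟨C * (C₁ + C₁ + C₂), fun u r hr => (hC _ r hr fun p hp =>
    hz (subset_tsupport _ fun h0 => hp (mul_eq_zero_of_left h0 _))).trans ?_⟩
  have e : G.ρ ^ 2 * G.S.dr (s * W G l u) =
      s * (G.ρ ^ (l.length + 1) * G.S.Pi l.length (G.S.Dw l u)) + (G.ρ ^ 2 * G.S.dr s +
        s * (((l.length : G.R) - 1) * (G.ρ * (G.S.dr G.ρ - G.ρ)))) * W G l u := by
    have := drW G l u
    simp only [Mov.dr, G.hyp.mul _ s, Fin.sum_univ_three] at this ⊢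
    linear_combination s * this
  rw [e]
  calc _ ≤ C * ENNReal.ofReal r * (C₁ * N G k u + (C₁ * N G k u + C₂ * N G k u)) := by
        gcongr
        · exact (h₁ _).trans (mul_le_mul_right (W_le h u) _)
        · exact (nR_add _ _).trans (add_le_add ((h₁ _).trans (mul_le_mul_right (T_le h u) _))
            ((h₂ _).trans (mul_le_mul_right (W_le h u) _)))
    _ = _ := by push_cast; ring

omit hs hD hz [BorelSpace X] [T2Space X] [SecondCountableTopology X] in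
theorem d_sW (s : G.R) (l : List (Fin 3)) (a : Fin 3) (u : G.R) : G.ρ * G.S.D a (s * W G l u) =
    s * W G (a :: l) u + ((l.length : G.R) - 1) * G.S.D a G.ρ * (s * W G l u) +
      G.ρ * G.S.D a s * W G l u := by
  rw [G.hyp.mul]
  linear_combination s * dW G l u a

omit hs hD hz [BorelSpace X] [T2Space X] [SecondCountableTopology X] in
theorem sy_J (l : List (Fin 3)) (a : Fin 3) : G.Sy 0 (((l.length : G.R) - 1) * G.S.D a G.ρ) :=
  ((sy_natCast _).sub sy_one).mul (G.sy_ρ.D a)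

theorem good_d (a : Fin 3) (h : l.length + 1 < k) :
    Good G k fun u => G.ρ * G.S.D a (s * W G l u) := by
  simp only [d_sW]
  exact ((good_s hs hD hz (l := a :: l) h).add ((good_s hs hD hz (by omega)).mul (sy_J l a).bd)).add
    (good_z (G.sy_ρ.mul (hD a)).bd ((zo_D hz a).mul _) (by omega))

theorem good_dd (a : Fin 3) (h : l.length + 2 < k) :
    Good G k fun u => G.ρ ^ 2 * G.S.D a (G.S.D a (s * W G l u)) := by
  have e : ∀ u, G.ρ ^ 2 * G.S.D a (G.S.D a (s * W G l u)) =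
      G.ρ * G.S.D a (s * W G (a :: l) u) +
      G.ρ * G.S.D a (((l.length : G.R) - 1) * G.S.D a G.ρ) * (s * W G l u) +
      (((l.length : G.R) - 1) * G.S.D a G.ρ - G.S.D a G.ρ) * (G.ρ * G.S.D a (s * W G l u)) +
      (G.ρ * G.S.D a G.ρ * G.S.D a s + G.ρ ^ 2 * G.S.D a (G.S.D a s) +
        ((l.length : G.R) - 1) * G.S.D a G.ρ * G.ρ * G.S.D a s) * W G l u +
      G.ρ * G.S.D a s * W G (a :: l) u := fun u => by
    have h1 := congrArg (G.S.D a) (d_sW s l a u)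
    have h2 := dW G l u a
    rw [G.hyp.mul, G.hyp.add, G.hyp.add, G.hyp.mul _ _ (s * W G l u),
      G.hyp.mul _ (G.ρ * G.S.D a s), G.hyp.mul _ G.ρ] at h1
    linear_combination G.ρ * h1 + G.ρ * G.S.D a s * h2
  simp only [e]
  have z2 : Zo G (G.S.D a (G.S.D a s)) := zo_D ((Imm.tsupport_D_subset _ a).trans hz) a
  refine ((((good_d hs hD hz (l := a :: l) a h).add ((good_s hs hD hz (by omega)).mul
    (G.sy_ρ.mul ((sy_J l a).D a)).bd)).add ((good_d hs hD hz a (by omega)).mul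
      ((sy_J l a).sub (G.sy_ρ.D a)).bd)).add (good_z ?_ ?_ (by omega))).add
    (good_z (l := a :: l) (G.sy_ρ.mul (hD a)).bd ((zo_D hz a).mul _) (by simp; omega))
  · exact ((((G.sy_ρ.mul (G.sy_ρ.D a)).mul (hD a)).add ((G.sy_ρ_pow 2).mul ((hD a).D a))).add
      (((sy_J l a).mul G.sy_ρ).mul (hD a))).bd
  · intro p hp
    by_contra h0
    have a1 : (G.S.D a s).1 p = 0 := by_contra fun h => h0 (zo_D hz a p h)
    have a2 : (G.S.D a (G.S.D a s)).1 p = 0 := by_contra fun h => h0 (z2 p h)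
    refine hp ?_
    rw [← ev_apply] at a1 a2 ⊢
    simp only [map_add, map_mul, a1, a2, mul_zero, add_zero]

end SupP

open SupP in
/-- **the sup bounds** -/
theorem supS [BorelSpace X] [T2Space X] [SecondCountableTopology X] : G.SupS := by
  intro s hs hD hz l
  obtain ⟨Z, hZ⟩ := G.zone
  obtain ⟨Ch, Ch0, hh⟩ := G.sy_h.bd
  obtain ⟨z, hz'⟩ : ∃ z : ℝ≥0, Z ≤ (z : ℝ) ^ 2 :=
    ⟨⟨√Z, Real.sqrt_nonneg _⟩, Real.sq_sqrt' ▸ le_max_left _ _⟩
  obtain ⟨C, hC⟩ := G.heat_loc (Ch ^ 2 * z ^ 2)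
  obtain ⟨C₀, h₀⟩ := good_s hs hD hz (l := l) (k := l.length + 3) (by omega)
  choose C₁ h₁ using fun a => good_d hs hD hz (l := l) (k := l.length + 3) a (by omega)
  choose C₂ h₂ using fun a => good_dd hs hD hz (l := l) (k := l.length + 3) a (by omega)
  refine ⟨C * (2 * C₀ + ∑ a, 2 * z * C₁ a + ∑ a, 2 * z ^ 2 * C₂ a), fun u => iSup_le fun p₀ => ?_⟩
  have ev : s * G.ρ ^ l.length * G.ι * G.S.Dw l u = s * W G l u := by rw [W]; ring
  rw [ev]
  show _ ≤ _ * N G (l.length + 3) u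
  have t0 := G.x2_nonneg p₀
  obtain ⟨r, r0, hr⟩ : ∃ r : ℝ, 0 < r ∧ (2 * r) ^ 2 = 1 + G.S.x2.1 p₀ :=
    ⟨√(1 + G.S.x2.1 p₀) / 2, by positivity, by
      rw [mul_div_cancel₀ _ two_ne_zero, Real.sq_sqrt (by positivity)]⟩
  have r1 : 1 ≤ 2 * r := by nlinarith
  set v := s * W G l u with hv
  set B := {p | (G.uu (G.M.x p₀)).1 p ≤ r ^ 2} with hB
  have mB : MeasurableSet B := (G.cpt_uu _ _).measurableSet
  have geo : ∀ p ∈ B, G.S.x2.1 p ≤ 4 * (2 * r) ^ 2 ∧ r ^ 2 ≤ 1 + G.S.x2.1 p := fun p hp => by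
    have a : ‖G.M.x p - G.M.x p₀‖ ^ 2 ≤ r ^ 2 := hp
    have b := norm_sub_norm_le (G.M.x p) (G.M.x p₀)
    have c := norm_sub_norm_le (G.M.x p₀) (G.M.x p)
    rw [norm_sub_rev] at c
    rw [x2_normH] at hr ⊢
    have n1 := norm_nonneg (G.M.x p)
    have n2 := norm_nonneg (G.M.x p₀)
    have n3 := norm_nonneg (G.M.x p - G.M.x p₀)
    generalize ‖G.M.x p - G.M.x p₀‖ = d, ‖G.M.x p‖ = x, ‖G.M.x p₀‖ = y at *
    constructor
    · nlinarith [mul_self_le_mul_self n1 (show x ≤ y + d by linarith), sq_nonneg (y - d)]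
    · nlinarith [mul_self_le_mul_self n2 (show y ≤ x + d by linarith), sq_nonneg (x - d)]
  have sub : B ⊆ {p | G.S.x2.1 p ≤ 4 * (2 * r) ^ 2} := fun p hp => (geo p hp).1
  have hι : ∀ p ∈ B, p ∈ tsupport G.ζ.1 → 1 ≤ z / r * G.ρ.1 p := fun p hp h => by
    have ρ0 := G.ρ_pos p
    rw [div_mul_eq_mul_div, one_le_div r0]
    refine abs_le_of_sq_le_sq' ?_ (by positivity) |>.2
    rw [mul_pow]
    exact ((geo p hp).2.trans (hZ p h).1).trans (mul_le_mul_of_nonneg_right hz' (sq_nonneg _))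
  have tv : tsupport v.1 ⊆ tsupport G.ζ.1 := (tsupport_mul_subset_left (f := s.1)).trans hz
  have key := hC v p₀ r r0 fun p hp h => by
    have a := hι p hp (tv (subset_tsupport _ h))
    have b := hh p
    have ρ0 := G.ρ_pos p
    rw [zpow_neg_one, ← div_eq_mul_inv, le_div_iff₀ ρ0] at b
    rw [div_mul_eq_mul_div, one_le_div r0] at a
    have c : |G.S.h.1 p| * r ≤ Ch * z :=
      calc _ ≤ |G.S.h.1 p| * (z * G.ρ.1 p) := by gcongr
        _ = |G.S.h.1 p| * G.ρ.1 p * z := by ring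
        _ ≤ _ := by gcongr
    rw [← sq_abs, ← mul_pow, ← mul_pow]
    gcongr
  have q : ∀ c : ℝ≥0, ENNReal.ofReal (c / r) * ENNReal.ofReal (2 * r) = 2 * c := fun c => by
    rw [← ENNReal.ofReal_mul (by positivity), show c / r * (2 * r) = ((2 * c : ℝ≥0) : ℝ) by
      push_cast; field_simp, ENNReal.ofReal_coe_nnreal]; rfl
  have b0 : ENNReal.ofReal r⁻¹ * G.nS B v ≤ 2 * C₀ * N G (l.length + 3) u := by
    have a : G.nS B v ≤ G.nS _ v := eLpNorm_mono_measure _ (Measure.restrict_mono sub le_rfl)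
    have b := q 1
    simp only [NNReal.coe_one, one_div, ENNReal.coe_one, mul_one] at b
    refine (mul_le_mul_right (a.trans (h₀ u _ r1)) _).trans_eq ?_
    rw [← b]; ring
  have b1 : ∀ a, G.nS B (G.S.D a v) ≤ 2 * z * C₁ a * N G (l.length + 3) u := fun a => by
    refine (nS_le (g := G.ρ * G.S.D a v) (c := z / r) mB sub fun p hp => ?_).trans
      ((mul_le_mul_right (h₁ a u _ r1) _).trans_eq (by rw [← q]; ring))
    rcases eq_or_ne ((G.S.D a v).1 p) 0 with h | h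
    · rw [h, abs_zero]; positivity
    rw [show (G.ρ * G.S.D a v).1 p = G.ρ.1 p * (G.S.D a v).1 p from rfl, abs_mul,
      abs_of_pos (G.ρ_pos p), ← mul_assoc]
    exact le_mul_of_one_le_left (abs_nonneg _) (hι p hp (zo_D tv a p h))
  have b2 : ∀ a, ENNReal.ofReal r * G.nS B (G.S.D a (G.S.D a v)) ≤
      2 * z ^ 2 * C₂ a * N G (l.length + 3) u := fun a => by
    have e : ENNReal.ofReal r * ENNReal.ofReal ((z / r) ^ 2) =
        ENNReal.ofReal (((z ^ 2 : ℝ≥0) : ℝ) / r) := by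
      rw [← ENNReal.ofReal_mul r0.le]; congr 1; push_cast; field_simp
    refine (mul_le_mul_right ((nS_le (g := G.ρ ^ 2 * G.S.D a (G.S.D a v)) (c := (z / r) ^ 2) mB sub
      fun p hp => ?_).trans (mul_le_mul_right (h₂ a u _ r1) _)) _).trans_eq ?_
    · rcases eq_or_ne ((G.S.D a (G.S.D a v)).1 p) 0 with h | h
      · rw [h, abs_zero]; positivity
      rw [show (G.ρ ^ 2 * G.S.D a (G.S.D a v)).1 p = G.ρ.1 p ^ 2 * (G.S.D a (G.S.D a v)).1 p from rfl,
        abs_mul, abs_of_nonneg (sq_nonneg (G.ρ.1 p)), ← mul_assoc, ← mul_pow]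
      exact le_mul_of_one_le_left (abs_nonneg _) (one_le_pow₀
        (hι p hp (zo_D ((Imm.tsupport_D_subset _ a).trans tv) a p h)))
    · rw [← mul_assoc, e, ← ENNReal.coe_pow, ← q]; ring
  refine key.trans ?_
  rw [ENNReal.coe_mul, mul_assoc, Finset.mul_sum]
  refine mul_le_mul_right ((add_le_add (add_le_add b0 (Finset.sum_le_sum fun a _ => b1 a))
    (Finset.sum_le_sum fun a _ => b2 a)).trans_eq ?_) _
  push_cast
  simp only [add_mul, Finset.sum_mul]

end Crest.Agent.N250.WS.Geo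

end
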