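import Crest.Agent.N250.FV.Main
import Crest.Agent.N250.FV.Hu2
import Crest.Agent.N250.Re.Pt

/-!
# Row 250 (helper84): tools for the sup bounds: Green's identities on a slice, lower density at small
scales, the layer cake bound, the logarithmic profile
-/

set_option autoImplicit false
open MeasureTheory Set Filter Topology Function Metric
open scoped ContDiff InnerProductSpace
open Crest.GeometryTopology.MCF
open ContinuousLinearMap (adjoint)

noncomputable section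

namespace Crest.Agent.N250.WS.Sup

variable {F : Mv} {f g : ST → ℝ} {t : ℝ} {x : E}

theorem cs_D (hF : F.Reg) (hg : F.Sm g) (h : F.CS g {t}) (a : Fin 3) : F.CS (F.D a g) {t} := by
  obtain ⟨K, hK, hKM, h0⟩ := h
  refine ⟨K, hK, hKM, fun p hp ht hpK => ?_⟩
  have e : p.2 = t := ht
  have h1 : ∀ᶠ y in 𝓝 p.1, (y, p.2) ∉ K :=
    (Continuous.prodMk_left p.2).continuousAt.preimage_mem_nhds
      (hK.isClosed.isOpen_compl.mem_nhds hpK)
  rw [FV.D_slice (g := fun _ => 0) hF hp (hg.diffW hp) (differentiableWithinAt_const _)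
    (h1.mono fun y hy hM => h0 _ hM e hy) a]
  exact hF.D_const hp 0 a

theorem cs_mul (f : ST → ℝ) (h : F.CS g {t}) : F.CS (f * g) {t} :=
  Hu.CS_imp h fun p hp => by simp [hp]

theorem cs_mul' (f : ST → ℝ) (h : F.CS g {t}) : F.CS (g * f) {t} :=
  Hu.CS_imp h fun p hp => by simp [hp]

theorem cs_add (hf : F.CS f {t}) (hg : F.CS g {t}) : F.CS (f + g) {t} := by
  obtain ⟨K, hK, hKM, h0⟩ := hf
  obtain ⟨K', hK', hKM', h0'⟩ := hg
  exact ⟨K ∪ K', hK.union hK', union_subset hKM hKM', fun p hp ht hpK => by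
    simp [h0 p hp ht fun h => hpK (Or.inl h), h0' p hp ht fun h => hpK (Or.inr h)]⟩

theorem cs_sum {κ : Type} [Fintype κ] {u : κ → ST → ℝ} (h : ∀ i, F.CS (u i) {t}) :
    F.CS (fun p => ∑ i, u i p) {t} := by
  choose K hK hKM h0 using h
  exact ⟨⋃ i, K i, isCompact_iUnion hK, iUnion_subset hKM, fun p hp ht hpK =>
    Finset.sum_eq_zero fun i _ => h0 i p hp ht fun h => hpK (mem_iUnion.2 ⟨i, h⟩)⟩

theorem cs_lap (hF : F.Reg) (hg : F.Sm g) (h : F.CS g {t}) : F.CS (F.lap g) {t} := by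
  have : F.lap g = fun p => ∑ a, F.D a (F.D a g) p := funext fun p => Mv.lap_apply g p
  rw [this]
  exact cs_sum fun a => cs_D hF (hF.sm_D hg a) (cs_D hF hg h a) a

theorem intg (hF : F.Reg) (hg : F.Sm g) (h : F.CS g {t}) :
    Integrable (fun x => g (x, t)) (F.mu t) := FV.intg' hF hg.continuousOn h

/-- divergence theorem for tangential fields -/
theorem div_tan (hF : F.Reg) {Y : Fin 3 → ST → ℝ} (hY : ∀ a, F.Sm (Y a))
    (hc : ∀ a, F.CS (Y a) {t}) (hn : ∀ p ∈ F.M, ∑ a, F.nu a p * Y a p = 0) :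
    ∫ x, ∑ a, F.D a (Y a) (x, t) ∂F.mu t = 0 := by
  rw [integral_finsetSum _ fun a _ => intg hF (hF.sm_D (hY a) a) (cs_D hF (hY a) (hc a) a)]
  simp only [divS_holds F hF _ t _ (hY _) (hc _)]
  have i : ∀ a, Integrable (fun x => Y a (x, t) * F.H (x, t) * F.nu a (x, t)) (F.mu t) := fun a =>
    intg (g := Y a * F.H * F.nu a) hF (((hY a).mul hF.sm_H).mul (hF.sm_nu a))
      (cs_mul' _ (cs_mul' _ (hc a)))
  rw [← integral_finsetSum _ fun a _ => i a]
  rw [Hu.int_congr hF (v := fun _ => 0), integral_zero]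
  intro x hx
  have := hn _ hx
  simp only [Fin.sum_univ_three] at this ⊢
  linear_combination F.H (x, t) * this

/-- first Green identity; the product `f * D a g` has compact support -/
theorem green1 (hF : F.Reg) (hf : F.Sm f) (hg : F.Sm g) (hc : ∀ a, F.CS (f * F.D a g) {t}) :
    ∫ x, (f (x, t) * F.lap g (x, t) + F.gam f g (x, t)) ∂F.mu t = 0 := by
  rw [← div_tan hF (fun a => hf.mul (hF.sm_D hg a)) hc fun p hp => ?_]
  · refine Hu.int_congr hF fun x hx => ?_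
    simp only [hF.D_mul hx hf (hF.sm_D hg _), Mv.lap_apply, Mv.gam_apply, Fin.sum_univ_three]
    ring
  · have := hF.n_D hp g
    simp only [Pi.mul_apply, Fin.sum_univ_three] at this ⊢
    linear_combination f p * this

/-- second Green identity -/
theorem green2 (hF : F.Reg) (hf : F.Sm f) (hg : F.Sm g) (hc : F.CS g {t}) :
    ∫ x, f (x, t) * F.lap g (x, t) ∂F.mu t = ∫ x, g (x, t) * F.lap f (x, t) ∂F.mu t := by
  have i0 : Integrable (fun x => F.gam f g (x, t)) (F.mu t) := by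
    refine intg hF (hF.sm_gam hf hg) ?_
    have : F.gam f g = fun p => ∑ a, (F.D a f * F.D a g) p := funext fun p => Mv.gam_apply f g p
    rw [this]
    exact cs_sum fun a => cs_mul _ (cs_D hF hg hc a)
  have h1 := green1 hF hf hg fun a => cs_mul _ (cs_D hF hg hc a)
  have h2 := green1 hF hg hf fun a => cs_mul' _ hc
  simp only [Mv.gam_comm g f] at h2
  have i1 : Integrable (fun x => f (x, t) * F.lap g (x, t)) (F.mu t) :=
    intg (g := f * F.lap g) hF (hf.mul (hF.sm_lap hg)) (cs_mul _ (cs_lap hF hg hc))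
  have i2 : Integrable (fun x => g (x, t) * F.lap f (x, t)) (F.mu t) :=
    intg (g := g * F.lap f) hF (hg.mul (hF.sm_lap hf)) (cs_mul' _ hc)
  rw [integral_add i1 i0] at h1
  rw [integral_add i2 i0] at h2
  linarith

theorem proj_le (L : E →L[ℝ] FV.E2) (hL : ‖L‖ ≤ 1) (A : Set E) :
    volume (L '' A) ≤ (μHE[2] : Measure E) A := by
  rw [← EuclideanSpace.euclideanHausdorffMeasure_eq_volume]
  have hl : LipschitzWith 1 L := L.lipschitz.weaken (by exact_mod_cast hL)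
  have := hl.hausdorffMeasure_image_le (d := ((2 : ℕ) : ℝ)) (by simp) A
  simp only [Measure.euclideanHausdorffMeasure_def, Measure.smul_apply]
  simp only [ENNReal.coe_one, ENNReal.one_rpow, one_mul] at this
  exact smul_le_smul_left _ this

theorem dens_ch {X : FV.E2 × ℝ → E} {U : Set (FV.E2 × ℝ)} {W : Set ST} {L : E →L[ℝ] FV.E2}
    (h : FV.Ch F X U W L) (hx : (x, t) ∈ F.M) (hW : (x, t) ∈ W) (hL : ‖L‖ ≤ 1)
    (hJ : ∀ v, ‖FV.Jz X (L x, t) v‖ = ‖v‖) :
    ∀ᶠ ε in 𝓝[>] (0 : ℝ), ENNReal.ofReal (ε ^ 2 / 2) ≤ F.mu t (ball x ε) := by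
  have hU : (L x, t) ∈ U := h.inU _ hx hW
  have hX : X (L x, t) = x := h.right _ hx hW
  have hd : HasFDerivAt (fun z => X (z, t)) (FV.Jz X (L x, t)) (L x) :=
    (h.hasXt t _ hU).hasFDerivAt ((h.oUt t).mem_nhds hU)
  have h1 := (hasFDerivAt_iff_isLittleO.1 hd).def one_pos
  obtain ⟨r, hr, h2⟩ := Metric.eventually_nhds_iff_ball.1 (h1.and ((h.oUt t).mem_nhds hU))
  filter_upwards [Ioo_mem_nhdsGT hr] with ε hε
  have sub : ball (L x) (ε / 2) ⊆ L '' (ball x ε ∩ F.sl t) := fun z hz => by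
    obtain ⟨a, b⟩ := h2 z (ball_subset_ball (by linarith [hε.1, hε.2]) hz)
    refine ⟨X (z, t), ⟨?_, h.mem _ b⟩, h.left _ b⟩
    rw [hX, one_mul] at a
    rw [mem_ball_iff_norm] at hz ⊢
    have := norm_add_le (X (z, t) - x - FV.Jz X (L x, t) (z - L x)) (FV.Jz X (L x, t) (z - L x))
    rw [sub_add_cancel, hJ] at this
    linarith
  refine le_trans ?_ (((measure_mono sub).trans (proj_le L hL _)).trans
    (Measure.le_restrict_apply _ _))
  rw [EuclideanSpace.volume_ball_fin_two,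
    ← ENNReal.ofReal_pow (by linarith [hε.1]), ← ENNReal.ofReal_mul (by positivity)]
  refine ENNReal.ofReal_le_ofReal ?_
  nlinarith [Real.pi_gt_three, sq_nonneg ε]

/-- lower density at small scales -/
theorem dens (hF : F.Reg) (hx : (x, t) ∈ F.M) :
    ∀ᶠ ε in 𝓝[>] (0 : ℝ), ENNReal.ofReal (ε ^ 2 / 2) ≤ F.mu t (ball x ε) := by
  obtain ⟨X, U, W, Li, hW, hLi, h⟩ := FV.exists_ch' hF hx
  refine dens_ch h hx hW ?_ fun v => ?_
  · rw [ContinuousLinearMap.adjoint.norm_map]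
    exact Li.norm_toContinuousLinearMap_le
  · have key : ∀ w, adjoint Li.toContinuousLinearMap (Li w) = w := N222.adjoint_isometry_apply Li
    generalize adjoint Li.toContinuousLinearMap = L at h key ⊢
    have hU : (L x, t) ∈ U := h.inU _ hx hW
    have h1 := h.n_Jz hF hU v
    have h2 : FV.Ps X (L x, t) = (x, t) := Prod.ext (h.right _ hx hW) rfl
    rw [h2] at h1
    obtain ⟨w, hw⟩ := (hLi _).1 h1
    have h3 : L (FV.Jz X (L x, t) v) = v := h.L_fd hU (v, 0)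
    rw [← hw, key] at h3
    rw [← hw, h3, Li.norm_map]

/-- layer cake: `σ / √(r² + δ σ²)` has integral `O(Λ)` over the ball of radius `2 σ` -/
theorem cake {μ : Measure E} {Λ σ δ : ℝ} (hΛ : 0 ≤ Λ) (hσ : 0 < σ) (hδ : 0 < δ)
    (h : ∀ r, 0 < r → r ≤ 2 * σ → μ (ball x r) ≤ ENNReal.ofReal (Λ * r ^ 2)) :
    IntegrableOn (fun y => (√(‖y - x‖ ^ 2 / σ ^ 2 + δ))⁻¹) (ball x (2 * σ)) μ ∧
    ∫ y in ball x (2 * σ), (√(‖y - x‖ ^ 2 / σ ^ 2 + δ))⁻¹ ∂μ ≤ 32 * Λ * σ ^ 2 := by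
  have pos : ∀ y : E, 0 < √(‖y - x‖ ^ 2 / σ ^ 2 + δ) := fun y => Real.sqrt_pos.2 (by positivity)
  have hc : Continuous fun y : E => (√(‖y - x‖ ^ 2 / σ ^ 2 + δ))⁻¹ :=
    Continuous.inv₀ (by fun_prop) fun y => (pos y).ne'
  have fin : μ (ball x (2 * σ)) ≠ ⊤ :=
    ne_top_of_le_ne_top ENNReal.ofReal_ne_top (h _ (by positivity) le_rfl)
  have hi : IntegrableOn (fun y => (√(‖y - x‖ ^ 2 / σ ^ 2 + δ))⁻¹) (ball x (2 * σ)) μ := by
    refine Measure.integrableOn_of_bounded (M := (√δ)⁻¹) fin hc.aestronglyMeasurable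
      (Eventually.of_forall fun y => ?_)
    rw [Real.norm_of_nonneg (inv_nonneg.2 (pos y).le)]
    exact inv_anti₀ (Real.sqrt_pos.2 hδ) (Real.sqrt_le_sqrt (le_add_of_nonneg_left (by positivity)))
  refine ⟨hi, ?_⟩
  rw [Integrable.integral_eq_integral_meas_lt hi
    (Eventually.of_forall fun y => inv_nonneg.2 (pos y).le)]
  have b : ∀ τ ∈ Ioi (0 : ℝ), (μ.restrict (ball x (2 * σ))).real
      {y | τ < (√(‖y - x‖ ^ 2 / σ ^ 2 + δ))⁻¹} ≤ 8 * Λ * σ ^ 2 * (1 + τ ^ 2)⁻¹ := by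
    intro τ hτ
    have hτ0 : 0 < τ := hτ
    have q : 0 < 1 + τ ^ 2 := by positivity
    refine ENNReal.toReal_le_of_le_ofReal (by positivity) ?_
    rcases le_total τ 1 with h1 | h1
    · refine (measure_mono (subset_univ _)).trans ?_
      rw [Measure.restrict_apply_univ]
      refine (h _ (by positivity) le_rfl).trans (ENNReal.ofReal_le_ofReal ?_)
      rw [← div_eq_mul_inv, le_div_iff₀ q]
      have : τ ^ 2 ≤ 1 := by nlinarith
      nlinarith [mul_nonneg hΛ (sq_nonneg σ)]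
    · refine (Measure.restrict_apply_le _ _).trans ((measure_mono (t := ball x (σ / τ)) ?_).trans
        ((h _ (by positivity) ?_).trans (ENNReal.ofReal_le_ofReal ?_)))
      · intro y hy
        have h2 : √(‖y - x‖ ^ 2 / σ ^ 2 + δ) < τ⁻¹ := (lt_inv_comm₀ hτ0 (pos y)).1 hy
        have h3 : ‖y - x‖ / σ ≤ √(‖y - x‖ ^ 2 / σ ^ 2 + δ) :=
          Real.le_sqrt_of_sq_le (by rw [div_pow]; linarith)
        rw [mem_ball_iff_norm, div_eq_mul_inv, mul_comm, ← div_lt_iff₀ hσ]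
        linarith
      · rw [div_le_iff₀ hτ0]; nlinarith
      · rw [← div_eq_mul_inv, le_div_iff₀ q, div_pow]
        have : (1 + τ ^ 2) / τ ^ 2 ≤ 8 := by rw [div_le_iff₀ (by positivity)]; nlinarith
        calc Λ * (σ ^ 2 / τ ^ 2) * (1 + τ ^ 2) = Λ * σ ^ 2 * ((1 + τ ^ 2) / τ ^ 2) := by ring
          _ ≤ Λ * σ ^ 2 * 8 := by gcongr
          _ = _ := by ring
  refine (integral_mono_of_nonneg (Eventually.of_forall fun _ => measureReal_nonneg)
    (integrable_inv_one_add_sq.const_mul (8 * Λ * σ ^ 2)).integrableOn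
    ((ae_restrict_iff' measurableSet_Ioi).2 (Eventually.of_forall b))).trans ?_
  rw [integral_const_mul, integral_Ioi_inv_one_add_sq, Real.arctan_zero]
  nlinarith [Real.pi_lt_four, mul_nonneg hΛ (sq_nonneg σ)]

/-- the logarithmic profile -/
def th (δ s : ℝ) : ℝ := Hu.eta s * Real.log (s + δ)

theorem th_cd {δ s : ℝ} (h : 0 < s + δ) : ContDiffAt ℝ ∞ (th δ) s :=
  Hu.eta_sm.contDiffAt.mul ((contDiffAt_id.add contDiffAt_const).log h.ne')

theorem th_d1 {δ s : ℝ} (h : 0 < s + δ) :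
    deriv (th δ) s = deriv Hu.eta s * Real.log (s + δ) + Hu.eta s * (s + δ)⁻¹ := by
  have h1 := (Hu.eta_sm.differentiable (by simp) s).hasDerivAt
  have h2 := ((hasDerivAt_id s).add_const δ).log h.ne'
  have := (h1.mul h2).deriv
  simp only [id, one_div] at this
  exact this

theorem th_d2 {δ s : ℝ} (h : 0 < s + δ) :
    deriv (deriv (th δ)) s = deriv (deriv Hu.eta) s * Real.log (s + δ) +
      2 * deriv Hu.eta s * (s + δ)⁻¹ - Hu.eta s * (s + δ)⁻¹ ^ 2 := by
  have e : deriv (th δ) =ᶠ[𝓝 s]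
      fun u => deriv Hu.eta u * Real.log (u + δ) + Hu.eta u * (u + δ)⁻¹ := by
    filter_upwards [Ioi_mem_nhds (show -δ < s by linarith)] with u hu
    exact th_d1 (by linarith [mem_Ioi.1 hu])
  have h0 : ContDiff ℝ ∞ (deriv Hu.eta) := Hu.eta_sm.iterate_deriv 1
  have h1 := (Hu.eta_sm.differentiable (by simp) s).hasDerivAt
  have h1' := (h0.differentiable (by simp) s).hasDerivAt
  have h2 := ((hasDerivAt_id s).add_const δ).log h.ne'
  have h3 := ((hasDerivAt_id s).add_const δ).inv h.ne'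
  have := ((h1'.mul h2).add (h1.mul h3)).deriv
  rw [e.deriv_eq]
  refine Eq.trans this ?_
  simp only [id, Pi.inv_apply]
  field_simp
  ring

theorem eta_lo {s : ℝ} (h : s < 1) : deriv Hu.eta s = 0 ∧ deriv (deriv Hu.eta) s = 0 := by
  have e0 : Hu.eta =ᶠ[𝓝 s] fun _ => 1 := by
    filter_upwards [Iio_mem_nhds h] with v hv using Hu.eta_one (le_of_lt hv)
  have e1 : deriv Hu.eta =ᶠ[𝓝 s] fun _ => 0 := by simpa using e0.deriv
  exact ⟨e1.self_of_nhds, by simpa using e1.deriv_eq⟩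

theorem eta_hi {s : ℝ} (h : 2 < s) : deriv Hu.eta s = 0 ∧ deriv (deriv Hu.eta) s = 0 := by
  have e0 : Hu.eta =ᶠ[𝓝 s] fun _ => 0 := by
    filter_upwards [Ioi_mem_nhds h] with v hv using Hu.eta_zero (le_of_lt hv)
  have e1 : deriv Hu.eta =ᶠ[𝓝 s] fun _ => 0 := by simpa using e0.deriv
  exact ⟨e1.self_of_nhds, by simpa using e1.deriv_eq⟩

theorem th_hi {δ s : ℝ} (hδ : 0 < δ) (h : 2 < s) :
    th δ s = 0 ∧ deriv (th δ) s = 0 ∧ deriv (deriv (th δ)) s = 0 := by
  have p : 0 < s + δ := by linarith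
  simp [th_d1 p, th_d2 p, th, eta_hi h, Hu.eta_zero h.le]

theorem th_bd : ∃ C, 0 ≤ C ∧ ∀ δ s h m : ℝ, 0 < δ → δ ≤ 1 → 0 ≤ s → |h| ≤ s → 0 ≤ m → m ≤ s ^ 2 →
    |deriv (th δ) s * (4 - 2 * h) + 4 * deriv (deriv (th δ)) s * (s - m) -
      Hu.eta s * (4 * δ / (s + δ) ^ 2)| ≤ C := by
  obtain ⟨C, hC, hb⟩ := Hu.eta_bd
  refine ⟨8 * (2 * C + 1) + 16 * (4 * C + 1) + 6, by positivity, fun δ s h m h0 h1 hs hh hm hm' => ?_⟩
  have p : 0 < s + δ := by linarith
  rcases lt_or_ge s 1 with a | a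
  · rw [th_d1 p, th_d2 p, (eta_lo a).1, (eta_lo a).2, Hu.eta_one a.le]
    have e : (0 * Real.log (s + δ) + 1 * (s + δ)⁻¹) * (4 - 2 * h) +
        4 * (0 * Real.log (s + δ) + 2 * 0 * (s + δ)⁻¹ - 1 * (s + δ)⁻¹ ^ 2) * (s - m) -
        1 * (4 * δ / (s + δ) ^ 2) = -2 * (h / (s + δ)) + 4 * (m / (s + δ) ^ 2) := by
      field_simp; ring
    have b1 : |h / (s + δ)| ≤ 1 := by
      rw [abs_div, abs_of_pos p, div_le_one p]; linarith
    have b2 : m / (s + δ) ^ 2 ≤ 1 := by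
      rw [div_le_one (by positivity)]; nlinarith
    have b3 : 0 ≤ m / (s + δ) ^ 2 := by positivity
    rw [e, abs_le] at *
    constructor <;> nlinarith
  rcases le_or_gt s 2 with b | b
  · obtain ⟨c1, c2⟩ := hb s hs
    have c3 : |deriv (deriv Hu.eta) s| ≤ C := by nlinarith [abs_nonneg (deriv (deriv Hu.eta) s)]
    have l : |Real.log (s + δ)| ≤ 2 := by
      rw [abs_of_nonneg (Real.log_nonneg (by linarith))]
      linarith [Real.log_le_sub_one_of_pos p]
    have i : |(s + δ)⁻¹| ≤ 1 := by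
      rw [abs_of_pos (inv_pos.2 p)]; exact inv_le_one_of_one_le₀ (by linarith)
    have e : |Hu.eta s| ≤ 1 := by rw [abs_of_nonneg (Hu.eta_nonneg s)]; exact Hu.eta_le s
    have d1 : |deriv (th δ) s| ≤ 2 * C + 1 := by
      rw [th_d1 p]
      refine (abs_add_le _ _).trans ?_
      rw [abs_mul, abs_mul]
      calc _ ≤ C * 2 + 1 * 1 := by gcongr
        _ = _ := by ring
    have d2 : |deriv (deriv (th δ)) s| ≤ 4 * C + 1 := by
      rw [th_d2 p]
      refine (abs_sub _ _).trans ((add_le_add_left (abs_add_le _ _) _).trans ?_)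
      rw [abs_mul, abs_mul, abs_mul, abs_mul, abs_pow, abs_two]
      calc _ ≤ C * 2 + 2 * C * 1 + 1 * 1 ^ 2 := by gcongr
        _ = _ := by ring
    have k : |4 * δ / (s + δ) ^ 2| ≤ 4 := by
      rw [abs_of_nonneg (by positivity), div_le_iff₀ (by positivity)]; nlinarith
    have u : |4 - 2 * h| ≤ 8 := by rw [abs_le] at *; constructor <;> linarith
    have v : |s - m| ≤ 4 := by rw [abs_le]; constructor <;> nlinarith
    refine (abs_sub _ _).trans ((add_le_add_left (abs_add_le _ _) _).trans ?_)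
    rw [abs_mul, abs_mul, abs_mul, abs_mul, abs_of_pos (show (0 : ℝ) < 4 by norm_num)]
    calc _ ≤ (2 * C + 1) * 8 + 4 * (4 * C + 1) * 4 + 1 * 4 := by gcongr
      _ ≤ _ := by linarith
  · obtain ⟨-, c1, c2⟩ := th_hi h0 b
    rw [c1, c2, Hu.eta_zero b.le]
    simp only [zero_mul, mul_zero, add_zero, sub_zero, abs_zero]
    positivity

theorem th_sq {δ s : ℝ} (h0 : 0 < δ) (h1 : δ ≤ 1) (hs : 0 ≤ s) : th δ s ^ 2 ≤ 16 * (√(s + δ))⁻¹ := by
  rcases le_or_gt 2 s with a | a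
  · simp only [th, Hu.eta_zero a]
    simp
  have p : 0 < s + δ := by linarith
  set v := √(√(s + δ)) with hv
  have v0 : 0 < v := Real.sqrt_pos.2 (Real.sqrt_pos.2 p)
  have v2 : v ^ 2 = √(s + δ) := Real.sq_sqrt (Real.sqrt_nonneg _)
  have v4 : v ^ 4 = s + δ := by rw [show v ^ 4 = (v ^ 2) ^ 2 by ring, v2, Real.sq_sqrt p.le]
  have l : |Real.log v * v| ≤ 1 := by
    rcases le_total v 1 with b | b
    · exact (Real.abs_log_mul_self_lt v v0 b).le
    · have c : v ≤ 3 / 2 := by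
        by_contra c
        have : (3 / 2 : ℝ) ^ 4 ≤ v ^ 4 := by gcongr; linarith
        linarith
      rw [abs_of_nonneg (mul_nonneg (Real.log_nonneg b) v0.le)]
      nlinarith [Real.log_le_sub_one_of_pos v0]
  have l2 : (Real.log v * v) ^ 2 ≤ 1 := by rw [← sq_abs]; nlinarith [abs_nonneg (Real.log v * v)]
  have e : Hu.eta s ^ 2 ≤ 1 := by nlinarith [Hu.eta_le s, Hu.eta_nonneg s]
  rw [th, ← v2, ← v4, Real.log_pow, ← div_eq_mul_inv, le_div_iff₀ (by positivity)]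
  push_cast
  nlinarith [sq_nonneg (Real.log v * v)]

end Crest.Agent.N250.WS.Sup

end
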