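import Crest.Agent.N250.Wt.Sup0
import Crest.Agent.N250.Im.MV
import Crest.Agent.N250.T.Reach

/-!
# Row 250 (helper84): the scale invariant Sobolev inequality `H² ⊂ C⁰` on a slice
-/

set_option autoImplicit false
open MeasureTheory Set Filter Topology Function Metric
open scoped ContDiff InnerProductSpace
open Crest.GeometryTopology.MCF

noncomputable section

namespace Crest.Agent.N250.WS.Sup

variable {F : Mv} {f g : ST → ℝ} {t ρ σ δ : ℝ} {x : E} {p : ST}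

theorem cont_slice (hf : F.Sm f) (t : ℝ) : ContinuousOn (fun y => f (y, t)) (F.sl t) :=
  hf.continuousOn.comp (Continuous.prodMk_left t).continuousOn fun _ h => h

/-- continuous functions are integrable on balls -/
theorem intOn (hF : F.Reg) (hK : IsCompact (F.sl t ∩ closedBall x ρ))
    (fin : F.mu t (ball x ρ) ≠ ⊤) {u : E → ℝ} (hu : ContinuousOn u (F.sl t)) :
    IntegrableOn u (ball x ρ) (F.mu t) := by
  obtain ⟨B, hB⟩ := hK.exists_bound_of_continuousOn (hu.mono inter_subset_left)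
  refine Measure.integrableOn_of_bounded (M := B) fin (Hu.aesm_sl hF hu) ?_
  filter_upwards [ae_restrict_of_ae (Hu.ae_sl hF t), ae_restrict_mem measurableSet_ball] with y a b
  exact hB y ⟨a, ball_subset_closedBall b⟩

theorem H_le (hF : F.Reg) (hp : p ∈ F.M) (hρ : 0 < ρ) (h : F.Reach p ρ) : |F.H p| ≤ 3 / ρ := by
  have h1 := (reachAS_holds F hF p hp ρ hρ h).1
  have a := h1 (Pi.single 0 1)
  have b := h1 (Pi.single 1 1)
  have c := h1 (Pi.single 2 1)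
  simp [Fin.sum_univ_three] at a b c
  rw [Mv.H_apply, Fin.sum_univ_three, div_eq_mul_inv]
  linarith [abs_add_three (F.A 0 0 p) (F.A 1 1 p) (F.A 2 2 p)]

/-- the scaled square distance -/
def sq (x : E) (σ : ℝ) (q : ST) : ℝ := ‖q.1 - x‖ ^ 2 / σ ^ 2

theorem sq_nonneg' (x : E) (σ : ℝ) (q : ST) : 0 ≤ sq x σ q := by unfold sq; positivity

theorem sq_cd (x : E) (σ : ℝ) : ContDiff ℝ ∞ (sq x σ) :=
  ((contDiff_norm_sq ℝ).comp (contDiff_fst.sub contDiff_const)).div_const _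

theorem lap_sq (hF : F.Reg) (hp : p ∈ F.M) (x : E) (σ : ℝ) :
    F.lap (sq x σ) p = (4 - 2 * (F.H p * F.xn x p)) / σ ^ 2 := by
  have := Hu.lap_rad hF hp (η := fun u => u / σ ^ 2) (contDiff_id.div_const _) x
  have e : deriv (fun u : ℝ => u / σ ^ 2) = fun _ => (σ ^ 2)⁻¹ := by
    funext u; simp
  rw [e] at this
  refine Eq.trans this ?_
  simp only [deriv_const', mul_zero, zero_mul, add_zero]
  ring

theorem D_sq (hF : F.Reg) (hp : p ∈ F.M) (x : E) (σ : ℝ) (a : Fin 3) :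
    F.D a (sq x σ) p = 2 * ((p.1 - x) a - F.xn x p * F.nu a p) / σ ^ 2 := by
  have := Hu.D_rad hF hp (η := fun u => u / σ ^ 2) (contDiff_id.div_const _) x a
  refine Eq.trans this ?_
  simp only [deriv_div_const, deriv_id'']
  ring

theorem gam_sq (hF : F.Reg) (hp : p ∈ F.M) (x : E) (hσ : 0 < σ) :
    F.gam (sq x σ) (sq x σ) p = 4 * (sq x σ p - F.xn x p ^ 2 / σ ^ 2) / σ ^ 2 := by
  have a := Hu.sum_co_sq x p.1
  have b := Hu.sum_co_nu F x p
  have c := hF.nn hp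
  simp only [Mv.gam_apply, D_sq hF hp, sq, Fin.sum_univ_three] at a b c ⊢
  field_simp
  linear_combination 4 * a - 8 * F.xn x p * b + 4 * F.xn x p ^ 2 * c

theorem psi_sm (F : Mv) (x : E) (σ : ℝ) (hδ : 0 < δ) : F.Sm fun q => th δ (sq x σ q) :=
  fun q _ => ((th_cd (by linarith [sq_nonneg' x σ q])).comp q
    (sq_cd x σ).contDiffAt).contDiffWithinAt

theorem lap_psi (hF : F.Reg) (hp : p ∈ F.M) (x : E) (hσ : 0 < σ) (hδ : 0 < δ) :
    F.lap (fun q => th δ (sq x σ q)) p =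
      (deriv (th δ) (sq x σ p) * (4 - 2 * (F.H p * F.xn x p)) +
        4 * deriv (deriv (th δ)) (sq x σ p) * (sq x σ p - F.xn x p ^ 2 / σ ^ 2)) / σ ^ 2 := by
  rw [hF.lap_comp hp (Mv.sm_of_contDiff (sq_cd x σ))
    ((th_cd (by linarith [sq_nonneg' x σ p])).of_le (by norm_cast)), lap_sq hF hp, gam_sq hF hp x hσ]
  ring

theorem young {a b l : ℝ} (hl : 0 < l) : |a| * |b| ≤ l / 2 * a ^ 2 + b ^ 2 / (2 * l) := by
  rw [← sq_abs a, ← sq_abs b]
  have : l / 2 * |a| ^ 2 + |b| ^ 2 / (2 * l) - |a| * |b| = (l * |a| - |b|) ^ 2 / (2 * l) := by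
    field_simp; ring
  have : 0 ≤ (l * |a| - |b|) ^ 2 / (2 * l) := by positivity
  linarith

/-- the pointwise inequality -/
theorem pt {sg u w k R C θ g l m σ : ℝ} (hσ : 0 < σ) (hl : 0 < l) (hs : |sg| = 1) (hR : |R| ≤ C)
    (hθ : θ ^ 2 ≤ 16 * g) (hk : m * σ ^ 2 - |u| ≤ sg * u * k) :
    m - (l / 2 * (u ^ 2 / σ ^ 2 + σ ^ 2 * w ^ 2) + ((C + 1) ^ 2 + 16 * g) / (2 * l * σ ^ 2)) ≤
      sg * (u * ((k + R) / σ ^ 2) - θ * w) := by
  have hC : 0 ≤ C := (abs_nonneg _).trans hR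
  have a : -(|u| * C) ≤ sg * u * R := by
    refine le_trans ?_ (neg_abs_le _)
    rw [abs_mul, abs_mul, hs, one_mul]
    exact neg_le_neg (by gcongr)
  have b := young (a := u) (b := C + 1) hl
  rw [abs_of_nonneg (by positivity : 0 ≤ C + 1)] at b
  have c := young (a := σ ^ 2 * w) (b := θ) hl
  have d : sg * (θ * (σ ^ 2 * w)) ≤ |σ ^ 2 * w| * |θ| := by
    refine (le_abs_self _).trans ?_
    rw [abs_mul, hs, one_mul, abs_mul, mul_comm]
  have e : θ ^ 2 / (2 * l) ≤ 16 * g / (2 * l) := by gcongr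
  have s2 : 0 < σ ^ 2 := by positivity
  have e1 : m - (l / 2 * (u ^ 2 / σ ^ 2 + σ ^ 2 * w ^ 2) + ((C + 1) ^ 2 + 16 * g) / (2 * l * σ ^ 2))
      = (m * σ ^ 2 - (l / 2 * u ^ 2 + (C + 1) ^ 2 / (2 * l)) -
        (l / 2 * (σ ^ 2 * w) ^ 2 + 16 * g / (2 * l))) / σ ^ 2 := by field_simp; ring
  have e2 : sg * (u * ((k + R) / σ ^ 2) - θ * w) =
      (sg * u * k + sg * u * R - sg * (θ * (σ ^ 2 * w))) / σ ^ 2 := by field_simp
  rw [e1, e2]
  gcongr ?_ / _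
  nlinarith

/-- **S1**: `H² ⊂ C⁰` at scale `ρ` -/
theorem sob (Λ : ℝ) : ∃ C, 0 < C ∧ ∀ (F : Mv) (t : ℝ) (x : E) (ρ : ℝ) (f : ST → ℝ), F.Reg →
    (x, t) ∈ F.M → 0 < ρ → IsCompact (F.sl t ∩ closedBall x ρ) →
    (∀ y ∈ F.sl t ∩ ball x ρ, F.Reach (y, t) ρ) →
    (∀ r, 0 < r → r ≤ ρ → F.mu t (ball x r) ≤ ENNReal.ofReal (Λ * r ^ 2)) → F.Sm f →
    f (x, t) ^ 2 ≤ C * ((∫ y in ball x ρ, f (y, t) ^ 2 ∂F.mu t) / ρ ^ 2 +
      ρ ^ 2 * ∫ y in ball x ρ, F.lap f (y, t) ^ 2 ∂F.mu t) := by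
  obtain ⟨C, hC, hb⟩ := th_bd
  obtain ⟨Λ', h1, h2⟩ : ∃ Λ' : ℝ, 0 < Λ' ∧ Λ ≤ Λ' :=
    ⟨max Λ 1, lt_max_of_lt_right one_pos, le_max_left _ _⟩
  obtain ⟨K, hK⟩ : ∃ K, K = Λ' * (4 * (C + 1) ^ 2 + 512) := ⟨_, rfl⟩
  have K0 : 0 < K := by rw [hK]; positivity
  refine ⟨64 * K, by positivity, fun F t x ρ f hF hx hρ hc hR hμ' hf => ?_⟩
  obtain ⟨σ, rfl⟩ : ∃ σ, ρ = 2 * σ := ⟨ρ / 2, by ring⟩
  have hσ : 0 < σ := by linarith
  have hμ : ∀ r, 0 < r → r ≤ 2 * σ → F.mu t (ball x r) ≤ ENNReal.ofReal (Λ' * r ^ 2) :=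
    fun r a b => (hμ' r a b).trans (ENNReal.ofReal_le_ofReal (by gcongr))
  have fin : ∀ r, 0 < r → r ≤ 2 * σ → F.mu t (ball x r) ≠ ⊤ := fun r a b =>
    ne_top_of_le_ne_top ENNReal.ofReal_ne_top (hμ r a b)
  have i0 : IntegrableOn (fun y => f (y, t) ^ 2) (ball x (2 * σ)) (F.mu t) :=
    intOn hF hc (fin _ hρ le_rfl) ((cont_slice hf t).pow 2)
  have i2 : IntegrableOn (fun y => F.lap f (y, t) ^ 2) (ball x (2 * σ)) (F.mu t) :=
    intOn hF hc (fin _ hρ le_rfl) ((cont_slice (hF.sm_lap hf) t).pow 2)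
  generalize hI0 : ∫ y in ball x (2 * σ), f (y, t) ^ 2 ∂F.mu t = I0
  generalize hI2 : ∫ y in ball x (2 * σ), F.lap f (y, t) ^ 2 ∂F.mu t = I2
  have p0 : 0 ≤ I0 := hI0 ▸ integral_nonneg fun _ => sq_nonneg _
  have p2 : 0 ≤ I2 := hI2 ▸ integral_nonneg fun _ => sq_nonneg _
  rcases eq_or_ne (f (x, t)) 0 with h0 | h0
  · rw [h0]; simp only [ne_eq, OfNat.ofNat_ne_zero, not_false_eq_true, zero_pow]; positivity
  obtain ⟨a, ha⟩ : ∃ a, a = |f (x, t)| := ⟨_, rfl⟩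
  have a0 : 0 < a := ha ▸ abs_pos.2 h0
  obtain ⟨sg, s1, s2⟩ : ∃ sg : ℝ, |sg| = 1 ∧ sg * f (x, t) = a := by
    rcases le_total 0 (f (x, t)) with h | h
    · exact ⟨1, abs_one, by rw [ha, abs_of_nonneg h, one_mul]⟩
    · exact ⟨-1, by simp, by rw [ha, abs_of_nonpos h, neg_one_mul]⟩
  obtain ⟨r0, r0p, hr0⟩ := Metric.continuousWithinAt_iff.1 (cont_slice hf t x hx) (a / 2)
    (half_pos a0)
  have near : ∀ y ∈ F.sl t, ‖y - x‖ < r0 → a / 2 ≤ sg * f (y, t) := fun y hy h => by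
    have := hr0 hy (by rwa [dist_eq_norm])
    have e : |sg * (f (y, t) - f (x, t))| < a / 2 := by
      rwa [abs_mul, s1, one_mul, ← Real.dist_eq]
    linarith [(abs_lt.1 e).1, mul_sub sg (f (y, t)) (f (x, t))]
  have ev1 : ∀ᶠ ε in 𝓝[>] (0 : ℝ), ε ∈ Ioo 0 σ := Ioo_mem_nhdsGT hσ
  have ev2 : ∀ᶠ ε in 𝓝[>] (0 : ℝ), ε ∈ Ioo 0 (r0 ^ 2 / (2 * σ)) :=
    Ioo_mem_nhdsGT (by positivity)
  obtain ⟨ε, hd, ⟨ε0, ε1⟩, -, ε2⟩ := ((dens hF hx).and (ev1.and ev2)).exists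
  obtain ⟨δ, hδ⟩ : ∃ δ, δ = ε ^ 2 / σ ^ 2 := ⟨_, rfl⟩
  have δ0 : 0 < δ := by rw [hδ]; positivity
  have δ1 : δ ≤ 1 := by rw [hδ, div_le_one (by positivity)]; gcongr
  have δ2 : 4 * δ ≤ (r0 ^ 2 / σ ^ 2) ^ 2 := by
    have : (2 * ε / σ) ^ 2 ≤ (r0 ^ 2 / σ ^ 2) ^ 2 := by
      refine pow_le_pow_left₀ (by positivity) ?_ 2
      rw [lt_div_iff₀ hρ] at ε2
      rw [div_le_div_iff₀ hσ (by positivity)]
      nlinarith
    rw [hδ]
    refine le_of_eq_of_le (by ring) this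
  obtain ⟨l, hl⟩ : ∃ l, l = 4 * K / a := ⟨_, rfl⟩
  have l0 : 0 < l := by rw [hl]; positivity
  have hΨ := psi_sm F x σ δ0
  have cs : F.CS (fun q => th δ (sq x σ q)) {t} := by
    refine ⟨(fun y => (y, t)) '' (F.sl t ∩ closedBall x (2 * σ)), hc.image (Continuous.prodMk_left t),
      by rintro _ ⟨y, hy, rfl⟩; exact hy.1, fun q hq ht hK => (th_hi δ0 ?_).1⟩
    obtain ⟨y, s⟩ := q
    obtain rfl : s = t := ht
    have : 2 * σ < ‖y - x‖ := by
      by_contra h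
      exact hK ⟨y, ⟨hq, mem_closedBall_iff_norm.2 (not_lt.1 h)⟩, rfl⟩
    rw [sq, lt_div_iff₀ (by positivity)]
    nlinarith
  have j1 : Integrable (fun y => f (y, t) * F.lap (fun q => th δ (sq x σ q)) (y, t)) (F.mu t) :=
    intg (g := f * F.lap _) hF (hf.mul (hF.sm_lap hΨ)) (cs_mul _ (cs_lap hF hΨ cs))
  have j2 : Integrable (fun y => th δ (sq x σ (y, t)) * F.lap f (y, t)) (F.mu t) :=
    intg (g := (fun q => th δ (sq x σ q)) * F.lap f) hF (hΨ.mul (hF.sm_lap hf)) (cs_mul' _ cs)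
  obtain ⟨ig, bg⟩ := cake (x := x) h1.le hσ δ0 hμ
  have i1 : IntegrableOn (fun _ : E => (C + 1) ^ 2) (ball x (2 * σ)) (F.mu t) :=
    integrableOn_const (fin _ hρ le_rfl)
  have iε : IntegrableOn (fun _ : E => a / (2 * ε ^ 2)) (ball x ε) (F.mu t) :=
    integrableOn_const (fin _ ε0 (by linarith))
  have iA := ((i0.div_const (σ ^ 2)).add (i2.const_mul (σ ^ 2))).const_mul (l / 2)
  have iB := (i1.add (ig.const_mul 16)).div_const (2 * l * σ ^ 2)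
  have key := integral_mono_ae (((integrable_indicator_iff measurableSet_ball).2 iε).sub
    ((integrable_indicator_iff measurableSet_ball).2 (iA.add iB))) ((j1.sub j2).const_mul sg) ?_
  · simp only [Pi.sub_apply] at key
    rw [integral_sub ((integrable_indicator_iff measurableSet_ball).2 iε)
      ((integrable_indicator_iff measurableSet_ball).2 (iA.add iB)),
      integral_indicator measurableSet_ball, integral_indicator measurableSet_ball,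
      integral_const_mul, integral_sub j1 j2, green2 hF hf hΨ cs, sub_self, mul_zero] at key
    simp only [Pi.add_apply] at key iA iB
    rw [integral_add iA iB, integral_const_mul, integral_add (i0.div_const _) (i2.const_mul _),
      setIntegral_const, integral_div, integral_div, integral_const_mul,
      integral_add i1 (ig.const_mul _), integral_const_mul, setIntegral_const, hI0, hI2, smul_eq_mul,
      smul_eq_mul] at key
    have m1 : ε ^ 2 / 2 ≤ (F.mu t).real (ball x ε) :=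
      (ENNReal.ofReal_le_iff_le_toReal (fin _ ε0 (by linarith))).1 hd
    have m2 : (F.mu t).real (ball x (2 * σ)) ≤ Λ' * (2 * σ) ^ 2 :=
      ENNReal.toReal_le_of_le_ofReal (by positivity) (hμ _ hρ le_rfl)
    have u1 : a / 4 ≤ (F.mu t).real (ball x ε) * (a / (2 * ε ^ 2)) :=
      le_of_eq_of_le (b := ε ^ 2 / 2 * (a / (2 * ε ^ 2))) (by field_simp; ring) (by gcongr)
    have u2 : ((F.mu t).real (ball x (2 * σ)) * (C + 1) ^ 2 + 16 * ∫ y in ball x (2 * σ),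
        (√(‖y - x‖ ^ 2 / σ ^ 2 + δ))⁻¹ ∂F.mu t) / (2 * l * σ ^ 2) ≤ a / 8 :=
      le_of_le_of_eq (b := (Λ' * (2 * σ) ^ 2 * (C + 1) ^ 2 + 16 * (32 * Λ' * σ ^ 2)) /
        (2 * l * σ ^ 2)) (by gcongr) (by rw [hl, hK]; field_simp; ring)
    have u3 : a / 8 ≤ l / 2 * (I0 / σ ^ 2 + σ ^ 2 * I2) := by linarith
    rw [hl, show 4 * K / a / 2 * (I0 / σ ^ 2 + σ ^ 2 * I2) = 2 * K * (I0 / σ ^ 2 + σ ^ 2 * I2) / a
      by ring, le_div_iff₀ a0] at u3
    rw [← sq_abs, ← ha, show 64 * K * (I0 / (2 * σ) ^ 2 + (2 * σ) ^ 2 * I2) =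
      16 * K * (I0 / σ ^ 2 + σ ^ 2 * I2) + 240 * (K * σ ^ 2 * I2) by ring]
    have : 0 ≤ K * σ ^ 2 * I2 := by positivity
    nlinarith
  filter_upwards [Hu.ae_sl hF t] with y hy
  have s0 := sq_nonneg' x σ (y, t)
  simp only [Pi.sub_apply]
  rw [lap_psi hF hy x hσ δ0]
  by_cases hB : y ∈ ball x (2 * σ)
  swap
  · have h3 : 2 < sq x σ (y, t) := by
      rw [mem_ball_iff_norm, not_lt] at hB
      rw [sq, lt_div_iff₀ (by positivity)]
      nlinarith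
    obtain ⟨c0, c1, c2⟩ := th_hi δ0 h3
    rw [indicator_of_notMem hB, indicator_of_notMem fun h => hB (ball_subset_ball (by linarith) h),
      c0, c1, c2]
    simp
  have r1 := hR y ⟨hy, hB⟩
  have hH := H_le hF hy hρ r1
  have hn : |F.xn x (y, t)| ≤ σ * sq x σ (y, t) / 4 := by
    have := (Im.reach_iff (hF.norm_n hy) hρ).1 r1 x hx
    rw [Mv.xn, real_inner_comm, ← neg_sub, inner_neg_right, abs_neg]
    refine this.trans (le_of_eq ?_)
    rw [sq, norm_sub_rev]; field_simp; ring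
  have b1 : |F.H (y, t) * F.xn x (y, t)| ≤ sq x σ (y, t) := by
    rw [abs_mul]
    calc _ ≤ 3 / (2 * σ) * (σ * sq x σ (y, t) / 4) := by gcongr
      _ = 3 / 8 * sq x σ (y, t) := by field_simp; ring
      _ ≤ _ := by linarith
  have b2 : F.xn x (y, t) ^ 2 / σ ^ 2 ≤ sq x σ (y, t) ^ 2 := by
    rw [div_le_iff₀ (by positivity), ← sq_abs]
    calc _ ≤ (σ * sq x σ (y, t) / 4) ^ 2 := by gcongr
      _ ≤ _ := by nlinarith [sq_nonneg (σ * sq x σ (y, t))]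
  have b3 := hb δ _ _ _ δ0 δ1 s0 b1 (by positivity) b2
  rw [indicator_of_mem hB]
  refine (pt (u := f (y, t)) (w := F.lap f (y, t)) hσ l0 s1 b3 (th_sq δ0 δ1 s0)
    (k := Hu.eta (sq x σ (y, t)) * (4 * δ / (sq x σ (y, t) + δ) ^ 2)) ?_).trans_eq (by ring)
  have k0 : 0 ≤ Hu.eta (sq x σ (y, t)) * (4 * δ / (sq x σ (y, t) + δ) ^ 2) :=
    mul_nonneg (Hu.eta_nonneg _) (by positivity)
  by_cases hE : y ∈ ball x ε
  · rw [indicator_of_mem hE]
    rw [mem_ball_iff_norm] at hE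
    have h3 : sq x σ (y, t) ≤ δ := by rw [sq, hδ]; gcongr
    have h4 : ‖y - x‖ < r0 := by
      by_contra h
      have : r0 ^ 2 / σ ^ 2 ≤ sq x σ (y, t) := by rw [sq]; gcongr; exact not_lt.1 h
      have : (r0 ^ 2 / σ ^ 2) ^ 2 ≤ δ ^ 2 := by gcongr; linarith
      nlinarith
    have h5 : 1 / δ ≤ 4 * δ / (sq x σ (y, t) + δ) ^ 2 := by
      rw [div_le_div_iff₀ δ0 (by positivity)]; nlinarith
    rw [Hu.eta_one (h3.trans δ1), one_mul]
    calc _ ≤ a / (2 * ε ^ 2) * σ ^ 2 := sub_le_self _ (abs_nonneg _)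
      _ = a / 2 * (1 / δ) := by rw [hδ]; field_simp
      _ ≤ _ := mul_le_mul (near y hy h4) h5 (by positivity) ((half_pos a0).le.trans (near y hy h4))
  rw [indicator_of_notMem hE, zero_mul, zero_sub]
  rcases lt_or_ge ‖y - x‖ r0 with h | h
  · exact (neg_nonpos.2 (abs_nonneg _)).trans
      (mul_nonneg ((half_pos a0).le.trans (near y hy h)) k0)
  have h3 : r0 ^ 2 / σ ^ 2 ≤ sq x σ (y, t) := by rw [sq]; gcongr
  have h4 : 4 * δ / (sq x σ (y, t) + δ) ^ 2 ≤ 1 := by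
    rw [div_le_one (by positivity)]
    refine δ2.trans ?_
    gcongr; linarith
  have k1 : Hu.eta (sq x σ (y, t)) * (4 * δ / (sq x σ (y, t) + δ) ^ 2) ≤ 1 :=
    mul_le_one₀ (Hu.eta_le _) (by positivity) h4
  refine le_trans ?_ (neg_abs_le _)
  rw [abs_mul, abs_mul sg, s1, one_mul, abs_of_nonneg k0]
  exact neg_le_neg (mul_le_of_le_one_right (abs_nonneg _) k1)

end Crest.Agent.N250.WS.Sup

end
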