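import Crest.Agent.N250.Wt.Cut
import Crest.Agent.N250.Wt.Den

/-!
# Row 250 (helper84): `H² ⊂ C⁰` by the heat kernel (only a bound for the mean curvature is used)
-/

set_option autoImplicit false
open MeasureTheory Set Filter Topology
open scoped ContDiff ENNReal NNReal

noncomputable section

namespace Crest.Agent.N250.WS.Geo

open Crest.Agent.N222

variable {X : Type} [TopologicalSpace X] [MeasurableSpace X] (G : Geo X)

/-- `|x - y|²` -/
def uu (y : E (Fin 3)) : G.R :=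
  ⟨fun p => ‖G.M.x p - y‖ ^ 2, Imm.Sm.comp (M := G.M) G.M.sm_x
    (g := fun z => ‖z - y‖ ^ 2) ((contDiff_norm_sq ℝ).comp (contDiff_id.sub contDiff_const))⟩

/-- `⟨x - y, n⟩` -/
def zn (y : E (Fin 3)) (p : X) : ℝ := ∑ a, (G.M.x p - y) a * (G.n a).1 p

/-- functions of `|x - y|²` -/
def rad (y : E (Fin 3)) {φ : ℝ → ℝ} (hφ : ContDiff ℝ ∞ φ) : G.R :=
  ⟨fun p => φ ((G.uu y).1 p), Imm.Sm.comp (M := G.M) (G.uu y).2 hφ⟩

variable (y : E (Fin 3)) (p : X)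

theorem uu_nonneg : 0 ≤ (G.uu y).1 p := sq_nonneg _

theorem uu_eq : (G.uu y).1 p = ∑ a, (G.M.x p - y) a * (G.M.x p - y) a := by
  show ‖G.M.x p - y‖ ^ 2 = _
  rw [EuclideanSpace.real_norm_sq_eq]
  simp only [sq]

theorem x2_normH : G.S.x2.1 p = ‖G.M.x p‖ ^ 2 := by
  rw [x2_pt, EuclideanSpace.real_norm_sq_eq]
  simp only [sq]; rfl

theorem lap_valH (f : G.R) : (G.S.lap f).1 = G.M.pre.lap f.1 := G.M.hom.lap f

theorem gam_valH (f g : G.R) : (G.S.gam f g).1 = G.M.pre.gam f.1 g.1 := G.M.hom.gam f g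

theorem gam_ptH (f g : G.R) : (G.S.gam f g).1 p = ∑ a, (G.S.D a f).1 p * (G.S.D a g).1 p := by
  rw [← ev_apply, Pre.gam, map_sum]; rfl

theorem lap_ptH (f : G.R) : (G.S.lap f).1 p = ∑ a, (G.S.D a (G.S.D a f)).1 p := by
  rw [← ev_apply, Pre.lap, map_sum]; rfl

theorem D_uu (a : Fin 3) :
    (G.S.D a (G.uu y)).1 p = 2 * ((G.M.x p - y) a - G.zn y p * (G.n a).1 p) := by
  have h : ∀ b, G.M.pre.P a b p = (if a = b then 1 else 0) - (G.n a).1 p * (G.n b).1 p := fun b => by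
    have := congrArg (G.ev p) (G.hyp.Pn a b)
    rw [map_sub, apply_ite (G.ev p), map_one, map_zero] at this
    exact this
  refine (Imm.D_normSq (M := G.M) y a p).trans ?_
  simp only [Imm.PL_apply, h, sub_mul, Finset.sum_sub_distrib, ite_mul, one_mul, zero_mul,
    Finset.sum_ite_eq, Finset.mem_univ, if_true, zn, Fin.sum_univ_three]
  ring

theorem gam_uu : (G.S.gam (G.uu y) (G.uu y)).1 p = 4 * ((G.uu y).1 p - G.zn y p ^ 2) := by
  have h1 := G.nn_pt p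
  simp only [gam_ptH, D_uu, uu_eq, zn, Fin.sum_univ_three] at h1 ⊢
  generalize (G.M.x p - y) 0 = a, (G.M.x p - y) 1 = b, (G.M.x p - y) 2 = c
  linear_combination 4 * (a * (G.n 0).1 p + b * (G.n 1).1 p + c * (G.n 2).1 p) ^ 2 * h1

theorem zn_sq_le : G.zn y p ^ 2 ≤ (G.uu y).1 p := by
  have h := G.gam_uu y p
  have : 0 ≤ (G.S.gam (G.uu y) (G.uu y)).1 p := by
    rw [gam_ptH]; exact Finset.sum_nonneg fun _ _ => mul_self_nonneg _
  linarith

theorem lap_uu : (G.S.lap (G.uu y)).1 p = 4 - 2 * (G.S.h.1 p * G.zn y p) := by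
  have h : ∀ c, G.M.pre.H c p = -(G.S.h.1 p * (G.n c).1 p) := fun c => by
    rw [← G.M.hom.H c]
    exact congrArg (G.ev p) (G.hyp.lap_x c)
  rw [lap_valH]
  refine (Imm.lap_normSq (M := G.M) y p).trans ?_
  simp only [h, zn, Fin.sum_univ_three]
  push_cast
  ring

theorem D_rad {φ : ℝ → ℝ} (hφ : ContDiff ℝ ∞ φ) (a : Fin 3) : (G.S.D a (G.rad y hφ)).1 p =
    deriv φ ((G.uu y).1 p) * (G.S.D a (G.uu y)).1 p :=
  Imm.D_comp (Imm.Sm.diffAt (M := G.M) (G.uu y).2 p) (hφ.differentiable (by simp) _).hasDerivAt a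

theorem lap_rad {φ : ℝ → ℝ} (hφ : ContDiff ℝ ∞ φ) : (G.S.lap (G.rad y hφ)).1 p =
    deriv φ ((G.uu y).1 p) * (4 - 2 * (G.S.h.1 p * G.zn y p)) +
      deriv (deriv φ) ((G.uu y).1 p) * (4 * ((G.uu y).1 p - G.zn y p ^ 2)) := by
  rw [← lap_uu, ← gam_uu, lap_valH, lap_valH, gam_valH]
  exact Imm.lap_comp (M := G.M) (G.uu y).2 (hφ.contDiffAt.of_le (by norm_cast))

/-- the heat kernel at time `τ²` as a function of the square distance -/
def hk (τ u : ℝ) : ℝ := (τ ^ 2)⁻¹ * Real.exp (-(4 * τ ^ 2)⁻¹ * u)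

theorem hk_sm (τ : ℝ) : ContDiff ℝ ∞ (hk τ) := by unfold hk; fun_prop

theorem hk_d (τ : ℝ) : deriv (hk τ) = fun u => -(4 * τ ^ 2)⁻¹ * hk τ u := by
  funext u
  have := (((hasDerivAt_id u).const_mul (-(4 * τ ^ 2)⁻¹)).exp.const_mul (τ ^ 2)⁻¹).deriv
  refine Eq.trans this ?_
  simp only [hk, id]; ring

theorem hk_dd (τ u : ℝ) : deriv (deriv (hk τ)) u = (4 * τ ^ 2)⁻¹ ^ 2 * hk τ u := by
  rw [hk_d, deriv_const_mul_field, hk_d]; ring

theorem hk_pos {τ : ℝ} (h : 0 < τ) (u : ℝ) : 0 < hk τ u := by unfold hk; positivity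

theorem hk_le {τ u : ℝ} (hu : 0 ≤ u) : hk τ u ≤ (τ ^ 2)⁻¹ :=
  mul_le_of_le_one_right (by positivity) (Real.exp_le_one_iff.2
    (mul_nonpos_of_nonpos_of_nonneg (neg_nonpos.2 (by positivity)) hu))

theorem hk_t {τ : ℝ} (h : 0 < τ) (u : ℝ) :
    HasDerivAt (fun τ => hk τ u) (hk τ u * (-2 / τ + u / (2 * τ ^ 3))) τ := by
  have h1 := (hasDerivAt_pow 2 τ).inv (pow_pos h 2).ne'
  have h2 := ((((hasDerivAt_pow 2 τ).const_mul 4).inv (by positivity)).neg.mul_const u).exp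
  refine (h1.mul h2).congr_deriv ?_
  simp only [hk, Pi.inv_apply, Pi.neg_apply]
  field_simp
  ring

variable [BorelSpace X] [T2Space X] [SecondCountableTopology X]

omit [T2Space X] in
theorem intg_ofH {f : G.R} (hc : HasCompactSupport f.1) {g : X → ℝ} (hg : Continuous g) :
    Integrable (fun p => f.1 p ^ 2 * g p) G.M.mu := by
  refine (((cont f).pow 2).mul hg).integrable_of_hasCompactSupport ?_
  exact hc.mono fun p hp h => hp (by simp [h])

omit [BorelSpace X] [T2Space X] [SecondCountableTopology X] in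
theorem cs_lapH {f : G.R} (hc : HasCompactSupport f.1) : HasCompactSupport (G.S.lap f).1 :=
  HasCompactSupport.intro' hc (isClosed_tsupport _) fun p hp => by
    rw [lap_valH]; exact Imm.lap_eq_zero_of_notMem hp

omit [T2Space X] in
theorem heat_d {f : G.R} (hc : HasCompactSupport f.1) {τ : ℝ} (h : 0 < τ) :
    HasDerivAt (fun τ => ∫ p, f.1 p ^ 2 * hk τ ((G.uu y).1 p) ∂G.M.mu)
      (∫ p, f.1 p ^ 2 * (hk τ ((G.uu y).1 p) * (-2 / τ + (G.uu y).1 p / (2 * τ ^ 3))) ∂G.M.mu) τ := by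
  have cu := cont (G.uu y)
  have ck : ∀ τ, Continuous fun p => hk τ ((G.uu y).1 p) := fun τ => (hk_sm τ).continuous.comp cu
  refine (hasDerivAt_integral_of_dominated_loc_of_deriv_le (Ioi_mem_nhds (half_lt_self h))
    (Eventually.of_forall fun s => (G.intg_ofH hc (ck s)).aestronglyMeasurable) (G.intg_ofH hc (ck τ))
    (F' := fun τ p => f.1 p ^ 2 * (hk τ ((G.uu y).1 p) * (-2 / τ + (G.uu y).1 p / (2 * τ ^ 3))))
    (G.intg_ofH hc (by fun_prop)).aestronglyMeasurable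
    (bound := fun p => f.1 p ^ 2 *
      (((τ / 2) ^ 2)⁻¹ * (2 / (τ / 2) + (G.uu y).1 p / (2 * (τ / 2) ^ 3))))
    (Eventually.of_forall fun p s hs => ?_) (G.intg_ofH hc (by fun_prop))
    (Eventually.of_forall fun p s hs => (hk_t ((half_pos h).trans hs) _).const_mul _)).2
  have h1 : τ / 2 < s := hs
  have h2 : 0 < s := (half_pos h).trans h1
  have u0 := G.uu_nonneg y p
  rw [Real.norm_eq_abs, abs_mul, abs_mul, abs_of_nonneg (sq_nonneg _), abs_of_pos (hk_pos h2 _)]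
  have a : hk s ((G.uu y).1 p) ≤ ((τ / 2) ^ 2)⁻¹ := (hk_le u0).trans (by gcongr)
  have b : |-2 / s + (G.uu y).1 p / (2 * s ^ 3)| ≤ 2 / (τ / 2) + (G.uu y).1 p / (2 * (τ / 2) ^ 3) := by
    refine (abs_add_le _ _).trans ?_
    rw [neg_div, abs_neg, abs_of_nonneg (by positivity), abs_of_nonneg (by positivity)]
    gcongr
  gcongr

theorem heat_ge {f : G.R} (hc : HasCompactSupport f.1) {k r τ : ℝ}
    (hh : ∀ p, f.1 p ≠ 0 → G.S.h.1 p ^ 2 ≤ k) (h : 0 < τ) (hr : τ ≤ r) :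
    -((2 / r + k * r / 2) * ∫ p, f.1 p ^ 2 * hk τ ((G.uu y).1 p) ∂G.M.mu) -
      2 * r * ∫ p, (G.S.lap f).1 p ^ 2 ∂G.M.mu ≤
      ∫ p, f.1 p ^ 2 * (hk τ ((G.uu y).1 p) * (-2 / τ + (G.uu y).1 p / (2 * τ ^ 3))) ∂G.M.mu := by
  have r0 : 0 < r := h.trans_le hr
  have cu := cont (G.uu y)
  have ck : Continuous fun p => hk τ ((G.uu y).1 p) := (hk_sm τ).continuous.comp cu
  set Φ := G.rad y (hk_sm τ) with hΦ
  have H := G.hyp
  obtain ⟨i1, i2⟩ := G.int_dv (Y := fun a => f * (f * G.S.D a Φ - 2 * Φ * G.S.D a f))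
    (fun a => hc.mono fun p hp h => hp (by simp [h])) (H.tan_of (by
      have a := H.n_D f
      have b := H.n_D Φ
      simp only [Fin.sum_univ_three] at a b ⊢
      linear_combination f * f * b - 2 * f * Φ * a))
  have e : G.S.dv (fun a => f * (f * G.S.D a Φ - 2 * Φ * G.S.D a f)) =
      f * f * G.S.lap Φ - 2 * Φ * G.S.gam f f - 2 * f * Φ * G.S.lap f := by
    simp only [Pre.dv, Pre.lap, Pre.gam, H.mul, H.toIsDS.D_sub, H.toIsDS.D_two, Fin.sum_univ_three]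
    ring
  rw [e] at i1 i2
  have j1 := G.intg_ofH hc ck
  have j2 : Integrable (fun p => (G.S.lap f).1 p ^ 2) G.M.mu := by
    simpa using G.intg_ofH (G.cs_lapH hc) (g := fun _ => 1) continuous_const
  have key := integral_mono ((((j1.const_mul (2 / r + k * r / 2)).neg).sub (j2.const_mul (2 * r))).add
    (i1.const_mul (2 * τ))) (G.intg_ofH hc (g := fun p => hk τ ((G.uu y).1 p) *
      (-2 / τ + (G.uu y).1 p / (2 * τ ^ 3))) (by fun_prop)) fun p => ?_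
  · rwa [integral_add' _ (i1.const_mul _), integral_sub' _ (j2.const_mul _), integral_neg',
      integral_const_mul, integral_const_mul, integral_const_mul, i2, mul_zero, add_zero] at key
    exacts [(j1.const_mul _).neg, (j1.const_mul _).neg.sub (j2.const_mul _)]
  have l := G.lap_rad y p (hk_sm τ)
  rw [hk_dd, hk_d] at l
  have g0 : 0 ≤ (G.S.gam f f).1 p := by
    rw [gam_ptH]; exact Finset.sum_nonneg fun _ _ => mul_self_nonneg _
  have k0 := hk_pos h ((G.uu y).1 p)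
  have k1 := hk_le (τ := τ) (G.uu_nonneg y p)
  have k2 : (G.S.h.1 p ^ 2) * f.1 p ^ 2 * τ ≤ k * f.1 p ^ 2 * r := by
    rcases eq_or_ne (f.1 p) 0 with h0 | h0
    · simp [h0]
    · have := hh p h0
      have : 0 ≤ k := (sq_nonneg _).trans this
      gcongr
  show -((2 / r + k * r / 2) * (f.1 p ^ 2 * hk τ ((G.uu y).1 p))) - 2 * r * (G.S.lap f).1 p ^ 2 +
    2 * τ * (f.1 p * f.1 p * (G.S.lap Φ).1 p - 2 * hk τ ((G.uu y).1 p) * (G.S.gam f f).1 p -
      2 * f.1 p * hk τ ((G.uu y).1 p) * (G.S.lap f).1 p) ≤ _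
  rw [l]
  beta_reduce
  generalize hk τ ((G.uu y).1 p) = K at *
  generalize (G.uu y).1 p = u, G.zn y p = z, G.S.h.1 p = h', f.1 p = v, (G.S.lap f).1 p = w,
    (G.S.gam f f).1 p = g at *
  have k3 : K * τ ^ 2 ≤ 1 := by rwa [← one_div, le_div_iff₀ (by positivity)] at k1
  have a1 : 0 ≤ v ^ 2 * K * τ * (z / τ ^ 2 - h') ^ 2 / 2 := by positivity
  have a2 : 0 ≤ 2 * K / r * (v + r * τ * w) ^ 2 := by positivity
  have a3 : 0 ≤ 2 * r * w ^ 2 * (1 - K * τ ^ 2) := mul_nonneg (by positivity) (by linarith)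
  have a4 : 0 ≤ 4 * τ * K * g := by positivity
  have a5 : 0 ≤ K / 2 * (k * v ^ 2 * r - h' ^ 2 * v ^ 2 * τ) := mul_nonneg (by positivity) (by linarith)
  refine le_of_sub_nonneg (le_of_le_of_eq (add_nonneg (add_nonneg (add_nonneg (add_nonneg a1 a2) a3)
    a4) a5) ?_)
  field_simp
  ring

/-- **HEAT** -/
theorem heat {f : G.R} (hc : HasCompactSupport f.1) {k r : ℝ} (hk0 : 0 ≤ k) (hr : 0 < r)
    (hh : ∀ p, f.1 p ≠ 0 → G.S.h.1 p ^ 2 ≤ k) (p₀ : X) :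
    f.1 p₀ ^ 2 ≤ 6 * Real.exp (2 + k * r ^ 2 / 2) *
      ((∫ p, f.1 p ^ 2 ∂G.M.mu) / r ^ 2 + r ^ 2 * ∫ p, (G.S.lap f).1 p ^ 2 ∂G.M.mu) := by
  set y := G.M.x p₀
  obtain ⟨L, hL⟩ : ∃ L, L = ∫ p, (G.S.lap f).1 p ^ 2 ∂G.M.mu := ⟨_, rfl⟩
  obtain ⟨N, hN⟩ : ∃ N, N = ∫ p, f.1 p ^ 2 ∂G.M.mu := ⟨_, rfl⟩
  have L0 : 0 ≤ L := hL ▸ integral_nonneg fun _ => sq_nonneg _
  have N0 : 0 ≤ N := hN ▸ integral_nonneg fun _ => sq_nonneg _
  rw [← hL, ← hN]
  rcases eq_or_ne (f.1 p₀) 0 with h0 | h0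
  · rw [h0, sq, zero_mul]; positivity
  have ck : ∀ τ, Continuous fun p => hk τ ((G.uu y).1 p) := fun τ =>
    (hk_sm τ).continuous.comp (cont (G.uu y))
  obtain ⟨J, hJ⟩ : ∃ J : ℝ → ℝ, J = fun τ => ∫ p, f.1 p ^ 2 * hk τ ((G.uu y).1 p) ∂G.M.mu :=
    ⟨_, rfl⟩
  obtain ⟨c, hc'⟩ : ∃ c, c = 2 / r + k * r / 2 := ⟨_, rfl⟩
  have c0 : 0 ≤ c := by rw [hc']; positivity
  have hd : ∀ τ ∈ Ioc 0 r, ∃ d, 0 ≤ d ∧ HasDerivAt
      (fun τ => Real.exp (c * τ) * J τ + 2 * r * L * Real.exp (c * r) * τ) d τ := fun τ hτ => by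
    have h1 := G.heat_d y hc hτ.1
    have h2 := G.heat_ge y hc hh hτ.1 hτ.2
    rw [← hJ] at h1
    rw [← hL, ← hc', ← congrFun hJ τ] at h2
    refine ⟨_, ?_, ((((hasDerivAt_id τ).const_mul c).exp).mul h1).add
      ((hasDerivAt_id τ).const_mul _)⟩
    have e1 : Real.exp (c * τ) ≤ Real.exp (c * r) := by gcongr; exact hτ.2
    have e2 := Real.exp_pos (c * τ)
    simp only [id, mul_one]
    nlinarith [mul_le_mul_of_nonneg_left h2 e2.le, mul_le_mul_of_nonneg_left e1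
      (show 0 ≤ 2 * r * L by positivity)]
  choose! d d0 hd using hd
  have mono := monotoneOn_of_deriv_nonneg (convex_Ioc 0 r)
    (fun τ hτ => (hd τ hτ).continuousAt.continuousWithinAt)
    (fun τ hτ => (hd τ (interior_subset hτ)).differentiableAt.differentiableWithinAt)
    fun τ hτ => by rw [(hd τ (interior_subset hτ)).deriv]; exact d0 τ (interior_subset hτ)
  have hV : {q | f.1 p₀ ^ 2 / 2 < f.1 q ^ 2} ∈ 𝓝 p₀ :=
    (isOpen_lt continuous_const ((cont f).pow 2)).mem_nhds (half_lt_self (sq_pos_of_ne_zero h0))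
  have ev : ∀ᶠ τ in 𝓝[>] (0 : ℝ), τ ∈ Ioo 0 r := Ioo_mem_nhdsGT hr
  obtain ⟨τ, h1, τ0, τ1⟩ := ((G.denS p₀ _ hV).and ev).exists
  set A := {q | f.1 p₀ ^ 2 / 2 < f.1 q ^ 2} ∩ {q | dist (G.M.x q) y < τ} with hA
  have oA : IsOpen A := (isOpen_lt continuous_const ((cont f).pow 2)).inter
    (isOpen_lt (G.M.continuous_x.dist continuous_const) continuous_const)
  have fA : G.M.mu A ≠ ⊤ := by
    refine ((measure_mono fun q hq => subset_tsupport _ fun h => ?_).trans_lt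
      hc.isCompact.measure_lt_top).ne
    have := hq.1
    simp only [mem_ofPred_eq, h] at this
    nlinarith [sq_nonneg (f.1 p₀)]
  have low : f.1 p₀ ^ 2 / 2 * ((τ ^ 2)⁻¹ * (3 / 4)) * G.M.mu.real A ≤ J τ := by
    rw [hJ]
    refine (setIntegral_ge_of_const_le_real oA.measurableSet fA (fun q hq => ?_)
      (G.intg_ofH hc (ck τ)).integrableOn).trans (setIntegral_le_integral (G.intg_ofH hc (ck τ))
      (Eventually.of_forall fun q => mul_nonneg (sq_nonneg _) (hk_pos τ0 _).le))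
    refine mul_le_mul hq.1.le (mul_le_mul_of_nonneg_left ?_ (by positivity)) (by positivity)
      (sq_nonneg _)
    have h2 : ‖G.M.x q - y‖ < τ := by rw [← dist_eq_norm]; exact hq.2
    have h3 : (4 * τ ^ 2)⁻¹ * (G.uu y).1 q ≤ 1 / 4 := by
      rw [inv_mul_le_iff₀ (by positivity)]
      show ‖G.M.x q - y‖ ^ 2 ≤ _
      nlinarith [norm_nonneg (G.M.x q - y)]
    linarith [Real.add_one_le_exp (-(4 * τ ^ 2)⁻¹ * (G.uu y).1 q)]
  have m1 : τ ^ 2 ≤ G.M.mu.real A := (ENNReal.ofReal_le_iff_le_toReal fA).1 h1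
  have low2 : 3 / 8 * f.1 p₀ ^ 2 ≤ J τ :=
    le_trans (le_of_eq_of_le (b := f.1 p₀ ^ 2 / 2 * ((τ ^ 2)⁻¹ * (3 / 4)) * τ ^ 2)
      (by field_simp; ring) (by gcongr)) low
  have up : J r ≤ N / r ^ 2 := by
    rw [hJ, hN, ← integral_div]
    refine integral_mono (G.intg_ofH hc (ck r)) ?_ fun q => ?_
    · simpa [div_eq_mul_inv] using G.intg_ofH hc (g := fun _ => (r ^ 2)⁻¹) continuous_const
    · exact mul_le_mul_of_nonneg_left (hk_le (G.uu_nonneg y q)) (sq_nonneg _)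
  have m := mono ⟨τ0, τ1.le⟩ ⟨hr, le_rfl⟩ τ1.le
  have e : c * r = 2 + k * r ^ 2 / 2 := by rw [hc']; field_simp
  simp only [e] at m
  have e1 : 1 ≤ Real.exp (c * τ) := Real.one_le_exp (by positivity)
  have e2 := Real.exp_pos (2 + k * r ^ 2 / 2)
  have J0 : 0 ≤ J τ := le_trans (by positivity) low2
  generalize Real.exp (2 + k * r ^ 2 / 2) = Q at *
  have n0 : 0 ≤ N / r ^ 2 := by positivity
  nlinarith [mul_le_mul_of_nonneg_right e1 J0, mul_le_mul_of_nonneg_left up e2.le,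
    show 0 ≤ r * L * Q * τ by positivity, mul_nonneg e2.le n0, show 0 ≤ Q * r ^ 2 * L by positivity]

end Crest.Agent.N250.WS.Geo

end
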