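import Crest.Agent.N250.Wt.Sup2

/-!
# Row 250 (helper84): the local sup bound and the radial trace estimate
-/

set_option autoImplicit false
open MeasureTheory Set Filter Topology
open scoped ContDiff ENNReal NNReal

noncomputable section

namespace Crest.Agent.N250.WS.Geo

open Crest.Agent.N222

variable {X : Type} [TopologicalSpace X] [MeasurableSpace X] (G : Geo X)

/-- `L²(dA)` over a set -/
def nS (A : Set X) (f : G.R) : ℝ≥0∞ := eLpNorm f.1 2 (G.M.mu.restrict A)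

/-- `(c + |x|²)⁻¹` -/
def invR {c : ℝ} (hc : 0 < c) : G.R :=
  ⟨fun p => (c + G.S.x2.1 p)⁻¹, Imm.Sm.inv (M := G.M) ((Imm.sm_const c).add G.S.x2.2)
    fun p => (add_pos_of_pos_of_nonneg hc (G.x2_nonneg p)).ne'⟩

theorem dr_invR {c : ℝ} (hc : 0 < c) (p : X) : (G.S.dr (G.invR hc)).1 p =
    -(c + G.S.x2.1 p)⁻¹ ^ 2 * (2 * (G.S.x2.1 p - G.S.xn.1 p ^ 2)) := by
  have h0 := (add_pos_of_pos_of_nonneg hc (G.x2_nonneg p)).ne'
  have h : ∀ a, (G.S.D a (G.invR hc)).1 p = -(c + G.S.x2.1 p)⁻¹ ^ 2 * (G.S.D a G.S.x2).1 p :=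
    fun a => Imm.D_comp (Imm.Sm.diffAt (M := G.M) G.S.x2.2 p) (g := fun u => (c + u)⁻¹)
      ((((hasDerivAt_id _).const_add c).inv h0).congr_deriv (by simp only [id]; field_simp)) a
  rw [← dr_x2_pt]
  simp only [dr_pt, h, Fin.sum_univ_three]
  ring

theorem eta_far {s : ℝ} (h : 2 < s) : deriv Hu.eta s = 0 ∧ deriv (deriv Hu.eta) s = 0 := by
  have e0 : Hu.eta =ᶠ[𝓝 s] fun _ => 0 := by
    filter_upwards [Ioi_mem_nhds h] with v hv using Hu.eta_zero (le_of_lt hv)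
  have e1 : deriv Hu.eta =ᶠ[𝓝 s] fun _ => 0 := by simpa using e0.deriv
  exact ⟨e1.self_of_nhds, by simpa using e1.deriv_eq⟩

theorem cpt_uu [T2Space X] (y : E (Fin 3)) (c : ℝ) : IsCompact {p | (G.uu y).1 p ≤ c} := by
  refine (G.prop (2 * ‖y‖ ^ 2 + 2 * c)).of_isClosed_subset
    (isClosed_le (cont _) continuous_const) fun p hp => ?_
  have h1 : ‖G.M.x p - y‖ ^ 2 ≤ c := hp
  have h2 := norm_add_le (G.M.x p - y) y
  rw [sub_add_cancel] at h2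
  show G.S.x2.1 p ≤ _
  rw [x2_normH]
  nlinarith [norm_nonneg (G.M.x p), sq_nonneg (‖G.M.x p - y‖ - ‖y‖)]

variable [BorelSpace X] {G} {A B : Set X} {f g : G.R} {c : ℝ}

theorem nS_add (A : Set X) (f g : G.R) : G.nS A (f + g) ≤ G.nS A f + G.nS A g :=
  eLpNorm_add_le (aesm f _) (aesm g _) one_le_two

omit [BorelSpace X] in
theorem nS_le (hA : MeasurableSet A) (hAB : A ⊆ B) (h : ∀ p ∈ A, |f.1 p| ≤ c * |g.1 p|) :
    G.nS A f ≤ ENNReal.ofReal c * G.nS B g :=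
  (eLpNorm_le_mul_eLpNorm_of_ae_le_mul ((ae_restrict_iff' hA).2 (ae_of_all _ h)) 2).trans
    (mul_le_mul_right (eLpNorm_mono_measure _ (Measure.restrict_mono hAB le_rfl)) _)

omit [BorelSpace X] in
theorem nS_univ_le (hB : MeasurableSet B) (h : ∀ p ∈ B, |f.1 p| ≤ c * |g.1 p|)
    (h0 : ∀ p, p ∉ B → f.1 p = 0) : G.nS univ f ≤ ENNReal.ofReal c * G.nS B g := by
  refine le_of_eq_of_le ?_ (nS_le hB subset_rfl h)
  rw [nS, nS, Measure.restrict_univ, ← eLpNorm_indicator_eq_eLpNorm_restrict hB,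
    indicator_eq_self.2 fun p hp => by_contra fun h => hp (h0 p h)]

omit [BorelSpace X] in
theorem nS_sq (A : Set X) (f : G.R) :
    G.nS A f ^ 2 = ∫⁻ p in A, ENNReal.ofReal (f.1 p ^ 2) ∂G.M.mu := by
  have h := eLpNorm_nnreal_pow_eq_lintegral (f := f.1) (μ := G.M.mu.restrict A) (p := 2) two_ne_zero
  simp only [ENNReal.coe_ofNat, NNReal.coe_ofNat, ENNReal.rpow_ofNat] at h
  rw [nS, h]
  refine lintegral_congr fun p => ?_
  rw [← ofReal_norm, ← ENNReal.ofReal_pow (norm_nonneg _), Real.norm_eq_abs, sq_abs]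

/-- unweighted norms against `L²(dm)` -/
theorem nS_le_nR (A : Set X) (hc : 0 ≤ c) (h : ∀ p, f.1 p ^ 2 ≤ c ^ 2 * (g.1 p ^ 2 * G.m.1 p)) :
    G.nS A f ≤ ENNReal.ofReal c * G.nR g := by
  refine le_of_sq_le ?_
  rw [nS_sq, mul_pow, nR_sq, ← lintegral_const_mul' _ _ (ENNReal.pow_ne_top ENNReal.ofReal_ne_top)]
  refine (setLIntegral_le_lintegral _ _).trans (lintegral_mono fun p => ?_)
  rw [← ENNReal.ofReal_pow hc, ← ENNReal.ofReal_mul (sq_nonneg _)]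
  exact ENNReal.ofReal_le_ofReal (h p)

variable [T2Space X] [SecondCountableTopology X]

omit [T2Space X] in
theorem nS_univ_eq (hc : HasCompactSupport f.1) :
    G.nS univ f = ENNReal.ofReal √(∫ p, f.1 p ^ 2 ∂G.M.mu) := by
  have j : Integrable (fun p => f.1 p ^ 2) G.M.mu := by
    simpa using G.intg_ofH hc (g := fun _ => 1) continuous_const
  have : G.nS univ f ^ 2 = (ENNReal.ofReal √(∫ p, f.1 p ^ 2 ∂G.M.mu)) ^ 2 := by
    rw [nS_sq, Measure.restrict_univ, ← ENNReal.ofReal_pow (Real.sqrt_nonneg _),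
      Real.sq_sqrt (integral_nonneg fun _ => sq_nonneg _),
      ofReal_integral_eq_lintegral_ofReal j (ae_of_all _ fun _ => sq_nonneg _)]
  exact le_antisymm (le_of_sq_le this.le) (le_of_sq_le this.ge)

theorem heat_e (hc : HasCompactSupport f.1) {k r : ℝ} (hk0 : 0 ≤ k) (hr : 0 < r)
    (hh : ∀ p, f.1 p ≠ 0 → G.S.h.1 p ^ 2 ≤ k) (p₀ : X) :
    ‖f.1 p₀‖ₑ ≤ ENNReal.ofReal (3 * Real.exp (1 + k * r ^ 2 / 4)) *
      (ENNReal.ofReal r⁻¹ * G.nS univ f + ENNReal.ofReal r * G.nS univ (G.S.lap f)) := by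
  have h := G.heat hc hk0 hr hh p₀
  rw [nS_univ_eq hc, nS_univ_eq (G.cs_lapH hc), ← ENNReal.ofReal_mul (by positivity),
    ← ENNReal.ofReal_mul hr.le, ← ENNReal.ofReal_add (by positivity) (by positivity),
    ← ENNReal.ofReal_mul (by positivity), ← ofReal_norm, Real.norm_eq_abs]
  refine ENNReal.ofReal_le_ofReal (abs_le_of_sq_le_sq (h.trans ?_) (by positivity))
  have e : Real.exp (2 + k * r ^ 2 / 2) = Real.exp (1 + k * r ^ 2 / 4) ^ 2 := by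
    rw [← Real.exp_nat_mul]; congr 1; push_cast; ring
  have a := Real.sq_sqrt (integral_nonneg (μ := G.M.mu) fun p => sq_nonneg (f.1 p))
  have b := Real.sq_sqrt (integral_nonneg (μ := G.M.mu) fun p => sq_nonneg ((G.S.lap f).1 p))
  have a0 := Real.sqrt_nonneg (∫ p, f.1 p ^ 2 ∂G.M.mu)
  have b0 := Real.sqrt_nonneg (∫ p, (G.S.lap f).1 p ^ 2 ∂G.M.mu)
  generalize √(∫ p, f.1 p ^ 2 ∂G.M.mu) = α, √(∫ p, (G.S.lap f).1 p ^ 2 ∂G.M.mu) = β at *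
  rw [e, ← a, ← b, mul_pow, mul_pow]
  refine mul_le_mul (by nlinarith [sq_nonneg (Real.exp (1 + k * r ^ 2 / 4))]) ?_ (by positivity)
    (by positivity)
  rw [div_eq_inv_mul, ← inv_pow, ← mul_pow, ← mul_pow]
  nlinarith [show 0 ≤ r⁻¹ * α * (r * β) by positivity]

variable (G)

/-- **the local sup bound** -/
theorem heat_loc (K : ℝ) : ∃ C : ℝ≥0, ∀ (v : G.R) (p₀ : X) (r : ℝ), 0 < r →
    (∀ p, (G.uu (G.M.x p₀)).1 p ≤ r ^ 2 → v.1 p ≠ 0 → G.S.h.1 p ^ 2 * r ^ 2 ≤ K) →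
    ‖v.1 p₀‖ₑ ≤ C * (ENNReal.ofReal r⁻¹ * G.nS {p | (G.uu (G.M.x p₀)).1 p ≤ r ^ 2} v +
      ∑ a, G.nS {p | (G.uu (G.M.x p₀)).1 p ≤ r ^ 2} (G.S.D a v) +
      ENNReal.ofReal r * ∑ a, G.nS {p | (G.uu (G.M.x p₀)).1 p ≤ r ^ 2} (G.S.D a (G.S.D a v))) := by
  obtain ⟨C, hC, hb⟩ := Hu.eta_bd
  obtain ⟨K', K0, hK⟩ : ∃ K' : ℝ, 0 ≤ K' ∧ K ≤ K' := ⟨max K 0, le_max_right _ _, le_max_left _ _⟩
  obtain ⟨C', hC'⟩ : ∃ C', C' = 2 * C * (5 + K') + 8 * C := ⟨_, rfl⟩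
  have C0 : 0 ≤ C' := by rw [hC']; positivity
  refine ⟨(3 * Real.exp (1 + K' / 4)).toNNReal * (1 + C'.toNNReal), fun v p₀ r hr hh => ?_⟩
  set y := G.M.x p₀
  set B := {p | (G.uu y).1 p ≤ r ^ 2} with hB
  have mB : MeasurableSet B := (G.cpt_uu y _).measurableSet
  have r2 : 0 < r ^ 2 := by positivity
  have hφ : ContDiff ℝ ∞ fun u => Hu.eta (2 / r ^ 2 * u) :=
    Hu.eta_sm.comp (contDiff_const.mul contDiff_id)
  have d1 : deriv (fun u => Hu.eta (2 / r ^ 2 * u)) =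
      fun u => 2 / r ^ 2 * deriv Hu.eta (2 / r ^ 2 * u) :=
    funext fun u => deriv_comp_mul_left _ _ _
  have d2 : ∀ u, deriv (deriv fun u => Hu.eta (2 / r ^ 2 * u)) u =
      2 / r ^ 2 * (2 / r ^ 2 * deriv (deriv Hu.eta) (2 / r ^ 2 * u)) := fun u => by
    rw [d1, deriv_const_mul_field, deriv_comp_mul_left, smul_eq_mul]
  set η := G.rad y hφ with hη
  have far : ∀ p, p ∉ B → 2 < 2 / r ^ 2 * (G.uu y).1 p := fun p hp => by
    rw [div_mul_eq_mul_div, lt_div_iff₀ r2]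
    linarith [(not_le.1 hp : r ^ 2 < (G.uu y).1 p)]
  have η0 : ∀ p, p ∉ B → η.1 p = 0 := fun p hp => Hu.eta_zero (far p hp).le
  have η1 : ∀ p, |η.1 p| ≤ 1 := fun p => abs_le.2
    ⟨(neg_nonpos.2 zero_le_one).trans (Hu.eta_nonneg _), Hu.eta_le _⟩
  have s0 : ∀ p, 0 ≤ 2 / r ^ 2 * (G.uu y).1 p := fun p =>
    mul_nonneg (by positivity) (G.uu_nonneg y p)
  have hc : HasCompactSupport (η * v).1 :=
    HasCompactSupport.intro (G.cpt_uu y _) fun p hp => mul_eq_zero_of_left (η0 p hp) _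
  have h := heat_e hc (k := K' / r ^ 2) (by positivity) hr (fun p hp => by
    rw [le_div_iff₀ r2]
    exact (hh p (by_contra fun h => hp (mul_eq_zero_of_left (η0 p h) _))
      fun h => hp (mul_eq_zero_of_right _ h)).trans hK) p₀
  have e0 : (η * v).1 p₀ = v.1 p₀ := by
    have : η.1 p₀ = 1 := Hu.eta_one (by simp [uu, y])
    exact (congrArg (· * v.1 p₀) this).trans (one_mul _)
  rw [e0, div_mul_cancel₀ _ r2.ne'] at h
  have e1 : G.S.lap (η * v) = G.S.lap η * v + (2 * G.S.D 0 η * G.S.D 0 v + 2 * G.S.D 1 η * G.S.D 1 v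
      + 2 * G.S.D 2 η * G.S.D 2 v) + (η * G.S.D 0 (G.S.D 0 v) + η * G.S.D 1 (G.S.D 1 v) +
        η * G.S.D 2 (G.S.D 2 v)) := by
    simp only [Pre.lap, G.hyp.mul, G.hyp.add, Fin.sum_univ_three]
    ring
  have t0 : ∀ w : G.R, G.nS univ (η * w) ≤ G.nS B w := fun w => by
    simpa using nS_univ_le (f := η * w) (g := w) (c := 1) mB (fun p _ => by
      rw [show (η * w).1 p = η.1 p * w.1 p from rfl, abs_mul]
      exact mul_le_mul_of_nonneg_right (η1 p) (abs_nonneg _))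
      fun p hp => mul_eq_zero_of_left (η0 p hp) _
  have t1 : ∀ a, G.nS univ (2 * G.S.D a η * G.S.D a v) ≤
      ENNReal.ofReal (C' / r) * G.nS B (G.S.D a v) := fun a => by
    have e : ∀ p, (2 * G.S.D a η * G.S.D a v).1 p = 2 * (2 / r ^ 2 *
        deriv Hu.eta (2 / r ^ 2 * (G.uu y).1 p) * (G.S.D a (G.uu y)).1 p) * (G.S.D a v).1 p :=
      fun p => by
        have := G.D_rad y p hφ a
        rw [d1] at this
        rw [← this]; rfl
    refine nS_univ_le mB (fun p hp => ?_) fun p hp => by rw [e, (eta_far (far p hp)).1]; ring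
    rw [e, abs_mul]
    refine mul_le_mul_of_nonneg_right ?_ (abs_nonneg _)
    have b1 := (hb _ (s0 p)).1
    have b2 : |(G.S.D a (G.uu y)).1 p| ≤ 2 * r := by
      refine abs_le_of_sq_le_sq ?_ (by positivity)
      have c1 := G.gam_uu y p
      rw [gam_ptH] at c1
      have c2 := Finset.single_le_sum (f := fun a => (G.S.D a (G.uu y)).1 p * (G.S.D a (G.uu y)).1 p)
        (fun _ _ => mul_self_nonneg _) (Finset.mem_univ a)
      have c3 : (G.uu y).1 p ≤ r ^ 2 := hp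
      nlinarith [sq_nonneg (G.zn y p)]
    rw [abs_mul, abs_mul, abs_mul, abs_two, abs_of_pos (by positivity : 0 < 2 / r ^ 2)]
    calc _ ≤ 2 * (2 / r ^ 2 * C * (2 * r)) := by gcongr
      _ = 8 * C / r := by field_simp; ring
      _ ≤ _ := by gcongr; rw [hC']; nlinarith
  have t2 : G.nS univ (G.S.lap η * v) ≤ ENNReal.ofReal (C' / r ^ 2) * G.nS B v := by
    have e : ∀ p, (G.S.lap η * v).1 p = (2 / r ^ 2 * deriv Hu.eta (2 / r ^ 2 * (G.uu y).1 p) *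
        (4 - 2 * (G.S.h.1 p * G.zn y p)) + 2 / r ^ 2 * (2 / r ^ 2 * deriv (deriv Hu.eta)
          (2 / r ^ 2 * (G.uu y).1 p)) * (4 * ((G.uu y).1 p - G.zn y p ^ 2))) * v.1 p := fun p => by
      have := G.lap_rad y p hφ
      rw [d2, d1] at this
      rw [← this]; rfl
    refine nS_univ_le mB (fun p hp => ?_) fun p hp => by
      rw [e, (eta_far (far p hp)).1, (eta_far (far p hp)).2]; ring
    rw [e, abs_mul]
    rcases eq_or_ne (v.1 p) 0 with h0 | h0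
    · simp [h0]
    refine mul_le_mul_of_nonneg_right ?_ (abs_nonneg _)
    obtain ⟨b1, b2⟩ := hb _ (s0 p)
    have c1 := (hh p hp h0).trans hK
    have c2 := G.zn_sq_le y p
    have c3 : (G.uu y).1 p ≤ r ^ 2 := hp
    have c4 : (G.S.h.1 p * G.zn y p) ^ 2 ≤ K' := by
      rw [mul_pow]
      exact (mul_le_mul_of_nonneg_left (c2.trans c3) (sq_nonneg _)).trans c1
    have c5 : |4 - 2 * (G.S.h.1 p * G.zn y p)| ≤ 5 + K' := by
      rw [abs_le]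
      constructor <;> nlinarith [sq_nonneg (G.S.h.1 p * G.zn y p - 1),
        sq_nonneg (G.S.h.1 p * G.zn y p + 1)]
    have c6 : |4 * ((G.uu y).1 p - G.zn y p ^ 2)| ≤ 4 * (G.uu y).1 p := by
      rw [abs_of_nonneg (by linarith)]; nlinarith [sq_nonneg (G.zn y p)]
    refine (abs_add_le _ _).trans ?_
    simp only [abs_mul (2 / r ^ 2 * _), abs_mul (2 / r ^ 2), abs_of_pos (by positivity : 0 < 2 / r ^ 2)]
    calc _ ≤ 2 / r ^ 2 * C * (5 + K') + 2 / r ^ 2 * (2 / r ^ 2 *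
          |deriv (deriv Hu.eta) (2 / r ^ 2 * (G.uu y).1 p)|) * (4 * (G.uu y).1 p) := by gcongr
      _ = 2 / r ^ 2 * C * (5 + K') + 8 / r ^ 2 *
          (|deriv (deriv Hu.eta) (2 / r ^ 2 * (G.uu y).1 p)| * (2 / r ^ 2 * (G.uu y).1 p)) := by ring
      _ ≤ 2 / r ^ 2 * C * (5 + K') + 8 / r ^ 2 * C := by gcongr
      _ = _ := by rw [hC']; ring
  have t3 : G.nS univ (G.S.lap (η * v)) ≤ ENNReal.ofReal (C' / r ^ 2) * G.nS B v +
      ENNReal.ofReal (C' / r) * ∑ a, G.nS B (G.S.D a v) + ∑ a, G.nS B (G.S.D a (G.S.D a v)) := by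
    rw [e1, Fin.sum_univ_three, Fin.sum_univ_three, mul_add, mul_add]
    refine (nS_add _ _ _).trans (add_le_add ((nS_add _ _ _).trans (add_le_add t2 ?_)) ?_)
    · exact (nS_add _ _ _).trans (add_le_add ((nS_add _ _ _).trans (add_le_add (t1 0) (t1 1))) (t1 2))
    · exact (nS_add _ _ _).trans (add_le_add ((nS_add _ _ _).trans (add_le_add (t0 _) (t0 _))) (t0 _))
  refine h.trans ?_
  rw [ENNReal.coe_mul, mul_assoc]
  refine mul_le_mul_right ((add_le_add (mul_le_mul_right (t0 v) _) (mul_le_mul_right t3 _)).trans ?_) _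
  have q1 : ENNReal.ofReal r * ENNReal.ofReal (C' / r ^ 2) =
      ENNReal.ofReal C' * ENNReal.ofReal r⁻¹ := by
    rw [← ENNReal.ofReal_mul hr.le, ← ENNReal.ofReal_mul C0]; congr 1; field_simp
  have q2 : ENNReal.ofReal r * ENNReal.ofReal (C' / r) = ENNReal.ofReal C' := by
    rw [← ENNReal.ofReal_mul hr.le]; congr 1; field_simp
  rw [mul_add, mul_add, ← mul_assoc, ← mul_assoc, q1, q2, mul_assoc]
  generalize ENNReal.ofReal r⁻¹ * G.nS B v = a, ∑ a, G.nS B (G.S.D a v) = b,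
    ENNReal.ofReal r * ∑ a, G.nS B (G.S.D a (G.S.D a v)) = c
  show _ ≤ ((1 + C'.toNNReal : ℝ≥0) : ℝ≥0∞) * _
  rw [ENNReal.coe_add, ENNReal.coe_one, show ((C'.toNNReal : ℝ≥0) : ℝ≥0∞) = ENNReal.ofReal C' from rfl]
  calc _ ≤ a + (ENNReal.ofReal C' * a + ENNReal.ofReal C' * b + c) + (b + ENNReal.ofReal C' * c) :=
        le_self_add
    _ = _ := by ring

theorem rad_pt {t k r χ e v w : ℝ} (ht : 4 * k ≤ t) (hk : 0 ≤ k) (hr : 1 ≤ r) (h0 : 0 ≤ χ)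
    (h1 : χ ≤ 1) (he : e ≤ 0) :
    2 * r ^ 2 * (r ^ 2 + t)⁻¹ ^ 2 * χ * v ^ 2 +
      ((-(1 + t)⁻¹ ^ 2 * (2 * (t - 4 * k)) - -(r ^ 2 + t)⁻¹ ^ 2 * (2 * (t - 4 * k))) * χ * v ^ 2 +
        ((1 + t)⁻¹ - (r ^ 2 + t)⁻¹) * (e * v ^ 2 + 2 * χ * v * w + (2 - 2 * k) * χ * v ^ 2)) ≤
      (2 + 8 * k) * (1 + t)⁻¹ ^ 2 * v ^ 2 + 2 * (1 + t)⁻¹ * |v * w| := by
  have t0 : 0 ≤ t := by linarith
  have r1 : 1 ≤ r ^ 2 := by nlinarith
  have a0 : 0 < (1 + t)⁻¹ := by positivity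
  have b0 : 0 < (r ^ 2 + t)⁻¹ := by positivity
  have ab : (r ^ 2 + t)⁻¹ ≤ (1 + t)⁻¹ := by gcongr
  have a1 : (1 + t)⁻¹ * (1 + t) = 1 := inv_mul_cancel₀ (by positivity)
  have b1 : (r ^ 2 + t)⁻¹ * (r ^ 2 + t) = 1 := inv_mul_cancel₀ (by positivity)
  generalize (1 + t)⁻¹ = a, (r ^ 2 + t)⁻¹ = b at *
  have c1 : (a - b) * (2 * χ * v * w) ≤ 2 * a * |v * w| := by
    calc _ = 2 * ((a - b) * χ) * (v * w) := by ring
      _ ≤ 2 * ((a - b) * χ) * |v * w| := by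
          have : 0 ≤ a - b := by linarith
          gcongr; exact le_abs_self _
      _ ≤ _ := by gcongr; nlinarith
  have c2 : (a - b) * (e * v ^ 2) ≤ 0 :=
    mul_nonpos_of_nonneg_of_nonpos (by linarith) (mul_nonpos_of_nonpos_of_nonneg he (sq_nonneg _))
  have c3 : 2 * r ^ 2 * b ^ 2 + (-a ^ 2 * (2 * (t - 4 * k)) - -b ^ 2 * (2 * (t - 4 * k))) +
      (a - b) * (2 - 2 * k) ≤ (2 + 8 * k) * a ^ 2 := by
    have : 0 ≤ k * (a - b) := mul_nonneg hk (by linarith)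
    have : 0 ≤ k * b ^ 2 := by positivity
    nlinarith [congrArg (· * a) a1, congrArg (· * b) b1]
  have c4 := mul_le_mul_of_nonneg_right c3 (show 0 ≤ χ * v ^ 2 by positivity)
  have c5 : (2 + 8 * k) * a ^ 2 * (χ * v ^ 2) ≤ (2 + 8 * k) * a ^ 2 * (1 * v ^ 2) := by gcongr
  nlinarith

/-- **the radial trace estimate** -/
theorem rad_le : ∃ C : ℝ≥0, ∀ (v : G.R) (r : ℝ), 1 ≤ r → (∀ p, v.1 p ≠ 0 → p ∈ tsupport G.ζ.1) →
    G.nS {p | G.S.x2.1 p ≤ 4 * r ^ 2} v ≤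
      C * ENNReal.ofReal r * (G.nR v + G.nR (G.ρ ^ 2 * G.S.dr v)) := by
  obtain ⟨Z, hZ⟩ := G.zone
  obtain ⟨Ch, Ch0, hh⟩ := G.sy_h.bd
  obtain ⟨Q, Q0, hQ⟩ : ∃ Q : ℝ, 0 ≤ Q ∧ (3 + 8 * Ch ^ 2) * max Z 0 ≤ Q := ⟨_, by positivity, le_rfl⟩
  refine ⟨(√(25 * Q)).toNNReal, fun v r hr hv => le_of_sq_le ?_⟩
  have r0 : 0 < r := by linarith
  have r2 : 0 < r ^ 2 := by positivity
  obtain ⟨k, hk⟩ := exists_nat_ge (4 * r ^ 2)
  have H := G.hyp
  set A := {p | G.S.x2.1 p ≤ 4 * r ^ 2} with hA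
  have mA : MeasurableSet A := (G.prop _).measurableSet
  obtain ⟨g, hg⟩ : ∃ g, g = (G.invR one_pos - G.invR r2) * G.chi k * v * v := ⟨_, rfl⟩
  have e1 : G.S.dv (fun a => g * G.S.D a G.S.x2) = 2 * G.S.dr g + (4 - 4 * G.S.h * G.S.h) * g := by
    have a := H.lap_x2
    have b := H.n_D g
    rw [G.shr] at a
    simp only [Pre.dv, Pre.lap, Mov.dr, H.mul, Fin.sum_univ_three, Fintype.card_fin] at a b ⊢
    simp only [H.D_x2] at a ⊢
    push_cast at a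
    linear_combination g * a - 2 * G.S.xn * b
  have e2 : G.S.dr g = (G.S.dr (G.invR one_pos) - G.S.dr (G.invR r2)) * G.chi k * v ^ 2 +
      (G.invR one_pos - G.invR r2) * (G.S.dr (G.chi k) * v ^ 2 + 2 * G.chi k * v * G.S.dr v) := by
    simp only [hg, Mov.dr, H.mul, H.toIsDS.D_sub, Fin.sum_univ_three]
    ring
  have key := G.lint_le (a := A.indicator fun p => v.1 p ^ 2)
    (b := fun p => 25 * Q * r ^ 2 * (v.1 p ^ 2 * G.m.1 p + (G.ρ ^ 2 * G.S.dr v).1 p ^ 2 * G.m.1 p))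
    ((integrable_indicator_iff mA).2 (((cont v).pow 2).continuousOn.integrableOn_compact (G.prop _)))
    (indicator_nonneg fun _ _ => sq_nonneg _)
    (by have := cont v; have := cont G.m; have := cont (G.ρ ^ 2 * G.S.dr v); fun_prop)
    (fun p => by have := (G.m_pos p).le; positivity)
    (Y := fun a => g * G.S.D a G.S.x2)
    (fun a => (G.chi_cs k).mono fun p hp h => hp (by simp [hg, h]))
    (H.tan_of (by
      have a := H.n_D G.S.x2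
      simp only [Fin.sum_univ_three] at a ⊢
      linear_combination g * a)) (c := -(25 * r ^ 2 / 4)) fun p => ?_
  · rw [nS_sq, ← lintegral_indicator mA]
    refine le_trans (le_of_eq (lintegral_congr fun p => ?_)) (key.trans ?_)
    · by_cases hp : p ∈ A <;> simp [hp]
    have m0 := fun p => (G.m_pos p).le
    simp only [ENNReal.ofReal_mul (show 0 ≤ 25 * Q * r ^ 2 by positivity),
      ENNReal.ofReal_add (mul_nonneg (sq_nonneg _) (m0 _)) (mul_nonneg (sq_nonneg _) (m0 _))]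
    have ms : Measurable fun p => ENNReal.ofReal (v.1 p ^ 2 * G.m.1 p) :=
      (((G.meas_R _).pow_const 2).mul (G.meas_R _)).ennreal_ofReal
    rw [lintegral_const_mul' _ _ ENNReal.ofReal_ne_top, lintegral_add_left ms, ← nR_sq, ← nR_sq,
      mul_pow]
    refine mul_le_mul' (le_of_eq ?_) ?_
    · rw [show (((√(25 * Q)).toNNReal : ℝ≥0) : ℝ≥0∞) = ENNReal.ofReal √(25 * Q) from rfl,
        ← ENNReal.ofReal_mul (Real.sqrt_nonneg _), ← ENNReal.ofReal_pow (by positivity), mul_pow,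
        Real.sq_sqrt (by positivity)]
    · rw [add_sq, add_right_comm]; exact le_self_add
  have e3 : (G.S.dv (fun a => g * G.S.D a G.S.x2)).1 p = 2 * (((G.S.dr (G.invR one_pos)).1 p -
      (G.S.dr (G.invR r2)).1 p) * (G.chi k).1 p * v.1 p ^ 2 + ((1 + G.S.x2.1 p)⁻¹ -
        (r ^ 2 + G.S.x2.1 p)⁻¹) * ((G.S.dr (G.chi k)).1 p * v.1 p ^ 2 +
          2 * (G.chi k).1 p * v.1 p * (G.S.dr v).1 p)) + (4 - 4 * G.S.h.1 p * G.S.h.1 p) *
      (((1 + G.S.x2.1 p)⁻¹ - (r ^ 2 + G.S.x2.1 p)⁻¹) * (G.chi k).1 p * v.1 p * v.1 p) := by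
    rw [e1, e2, hg]; rfl
  have e4 : G.S.xn.1 p = 2 * G.S.h.1 p := congrArg (G.ev p) G.shr
  have e5 : (G.ρ ^ 2 * G.S.dr v).1 p = G.ρ.1 p ^ 2 * (G.S.dr v).1 p := rfl
  have m0 := (G.m_pos p).le
  rcases eq_or_ne (v.1 p) 0 with h0 | h0
  · have : A.indicator (fun p => v.1 p ^ 2) p = 0 := by by_cases hp : p ∈ A <;> simp [hp, h0]
    rw [this, e3, h0]
    simp only [ne_eq, OfNat.ofNat_ne_zero, not_false_eq_true, zero_pow, mul_zero, zero_mul, add_zero,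
      zero_add]
    positivity
  have t0 := G.x2_nonneg p
  have b0 := G.xn_sq_le' p
  rw [e4] at b0
  have b1 := rad_pt (t := G.S.x2.1 p) (k := G.S.h.1 p ^ 2) (v := v.1 p) (w := (G.S.dr v).1 p)
    (by linarith) (sq_nonneg _) hr (G.chi_nonneg k p) (G.chi_le k p) (G.dr_chi k p)
  have b2 : A.indicator (fun p => v.1 p ^ 2) p ≤ 25 * r ^ 2 / 2 *
      (2 * r ^ 2 * (r ^ 2 + G.S.x2.1 p)⁻¹ ^ 2 * (G.chi k).1 p * v.1 p ^ 2) := by
    by_cases hp : p ∈ A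
    · have h1 : G.S.x2.1 p ≤ 4 * r ^ 2 := hp
      have h2 : (G.chi k).1 p = 1 := Hu.eta_one (by
        rw [one_div_mul_eq_div, div_le_one (by positivity)]; linarith)
      have h3 : (5 * r ^ 2)⁻¹ ≤ (r ^ 2 + G.S.x2.1 p)⁻¹ := by gcongr; linarith
      rw [indicator_of_mem hp, h2]
      calc _ = 25 * r ^ 2 / 2 * (2 * r ^ 2 * (5 * r ^ 2)⁻¹ ^ 2 * 1 * v.1 p ^ 2) := by
            field_simp; ring
        _ ≤ _ := by gcongr
    · rw [indicator_of_notMem hp]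
      have := G.chi_nonneg k p
      positivity
  have ι0 := G.ι_pos p
  have b3 : (1 + G.S.x2.1 p)⁻¹ ≤ G.ι.1 p ^ 2 := by
    rw [ι_eq, inv_pow]
    exact inv_anti₀ (pow_pos (G.ρ_pos p) 2) (G.ρ_le p)
  have b4 : G.S.h.1 p ^ 2 ≤ Ch ^ 2 := by
    refine sq_le_sq' (abs_le.1 ?_).1 (abs_le.1 ?_).2 <;>
    exact (hh p).trans (mul_le_of_le_one_right Ch0 (by simpa using G.zpow_mono p (k := -1) (k' := 0) (by norm_num)))
  have b5 : G.ι.1 p ^ 4 ≤ max Z 0 * G.m.1 p :=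
    (hZ p (hv p h0)).2.trans (mul_le_mul_of_nonneg_right (le_max_left _ _) m0)
  have b6 : 2 * |v.1 p * (G.S.dr v).1 p| ≤
      G.ι.1 p ^ 2 * (v.1 p ^ 2 + (G.ρ.1 p ^ 2 * (G.S.dr v).1 p) ^ 2) := by
    have : (G.S.dr v).1 p = G.ι.1 p ^ 2 * (G.ρ.1 p ^ 2 * (G.S.dr v).1 p) := by
      rw [← mul_assoc, ← mul_pow, mul_comm (G.ι.1 p), G.ρι_ev p, one_pow, one_mul]
    generalize G.ρ.1 p ^ 2 * (G.S.dr v).1 p = w at *
    rw [this, mul_left_comm, abs_mul, abs_of_pos (pow_pos ι0 2), mul_left_comm, abs_mul, ← sq_abs w,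
      ← sq_abs (v.1 p)]
    gcongr
    nlinarith [sq_nonneg (|v.1 p| - |w|)]
  have b7 : (2 + 8 * G.S.h.1 p ^ 2) * (1 + G.S.x2.1 p)⁻¹ ^ 2 * v.1 p ^ 2 +
      2 * (1 + G.S.x2.1 p)⁻¹ * |v.1 p * (G.S.dr v).1 p| ≤
      Q * (v.1 p ^ 2 * G.m.1 p + (G.ρ.1 p ^ 2 * (G.S.dr v).1 p) ^ 2 * G.m.1 p) := by
    generalize G.ρ.1 p ^ 2 * (G.S.dr v).1 p = w at *
    calc _ = (2 + 8 * G.S.h.1 p ^ 2) * (1 + G.S.x2.1 p)⁻¹ ^ 2 * v.1 p ^ 2 +
          (1 + G.S.x2.1 p)⁻¹ * (2 * |v.1 p * (G.S.dr v).1 p|) := by ring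
      _ ≤ (2 + 8 * Ch ^ 2) * (G.ι.1 p ^ 2) ^ 2 * (v.1 p ^ 2 + w ^ 2) +
          G.ι.1 p ^ 2 * (G.ι.1 p ^ 2 * (v.1 p ^ 2 + w ^ 2)) := by
        gcongr; exact le_add_of_nonneg_right (sq_nonneg _)
      _ = (3 + 8 * Ch ^ 2) * G.ι.1 p ^ 4 * (v.1 p ^ 2 + w ^ 2) := by ring
      _ ≤ (3 + 8 * Ch ^ 2) * (max Z 0 * G.m.1 p) * (v.1 p ^ 2 + w ^ 2) := by gcongr
      _ = (3 + 8 * Ch ^ 2) * max Z 0 * (v.1 p ^ 2 * G.m.1 p + w ^ 2 * G.m.1 p) := by ring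
      _ ≤ _ := by gcongr
  rw [e3, e5, dr_invR, dr_invR, e4]
  have b8 := mul_le_mul_of_nonneg_left (b1.trans b7) (show 0 ≤ 25 * r ^ 2 / 2 by positivity)
  have b9 : 0 ≤ Q * r ^ 2 * (v.1 p ^ 2 * G.m.1 p + (G.ρ.1 p ^ 2 * (G.S.dr v).1 p) ^ 2 * G.m.1 p) := by
    positivity
  linarith

end Crest.Agent.N250.WS.Geo

end
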