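import Crest.Agent.N250.Wt.Defs

/-!
# Row 250, weighted theory (helper49): limits of smooth vector valued functions, `SC.D = td`
-/

set_option autoImplicit false
set_option linter.unusedSectionVars false
open MeasureTheory Set Filter Topology Function
open scoped ContDiff

noncomputable section

namespace Crest.Agent.N250

open Crest.Agent.N222 hiding E ee

namespace WS

namespace Lim

variable {d : ℕ} {ι : Type} [Fintype ι] [DecidableEq ι] {X : Type} [TopologicalSpace X]
  {F : Type} [NormedAddCommGroup F] [NormedSpace ℝ F]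

/-- iterated tangential derivatives of vector valued functions -/
def DW (M : Imm d ι X) : List ι → (X → F) → X → F
  | [], f => f
  | a :: l, f => fun p => M.td (DW M l f) p (N222.ee a)

theorem sm_DW {M : Imm d ι X} {f : X → F} (hf : M.Sm f) (l : List ι) : M.Sm (DW M l f) := by
  induction l with
  | nil => exact hf
  | cons a l ih =>
    exact ih.td.comp (ContinuousLinearMap.apply ℝ F (N222.ee a)).contDiff

/-- `v ↦ ∑ a, (J v) a • c a` -/
def Ph (J : N222.E (Fin d) →L[ℝ] N222.E ι) (c : ι → F) : N222.E (Fin d) →L[ℝ] F :=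
  ∑ a, ((EuclideanSpace.proj a : N222.E ι →L[ℝ] ℝ).smulRight (c a)) ∘L J

theorem Ph_eq (T : N222.E ι →L[ℝ] F) (J : N222.E (Fin d) →L[ℝ] N222.E ι) :
    T ∘L J = Ph J fun a => T (N222.ee a) := by
  ext1 v
  rw [ContinuousLinearMap.comp_apply, eq_sum_ee (J v), map_sum]
  simp [Ph]

theorem contDiff_Ph :
    ContDiff ℝ ∞ fun q : (N222.E (Fin d) →L[ℝ] N222.E ι) × (ι → F) => Ph q.1 q.2 := by
  unfold Ph
  refine ContDiff.sum fun a _ => ContDiff.clm_comp ?_ contDiff_fst
  exact (ContinuousLinearMap.smulRightL ℝ (N222.E ι) F (EuclideanSpace.proj a)).contDiff.comp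
    ((contDiff_apply ℝ F a).comp contDiff_snd)

theorem Ph_sub (J : N222.E (Fin d) →L[ℝ] N222.E ι) (c c' : ι → F) :
    Ph J c - Ph J c' = Ph J (c - c') := by
  ext1 v
  simp [Ph, smul_sub, Finset.sum_sub_distrib]

theorem Ph_zero (J : N222.E (Fin d) →L[ℝ] N222.E ι) : Ph J (0 : ι → F) = 0 := by
  ext1 v
  simp [Ph]

variable {M : Imm d ι X} {α : Type} {L : Filter α} [L.NeBot] {f : α → X → F}
  {g : List ι → X → F}

theorem hasF (hf : ∀ i, M.Sm (f i))
    (h : ∀ l, TendstoLocallyUniformly (fun i => DW M l (f i)) (g l) L) (p : X) (l : List ι)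
    {z : N222.E (Fin d)} (hz : z ∈ (M.ch p).target) :
    HasFDerivAt (g l ∘ (M.ch p).symm) (Ph (fderiv ℝ (M.x ∘ (M.ch p).symm) z)
      fun a => g (a :: l) ((M.ch p).symm z)) z := by
  have he := M.isChart p
  have ht := (M.ch p).open_target.mem_nhds hz
  refine hasFDerivAt_of_tendstoUniformlyOnFilter (l := L)
    (f := fun i => DW M l (f i) ∘ (M.ch p).symm)
    (f' := fun i y => Ph (fderiv ℝ (M.x ∘ (M.ch p).symm) y)
      fun a => DW M (a :: l) (f i) ((M.ch p).symm y))
    (g' := fun y => Ph (fderiv ℝ (M.x ∘ (M.ch p).symm) y)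
      fun a => g (a :: l) ((M.ch p).symm y)) ?_ ?_ ?_
  · have c1 : Tendsto (fun q : α × N222.E (Fin d) => fderiv ℝ (M.x ∘ (M.ch p).symm) q.2)
        (L ×ˢ 𝓝 z) (𝓝 (fderiv ℝ (M.x ∘ (M.ch p).symm) z)) :=
      ((he.sm.continuousOn_fderiv_of_isOpen (M.ch p).open_target (by simp)).continuousAt
        ht).tendsto.comp tendsto_snd
    have c2 : Tendsto (fun q : α × N222.E (Fin d) => (fun a => g (a :: l) ((M.ch p).symm q.2)) -
        fun a => DW M (a :: l) (f q.1) ((M.ch p).symm q.2)) (L ×ˢ 𝓝 z) (𝓝 0) := by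
      refine tendsto_pi_nhds.2 fun a => ?_
      rw [Pi.zero_apply, tendsto_zero_iff_norm_tendsto_zero, Metric.tendsto_nhds]
      intro ε hε
      have := Metric.tendstoUniformlyOnFilter_iff.1
        (tendstoLocallyUniformly_iff_filter.1 (h (a :: l)) ((M.ch p).symm z)) ε hε
      filter_upwards [(tendsto_id.prodMap ((M.ch p).continuousAt_symm hz).tendsto).eventually this]
        with q hq
      rw [dist_zero_right, norm_norm, Pi.sub_apply, ← dist_eq_norm]
      exact hq
    have c3 := ((contDiff_Ph (d := d) (ι := ι) (F := F)).continuous.tendsto _).comp (c1.prodMk_nhds c2)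
    rw [Ph_zero] at c3
    rw [Metric.tendstoUniformlyOnFilter_iff]
    intro ε hε
    filter_upwards [Metric.tendsto_nhds.1 c3 ε hε] with q hq
    rw [dist_eq_norm, Ph_sub]
    rwa [dist_zero_right] at hq
  · filter_upwards [tendsto_snd.eventually ht] with q hq
    have h1 := (((sm_DW (hf q.1) l) p).contDiffAt
      ((M.ch p).open_target.mem_nhds hq)).differentiableAt (by simp)
    have h2 := Imm.fderiv_chart (DW M l (f q.1)) he ((M.ch p).map_target hq)
    rw [(M.ch p).right_inv hq, Ph_eq] at h2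
    have := h1.hasFDerivAt
    rw [h2] at this
    exact this
  · exact Eventually.of_forall fun y => (h l).tendstoLocallyUniformlyOn.tendsto_at (mem_univ _)

theorem sm_lim (hf : ∀ i, M.Sm (f i))
    (h : ∀ l, TendstoLocallyUniformly (fun i => DW M l (f i)) (g l) L) (l : List ι) :
    M.Sm (g l) := by
  intro p
  have hd : ∀ l, DifferentiableOn ℝ (g l ∘ (M.ch p).symm) (M.ch p).target := fun l z hz =>
    (hasF hf h p l hz).differentiableAt.differentiableWithinAt
  have hJ : ContDiffOn ℝ ∞ (fderiv ℝ (M.x ∘ (M.ch p).symm)) (M.ch p).target :=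
    (M.isChart p).sm.fderiv_of_isOpen (M.ch p).open_target (by simp)
  rw [contDiffOn_infty]
  intro n
  induction n generalizing l with
  | zero => exact contDiffOn_zero.2 (hd l).continuousOn
  | succ n ih =>
    rw [Nat.cast_succ, contDiffOn_succ_iff_fderiv_of_isOpen (M.ch p).open_target]
    refine ⟨hd l, fun h0 => by simp at h0, ?_⟩
    have := ((contDiff_Ph (d := d) (ι := ι) (F := F)).of_le
      (show (n : WithTop ℕ∞) ≤ ∞ by exact_mod_cast le_top)).comp_contDiffOn
      ((hJ.of_le (by exact_mod_cast le_top)).prodMk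
        (contDiffOn_pi.2 fun a => ih (a :: l)))
    exact this.congr fun z hz => (hasF hf h p l hz).fderiv

theorem td_lim (hf : ∀ i, M.Sm (f i))
    (h : ∀ l, TendstoLocallyUniformly (fun i => DW M l (f i)) (g l) L) (l : List ι) (a : ι)
    (p : X) : M.td (g l) p (N222.ee a) = g (a :: l) p := by
  have hz := (M.ch p).map_source (M.mem p)
  have k : ∀ b, Tendsto (fun i => DW M (b :: l) (f i) p) L (𝓝 (g (b :: l) p)) := fun b =>
    (h _).tendstoLocallyUniformlyOn.tendsto_at (mem_univ _)
  refine tendsto_nhds_unique ?_ (k a)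
  have c := ((ContinuousLinearMap.apply ℝ F (ContinuousLinearMap.adjoint (Lam (M.J p))
    (N222.ee a))).continuous.tendsto _).comp (((contDiff_Ph (d := d) (ι := ι) (F := F)).continuous.tendsto _).comp
      ((tendsto_const_nhds (x := M.J p)).prodMk_nhds (tendsto_pi_nhds.2 k)))
  rw [Imm.td, (hasF hf h p l hz).fderiv, (M.ch p).left_inv (M.mem p)]
  refine c.congr fun i => ?_
  have h2 := Imm.fderiv_chart (DW M l (f i)) (M.isChart p) (M.mem p)
  rw [Ph_eq] at h2
  change _ = M.td (DW M l (f i)) p (N222.ee a)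
  rw [Imm.td, h2]
  rfl

theorem DW_lim (hf : ∀ i, M.Sm (f i))
    (h : ∀ l, TendstoLocallyUniformly (fun i => DW M l (f i)) (g l) L) (l : List ι) :
    DW M l (g []) = g l := by
  induction l with
  | nil => rfl
  | cons a l ih => funext p; rw [DW, ih]; exact td_lim hf h l a p

end Lim

variable {X : Type} [TopologicalSpace X] [MeasurableSpace X] (G : Geo X)

theorem Geo.SC_D_td (a : Fin 3) (f : G.SmC) (p : X) :
    (G.SC.D a f).1 p = G.M.td f.1 p (N222.ee a) := by
  have hd := Imm.Sm.diffAt (M := G.M) f.2 p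
  have h1 := Imm.td_comp hd Complex.reCLM.differentiableAt
  have h2 := Imm.td_comp hd Complex.imCLM.differentiableAt
  rw [ContinuousLinearMap.fderiv] at h1 h2
  change ((G.M.td (fun p => Complex.reCLM (f.1 p)) p (N222.ee a) : ℝ) : ℂ) +
    Complex.I * ((G.M.td (fun p => Complex.imCLM (f.1 p)) p (N222.ee a) : ℝ) : ℂ) = _
  rw [h1, h2, mul_comm]
  exact Complex.re_add_im _

theorem Geo.SC_Dw_DW (l : List (Fin 3)) (f : G.SmC) : (G.SC.Dw l f).1 = Lim.DW G.M l f.1 := by
  induction l with
  | nil => rfl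
  | cons a l ih => funext p; rw [Mov.Dw, G.SC_D_td, ih, Lim.DW]

end WS

end Crest.Agent.N250

end
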